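import Vale.Agent.P247.H350.FF4
import Vale.Agent.P247.H647.Sta

/-!
# `FF_statement`: no concentration of `F ∧ F / r`
-/

open MeasureTheory Set Topology Filter
open scoped ContDiff ComplexConjugate

namespace Vale.Agent.P247.H350.FF

noncomputable section

open Vale.Agent.P247.H574 (dd tr w4 F2)
open Vale.Agent.P247.H74 (e)

/-! ### components -/

/-- `inner v (Eij i j)` is the component `i j` -/
def Eij : Fin 4 → Fin 4 → V6 :=
  let s : Fin 6 → V6 := fun i => EuclideanSpace.single i 1
  ![![0, s 0, s 1, s 2], ![-s 0, 0, s 3, s 4], ![-s 1, -s 3, 0, s 5], ![-s 2, -s 4, -s 5, 0]]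

def unv (v : V6) : Mt ℝ := fun i j => inner ℝ v (Eij i j)

theorem unv_vec {g : Mt ℝ} (hg : ∀ i j, g j i = - g i j) : unv (vec g) = g := by
  funext i j
  have h0 := fun i => hg i i
  unfold unv
  fin_cases i <;> fin_cases j <;>
    simp [Eij, vec, inner_neg_right, EuclideanSpace.inner_single_right] <;>
    first
    | linarith [h0 0, h0 1, h0 2, h0 3, hg 0 1, hg 0 2, hg 0 3, hg 1 2, hg 1 3, hg 2 3]

theorem unv_anti (v : V6) (i j : Fin 4) : unv v j i = - unv v i j := by
  unfold unv
  fin_cases i <;> fin_cases j <;> simp [Eij]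

theorem vec_unv (v : V6) : vec (unv v) = v := by
  ext i
  unfold unv
  fin_cases i <;> simp [Eij, vec, EuclideanSpace.inner_single_right]

theorem unv_add (u v : V6) : unv (u + v) = fun i j => unv u i j + unv v i j := by
  funext i j
  exact inner_add_left _ _ _

theorem unv_smul (c : ℝ) (v : V6) : unv (c • v) = fun i j => c * unv v i j := by
  funext i j
  exact real_inner_smul_left _ _ _

theorem cont_unv {l : R4 → V6} (hl : Continuous l) (i j : Fin 4) :
    Continuous fun x => unv (l x) i j := hl.inner continuous_const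

/-! ### Fourier coefficients of sums and constants -/

theorem fc_add' {f g : R4 → ℂ} (hf : Continuous f) (hg : Continuous g) (k : Fin 4 → ℤ) :
    fc (fun x => f x + g x) k = fc f k + fc g k := by
  unfold fc
  have h1 : Continuous fun x => ch (-k) x * f x := (ch_cont _).mul hf
  have h2 : Continuous fun x => ch (-k) x * g x := (ch_cont _).mul hg
  rw [← integral_add h1.integrableOn_Icc h2.integrableOn_Icc]
  simp only [mul_add]

theorem fc_smul' (c : ℂ) (f : R4 → ℂ) (k : Fin 4 → ℤ) :
    fc (fun x => c * f x) k = c * fc f k := by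
  unfold fc
  rw [← integral_const_mul]
  refine integral_congr_ae (Eventually.of_forall fun x => ?_)
  show ch (-k) x * (c * f x) = c * (ch (-k) x * f x)
  ring

theorem fc_const {k : Fin 4 → ℤ} (hk : k ≠ 0) (c : ℂ) : fc (fun _ => c) k = 0 := by
  obtain ⟨j, hj⟩ := Function.ne_iff.1 hk
  have h := fc_pd (f := fun _ : R4 => c) contDiff_const (fun _ _ => rfl) j k
  have h0 : fc (fun x : R4 => fderiv ℝ (fun _ : R4 => c) x (Pi.single j 1)) k = 0 := by
    unfold fc
    simp
  rw [h0] at h
  have h1 : (2 * Real.pi * Complex.I * k j : ℂ) ≠ 0 := by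
    have : (k j : ℂ) ≠ 0 := by exact_mod_cast hj
    have h2 : (Real.pi : ℂ) ≠ 0 := by exact_mod_cast Real.pi_ne_zero
    simp [this, h2]
  exact (mul_eq_zero.1 h.symm).resolve_left h1

theorem fc_zero (f : R4 → ℂ) : fc f 0 = ∫ x in Icc (0 : R4) 1, f x := by
  unfold fc
  refine integral_congr_ae (Eventually.of_forall fun x => ?_)
  show ch (-0) x * f x = f x
  simp [ch]

theorem vol_cube : (volume (Icc (0 : R4) 1)).toReal = 1 := by
  rw [Real.volume_Icc_pi]
  simp

/-! ### the space of closed forms of mean zero -/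

def hatv (l : R4 → V6) (k : Fin 4 → ℤ) : Mt ℂ := hat (fun i j x => unv (l x) i j) k

/-- closed forms of mean zero -/
def EE : Submodule ℝ (R4 → V6) where
  carrier := {l | Continuous l ∧ Pr l ∧ (∀ k a b c, (k a : ℂ) * hatv l k b c + k b * hatv l k c a +
    k c * hatv l k a b = 0) ∧ ∀ i j, hatv l 0 i j = 0}
  add_mem' := by
    rintro l l' ⟨hc, hp, hcl, h0⟩ ⟨hc', hp', hcl', h0'⟩
    have hadd : ∀ k i j, hatv (l + l') k i j = hatv l k i j + hatv l' k i j := by
      intro k i j
      unfold hatv hat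
      rw [← fc_add' (cont_ofReal (cont_unv hc i j)) (cont_ofReal (cont_unv hc' i j))]
      congr 1
      funext x
      show ((unv (l x + l' x) i j : ℝ) : ℂ) = _
      rw [unv_add]
      push_cast
      rfl
    refine ⟨hc.add hc', fun k x => ?_, fun k a b c => ?_, fun i j => ?_⟩
    · simp only [Pi.add_apply, hp k x, hp' k x]
    · rw [hadd, hadd, hadd]
      linear_combination hcl k a b c + hcl' k a b c
    · rw [hadd, h0, h0', add_zero]
  zero_mem' := by
    have hz : ∀ k i j, hatv 0 k i j = 0 := by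
      intro k i j
      unfold hatv hat fc unv
      simp
    refine ⟨continuous_const, fun _ _ => rfl, fun k a b c => ?_, fun i j => hz _ _ _⟩
    rw [hz, hz, hz]
    ring
  smul_mem' := by
    rintro t l ⟨hc, hp, hcl, h0⟩
    have hs : ∀ k i j, hatv (t • l) k i j = t * hatv l k i j := by
      intro k i j
      unfold hatv hat
      rw [← fc_smul']
      congr 1
      funext x
      show ((unv (t • l x) i j : ℝ) : ℂ) = _
      rw [unv_smul]
      push_cast
      rfl
    refine ⟨hc.const_smul t, fun k x => ?_, fun k a b c => ?_, fun i j => ?_⟩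
    · simp only [Pi.smul_apply, hp k x]
    · rw [hs, hs, hs]
      linear_combination t * hcl k a b c
    · rw [hs, h0, mul_zero]

theorem EE_int {l : R4 → V6} (hl : l ∈ EE) :
    ∫ x in Icc (0 : R4) 1, inner ℝ (l x) (st (l x)) = 0 := by
  obtain ⟨hc, hp, hcl, h0⟩ := hl
  have hS : Seq (fun _ : ℕ => fun i j x => unv (l x) i j)
      (∑ i, ∑ j, ∫ x in Icc (0 : R4) 1, unv (l x) i j ^ 2) :=
    ⟨fun _ i j => cont_unv hc i j, fun _ i j k x => by simp only [hp k x],
      fun _ i j x => unv_anti _ _ _, fun _ k a b c => hcl k a b c, fun _ => le_rfl⟩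
  have h := hS.hasSum_W 0 0
  have hz : ∀ k, W (cj (hatv l k)) (hatv l (k - 0)) = 0 := by
    intro k
    rw [sub_zero]
    by_cases hk : k = 0
    · subst hk
      have : hatv l 0 = fun _ _ => 0 := by funext i j; exact h0 i j
      rw [this]
      simp [W]
    · have hanti : ∀ a b, hatv l k b a = - hatv l k a b := fun a b => hS.hat_anti 0 k a b
      have h1 := key_alg (k := fun i => (k i : ℂ)) (l := fun i => (k i : ℂ)) (m := fun _ => 0)
        (g := cj (hatv l k)) (h := hatv l k)
        (fun a b => by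
          show conj (hatv l k b a) = - conj (hatv l k a b)
          rw [hanti, map_neg])
        (fun a b c => by
          have := congrArg conj (hcl k a b c)
          simpa [cj] using this)
        hanti (fun a b c => hcl k a b c) (fun i => by simp)
      have h2 : W (cj (hatv l k)) (wd (fun _ => 0) (ct (fun i => (k i : ℂ)) (hatv l k))) = 0 := by
        simp [W, wd]
      rw [h2, neg_zero] at h1
      refine (mul_eq_zero.1 h1).resolve_left ?_
      have h3 : (∑ c, (k c : ℂ) * k c) = ((∑ c, (k c : ℝ) * k c : ℝ) : ℂ) := by push_cast; rfl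
      rw [h3]
      obtain ⟨j, hj⟩ := Function.ne_iff.1 hk
      have h4 : (0 : ℝ) < ∑ c, (k c : ℝ) * k c := by
        refine Finset.sum_pos' (fun i _ => mul_self_nonneg _) ⟨j, Finset.mem_univ j, ?_⟩
        have : (k j : ℝ) ≠ 0 := by exact_mod_cast hj
        exact mul_self_pos.2 this
      exact_mod_cast h4.ne'
  have hfun : (fun k => W (cj (hat (fun i j x => unv (l x) i j) k))
      (hat (fun i j x => unv (l x) i j) (k - 0))) = fun _ => 0 := funext hz
  rw [hfun] at h
  have h2 := h.unique hasSum_zero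
  have h3 : (∫ x in Icc (0 : R4) 1, ch 0 x * ((W (fun i j => unv (l x) i j)
      (fun i j => unv (l x) i j) : ℝ) : ℂ)) =
      ((∫ x in Icc (0 : R4) 1, inner ℝ (l x) (st (l x)) : ℝ) : ℂ) := by
    rw [← integral_complex_ofReal]
    refine integral_congr_ae (Eventually.of_forall fun x => ?_)
    show ch 0 x * ((W (unv (l x)) (unv (l x)) : ℝ) : ℂ) = ((inner ℝ (l x) (st (l x)) : ℝ) : ℂ)
    rw [← inner_vec, vec_unv]
    simp [ch]
  rw [h3] at h2
  exact_mod_cast h2

/-! ### the curvature forms -/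

variable {a : R4 → R4 →L[ℝ] ℝ}

theorem dd_apply (x u v : R4) : dd a x u v = fderiv ℝ a x u v - fderiv ℝ a x v u := rfl

theorem fderiv_tr (h : Vale.Agent.P247.H647.QA a) (k : Fin 4 → ℤ) (x : R4) :
    fderiv ℝ a (tr k x) = fderiv ℝ a x := by
  have h1 : (fun y => a (y + fun i => (k i : ℝ))) = fun y => a y +
      (2 * Real.pi * k 0) • (ContinuousLinearMap.proj 1 : R4 →L[ℝ] ℝ) := by
    funext y
    exact h k y
  have h2 : tr k x = x + fun i => (k i : ℝ) := rfl
  rw [h2, ← fderiv_comp_add_right, h1, fderiv_add_const]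

theorem dd_tr (h : Vale.Agent.P247.H647.QA a) (k : Fin 4 → ℤ) (x : R4) :
    dd a (tr k x) = dd a x := by
  unfold dd
  rw [fderiv_tr h]

theorem cont_dd (ha : ContDiff ℝ ∞ a) (i j : Fin 4) :
    Continuous fun x => dd a x (e i) (e j) := by
  have h1 : Continuous (fderiv ℝ a) := ha.continuous_fderiv (by simp)
  simp only [dd_apply]
  exact ((h1.clm_apply continuous_const).clm_apply continuous_const).sub
    ((h1.clm_apply continuous_const).clm_apply continuous_const)

theorem smooth_dd (ha : ContDiff ℝ ∞ a) (i j : Fin 4) :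
    ContDiff ℝ 1 fun x => dd a x (e i) (e j) := by
  have h1 : ContDiff ℝ 1 (fderiv ℝ a) := ha.fderiv_right (m := 1) (by
    show (1 : WithTop ℕ∞) + 1 ≤ ∞
    rw [one_add_one_eq_two]
    exact WithTop.coe_le_coe.2 le_top)
  simp only [dd_apply]
  exact ((h1.clm_apply contDiff_const).clm_apply contDiff_const).sub
    ((h1.clm_apply contDiff_const).clm_apply contDiff_const)

/-- the derivative of the components -/
theorem fderiv_dd (ha : ContDiff ℝ ∞ a) (i j : Fin 4) (x v : R4) :
    fderiv ℝ (fun x => dd a x (e i) (e j)) x v =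
      fderiv ℝ (fderiv ℝ a) x v (e i) (e j) - fderiv ℝ (fderiv ℝ a) x v (e j) (e i) := by
  have h1 : ContDiff ℝ 1 (fderiv ℝ a) := ha.fderiv_right (m := 1) (by
    show (1 : WithTop ℕ∞) + 1 ≤ ∞
    rw [one_add_one_eq_two]
    exact WithTop.coe_le_coe.2 le_top)
  have h2 := ((h1.differentiable (by norm_num)) x).hasFDerivAt
  have h3 : ∀ p q : R4, HasFDerivAt (fun x => fderiv ℝ a x p q)
      (((ContinuousLinearMap.apply ℝ ℝ q).comp (ContinuousLinearMap.apply ℝ (R4 →L[ℝ] ℝ) p)).comp
        (fderiv ℝ (fderiv ℝ a) x)) x := by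
    intro p q
    exact ((ContinuousLinearMap.apply ℝ ℝ q).comp
      (ContinuousLinearMap.apply ℝ (R4 →L[ℝ] ℝ) p)).hasFDerivAt.comp x h2
  have h4 : HasFDerivAt (fun x => dd a x (e i) (e j)) _ x := (h3 (e i) (e j)).sub (h3 (e j) (e i))
  rw [h4.fderiv]
  rfl

theorem symm_snd (ha : ContDiff ℝ ∞ a) (x u v : R4) :
    fderiv ℝ (fderiv ℝ a) x u v = fderiv ℝ (fderiv ℝ a) x v u := by
  have h := (ha.contDiffAt (x := x)).isSymmSndFDerivAt (by
    simp only [minSmoothness_of_isRCLikeNormedField]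
    exact WithTop.coe_le_coe.2 le_top)
  exact h u v

theorem fc_ofReal_pd {f : R4 → ℝ} (hf : ContDiff ℝ 1 f) (hp : Pr f) (j : Fin 4) (k : Fin 4 → ℤ) :
    fc (fun x => ((fderiv ℝ f x (e j) : ℝ) : ℂ)) k =
      2 * Real.pi * Complex.I * k j * fc (fun x => (f x : ℂ)) k := by
  have h1 : ContDiff ℝ 1 fun x => (f x : ℂ) := Complex.ofRealCLM.contDiff.comp hf
  rw [← fc_pd h1 (pr_ofReal hp)]
  congr 1
  funext x
  have h2 : HasFDerivAt (fun x => (f x : ℂ)) (Complex.ofRealCLM.comp (fderiv ℝ f x)) x :=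
    Complex.ofRealCLM.hasFDerivAt.comp x ((hf.differentiable (by norm_num)) x).hasFDerivAt
  rw [h2.fderiv]
  rfl

theorem closed_dd (ha : ContDiff ℝ ∞ a) (h : Vale.Agent.P247.H647.QA a) (k : Fin 4 → ℤ)
    (i j l : Fin 4) :
    (k i : ℂ) * fc (fun x => ((dd a x (e j) (e l) : ℝ) : ℂ)) k +
      k j * fc (fun x => ((dd a x (e l) (e i) : ℝ) : ℂ)) k +
      k l * fc (fun x => ((dd a x (e i) (e j) : ℝ) : ℂ)) k = 0 := by
  have hp : ∀ p q : Fin 4, Pr fun x => dd a x (e p) (e q) := fun p q n x => by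
    have := dd_tr h n x
    show dd a (tr n x) (e p) (e q) = _
    rw [this]
  have h1 := fc_ofReal_pd (smooth_dd ha j l) (hp j l) i k
  have h2 := fc_ofReal_pd (smooth_dd ha l i) (hp l i) j k
  have h3 := fc_ofReal_pd (smooth_dd ha i j) (hp i j) l k
  have hc : ∀ p q s : Fin 4, Continuous fun x => (((fderiv ℝ (fun x => dd a x (e p) (e q)) x (e s) : ℝ)) : ℂ) :=
    fun p q s => cont_ofReal (((smooth_dd ha p q).continuous_fderiv (by norm_num)).clm_apply
      continuous_const)
  have hsum : fc (fun x => (((fderiv ℝ (fun x => dd a x (e j) (e l)) x (e i) : ℝ)) : ℂ)) k +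
      fc (fun x => (((fderiv ℝ (fun x => dd a x (e l) (e i)) x (e j) : ℝ)) : ℂ)) k +
      fc (fun x => (((fderiv ℝ (fun x => dd a x (e i) (e j)) x (e l) : ℝ)) : ℂ)) k = 0 := by
    have hc2 : Continuous fun x =>
        (((fderiv ℝ (fun x => dd a x (e j) (e l)) x (e i) : ℝ)) : ℂ) +
        (((fderiv ℝ (fun x => dd a x (e l) (e i)) x (e j) : ℝ)) : ℂ) :=
      (hc j l i).add (hc l i j)
    rw [← fc_add' (hc _ _ _) (hc _ _ _), ← fc_add' hc2 (hc _ _ _)]
    unfold fc
    refine integral_eq_zero_of_ae (Eventually.of_forall fun x => ?_)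
    show ch (-k) x * (((fderiv ℝ (fun x => dd a x (e j) (e l)) x (e i) : ℝ) : ℂ) +
      ((fderiv ℝ (fun x => dd a x (e l) (e i)) x (e j) : ℝ) : ℂ) +
      ((fderiv ℝ (fun x => dd a x (e i) (e j)) x (e l) : ℝ) : ℂ)) = 0
    rw [fderiv_dd ha, fderiv_dd ha, fderiv_dd ha, symm_snd ha x (e i) (e j),
      symm_snd ha x (e i) (e l), symm_snd ha x (e j) (e l)]
    push_cast
    ring
  rw [h1, h2, h3] at hsum
  have hpi : (2 * Real.pi * Complex.I : ℂ) ≠ 0 := by
    have h2 : (Real.pi : ℂ) ≠ 0 := by exact_mod_cast Real.pi_ne_zero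
    simp [h2]
  refine (mul_eq_zero.1 (?_ : (2 * Real.pi * Complex.I : ℂ) * _ = 0)).resolve_left hpi
  linear_combination hsum

/-- the mean of the curvature does not depend on the connection -/
theorem mean_dd (ha : ContDiff ℝ ∞ a) (h : Vale.Agent.P247.H647.QA a) (i j : Fin 4) :
    ∫ x in Icc (0 : R4) 1, dd a x (e i) (e j) =
      2 * Real.pi * ((e i : R4) 0 * (e j : R4) 1 - (e j : R4) 0 * (e i : R4) 1) := by
  set b : R4 → R4 →L[ℝ] ℝ := fun x => a x -
    (2 * Real.pi * x 0) • (ContinuousLinearMap.proj 1 : R4 →L[ℝ] ℝ) with hb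
  have hlin : ContDiff ℝ ∞ fun x : R4 => (2 * Real.pi * x 0) •
      (ContinuousLinearMap.proj 1 : R4 →L[ℝ] ℝ) := by fun_prop
  have hbs : ContDiff ℝ ∞ b := ha.sub hlin
  have hbp : Pr b := by
    intro k x
    have h1 := h k x
    show a (tr k x) - (2 * Real.pi * (x 0 + k 0)) • _ = _
    rw [h1, hb]
    ext v
    simp
    ring
  have hz : ∀ p q : Fin 4, ∫ x in Icc (0 : R4) 1, fderiv ℝ b x (e p) (e q) = 0 := by
    intro p q
    have h1 : ContDiff ℝ 1 fun x => b x (e q) :=
      (hbs.of_le (by exact WithTop.coe_le_coe.2 le_top)).clm_apply contDiff_const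
    have h2 := int_pd h1 (fun k x => by simp only [hbp k x]) p
    refine (integral_congr_ae (Eventually.of_forall fun x => ?_)).trans h2
    have h3 : HasFDerivAt (fun x => b x (e q))
        ((ContinuousLinearMap.apply ℝ ℝ (e q)).comp (fderiv ℝ b x)) x :=
      (ContinuousLinearMap.apply ℝ ℝ (e q)).hasFDerivAt.comp x
        ((hbs.differentiable (by simp)) x).hasFDerivAt
    show fderiv ℝ b x (e p) (e q) = fderiv ℝ (fun x => b x (e q)) x (Pi.single p 1)
    rw [h3.fderiv]
    rfl
  have hdd : ∀ x, dd a x (e i) (e j) = (fderiv ℝ b x (e i) (e j) - fderiv ℝ b x (e j) (e i)) +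
      2 * Real.pi * ((e i : R4) 0 * (e j : R4) 1 - (e j : R4) 0 * (e i : R4) 1) := by
    intro x
    have h1 : HasFDerivAt (fun x : R4 => (2 * Real.pi * x 0) •
        (ContinuousLinearMap.proj 1 : R4 →L[ℝ] ℝ))
        (((2 * Real.pi) • (ContinuousLinearMap.proj 0 : R4 →L[ℝ] ℝ)).smulRight
          (ContinuousLinearMap.proj 1 : R4 →L[ℝ] ℝ)) x := by
      have h2 : HasFDerivAt (fun x : R4 => 2 * Real.pi * x 0)
          ((2 * Real.pi) • (ContinuousLinearMap.proj 0 : R4 →L[ℝ] ℝ)) x :=
        ((ContinuousLinearMap.proj 0 : R4 →L[ℝ] ℝ).hasFDerivAt (x := x)).const_mul (2 * Real.pi)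
      exact h2.smul_const (ContinuousLinearMap.proj 1 : R4 →L[ℝ] ℝ)
    have h2 : a = fun x => b x + (2 * Real.pi * x 0) •
        (ContinuousLinearMap.proj 1 : R4 →L[ℝ] ℝ) := by
      funext y
      simp [hb]
    have h3 : fderiv ℝ a x = fderiv ℝ b x +
        ((2 * Real.pi) • (ContinuousLinearMap.proj 0 : R4 →L[ℝ] ℝ)).smulRight
          (ContinuousLinearMap.proj 1 : R4 →L[ℝ] ℝ) := by
      have h4 : HasFDerivAt (fun x => b x + (2 * Real.pi * x 0) •
          (ContinuousLinearMap.proj 1 : R4 →L[ℝ] ℝ)) (fderiv ℝ b x +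
          ((2 * Real.pi) • (ContinuousLinearMap.proj 0 : R4 →L[ℝ] ℝ)).smulRight
          (ContinuousLinearMap.proj 1 : R4 →L[ℝ] ℝ)) x :=
        ((hbs.differentiable (by simp)) x).hasFDerivAt.add h1
      rw [← h2] at h4
      exact h4.fderiv
    rw [dd_apply, h3]
    simp
    ring
  have hcb : ∀ p q : Fin 4, Continuous fun x => fderiv ℝ b x (e p) (e q) := fun p q =>
    ((hbs.continuous_fderiv (by simp)).clm_apply continuous_const).clm_apply continuous_const
  simp only [hdd]
  have hc2 : Continuous fun x => fderiv ℝ b x (e i) (e j) - fderiv ℝ b x (e j) (e i) :=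
    (hcb i j).sub (hcb j i)
  rw [integral_add hc2.integrableOn_Icc continuous_const.integrableOn_Icc,
    integral_sub (hcb i j).integrableOn_Icc (hcb j i).integrableOn_Icc, hz, hz, sub_zero, zero_add,
    integral_const]
  simp [measureReal_def]

/-! ### algebra: forms orthogonal to the triple are negative -/

theorem neg_of_orth (hF : Vale.Agent.P247.H647.FRM_statement) {D : Vale.Agent.P247.H74.Data}
    (Q : Vale.Agent.P247.H647.Quat D) (x : R4) (b : V6)
    (hb : ∀ j, inner ℝ b (st (vec fun p q =>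
      (Vale.Agent.P247.H647.tri D j).val x (e p) (e q))) = 0) (hne : b ≠ 0) :
    inner ℝ b (st b) < 0 := by
  set Φ : F2 := ∑ p, ∑ q, unv b p q •
    (ContinuousLinearMap.proj p : R4 →L[ℝ] ℝ).smulRight
      (ContinuousLinearMap.proj q : R4 →L[ℝ] ℝ) with hΦ
  have hΦv : ∀ u v : R4, Φ u v = ∑ p, ∑ q, unv b p q * (u p * v q) := by
    intro u v
    simp [hΦ]
  have hΦe : ∀ p q, Φ (e p) (e q) = unv b p q := by
    intro p q
    rw [hΦv]
    unfold e
    simp [Pi.single_apply]
  have hΦa : ∀ p, Φ p p = 0 := by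
    intro u
    rw [hΦv]
    have h1 : ∑ p, ∑ q, unv b p q * (u p * u q) = - ∑ p, ∑ q, unv b p q * (u p * u q) := by
      conv_lhs => rw [Finset.sum_comm]
      rw [← Finset.sum_neg_distrib]
      refine Finset.sum_congr rfl fun p _ => ?_
      rw [← Finset.sum_neg_distrib]
      refine Finset.sum_congr rfl fun q _ => ?_
      rw [unv_anti b p q]
      ring
    linarith
  obtain ⟨h1, h2, -⟩ := hF D Q x
  set N : Fin 4 → Fin 4 → ℝ := Vale.Agent.P247.H647.fr (fun a => Q.b a x) fun p q => Φ p q with hN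
  have hNa : ∀ p q, N q p = - N p q := by
    intro p q
    show Φ (Q.b q x) (Q.b p x) = - Φ (Q.b p x) (Q.b q x)
    have := hΦa (Q.b p x + Q.b q x)
    simp only [map_add, add_apply, hΦa, zero_add, add_zero] at this
    linarith
  have hΦw : ∀ g : Mt ℝ, w4 (fun p q => Φ p q) (fun p q => ∑ i, ∑ j, g i j * (p i * q j)) =
      W (unv b) g := by
    intro g
    unfold w4 W
    have : ∀ i j, (∑ s, ∑ t, g s t * ((e i : R4) s * (e j : R4) t)) = g i j := by
      intro i j
      unfold e
      simp [Pi.single_apply]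
    simp only [hΦe, this]
  have hw4tri : ∀ j, w4 (fun p q => Φ p q)
      (fun p q => (Vale.Agent.P247.H647.tri D j).val x p q) = 0 := by
    intro j
    have h3 := hb j
    rw [← vec_unv b, inner_vec] at h3
    unfold w4
    unfold W at h3
    simp only [hΦe]
    exact h3
  have hhat : ∀ k, Vale.Agent.P247.H647.hat N k = 0 := by
    have h4 : (Q.T x).mulVec (Vale.Agent.P247.H647.hat N) = 0 := by
      funext j
      have h5 := h2 Φ hΦa j
      rw [hw4tri j] at h5
      simp only [Matrix.mulVec, dotProduct, Pi.zero_apply]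
      exact h5.symm
    have h5 := Matrix.eq_zero_of_mulVec_eq_zero (Q.T_det x) h4
    intro k
    rw [h5]
    rfl
  have e0 := hhat 0
  have e1 := hhat 1
  have e2 := hhat 2
  simp only [Vale.Agent.P247.H647.hat, Matrix.cons_val_zero, Matrix.cons_val_one,
    Matrix.cons_val] at e0 e1 e2
  have hself := h1 Φ Φ hΦa hΦa
  have hself' : inner ℝ b (st b) = w4 (fun p q => Φ p q) (fun p q => Φ p q) := by
    conv_lhs => rw [← vec_unv b]
    rw [inner_vec]
    unfold w4 W
    simp only [hΦe]
  rw [hself', hself]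
  change Vale.Agent.P247.H647.wdA N N < 0
  have hval : Vale.Agent.P247.H647.wdA N N = -2 * (N 0 1 ^ 2 + N 0 2 ^ 2 + N 0 3 ^ 2) := by
    unfold Vale.Agent.P247.H647.wdA
    have f1 : N 2 3 = - N 0 1 := by linarith
    have f2 : N 1 3 = N 0 2 := by linarith [hNa 1 3]
    have f3 : N 1 2 = - N 0 3 := by linarith
    rw [f1, f2, f3]
    ring
  rw [hval]
  by_contra hcon
  push Not at hcon
  have g1 : N 0 1 = 0 := by nlinarith [sq_nonneg (N 0 1), sq_nonneg (N 0 2), sq_nonneg (N 0 3)]
  have g2 : N 0 2 = 0 := by nlinarith [sq_nonneg (N 0 1), sq_nonneg (N 0 2), sq_nonneg (N 0 3)]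
  have g3 : N 0 3 = 0 := by nlinarith [sq_nonneg (N 0 1), sq_nonneg (N 0 2), sq_nonneg (N 0 3)]
  have g4 : N 2 3 = 0 := by linarith
  have g5 : N 1 3 = 0 := by linarith [hNa 1 3]
  have g6 : N 1 2 = 0 := by linarith
  -- all wedge products vanish
  have hall : ∀ Ψ : F2, (∀ p, Ψ p p = 0) → w4 (fun p q => Φ p q) (fun p q => Ψ p q) = 0 := by
    intro Ψ hΨ
    rw [h1 Φ Ψ hΦa hΨ]
    change Vale.Agent.P247.H647.wdA N _ = 0
    unfold Vale.Agent.P247.H647.wdA
    rw [g1, g2, g3, g4, g5, g6]
    ring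
  apply hne
  -- test with `st b`
  have hst : inner ℝ b (st (st b)) = 0 := by
    set Ψ : F2 := ∑ p, ∑ q, unv (st b) p q •
      (ContinuousLinearMap.proj p : R4 →L[ℝ] ℝ).smulRight
        (ContinuousLinearMap.proj q : R4 →L[ℝ] ℝ) with hΨ
    have hΨv : ∀ u v : R4, Ψ u v = ∑ p, ∑ q, unv (st b) p q * (u p * v q) := by
      intro u v
      simp [hΨ]
    have hΨa : ∀ p, Ψ p p = 0 := by
      intro u
      rw [hΨv]
      have h1 : ∑ p, ∑ q, unv (st b) p q * (u p * u q) =
          - ∑ p, ∑ q, unv (st b) p q * (u p * u q) := by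
        conv_lhs => rw [Finset.sum_comm]
        rw [← Finset.sum_neg_distrib]
        refine Finset.sum_congr rfl fun p _ => ?_
        rw [← Finset.sum_neg_distrib]
        refine Finset.sum_congr rfl fun q _ => ?_
        rw [unv_anti (st b) p q]
        ring
      linarith
    have h3 := hall Ψ hΨa
    simp only [hΨv] at h3
    rw [hΦw, ← inner_vec, vec_unv, vec_unv] at h3
    exact h3
  have hss : st (st b) = b := by
    rw [st_apply, st_apply]
    ext i
    fin_cases i <;> simp
  rw [hss] at hst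
  exact inner_self_eq_zero.1 hst

end

end Vale.Agent.P247.H350.FF
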