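import Vale.Agent.P247.H350.Red1

/-!
# Uniform finite-dimensional complements and projections onto kernels
-/

open Set Filter Topology

namespace Vale.Agent.P247.H350

variable {X Y : Type*} [NormedAddCommGroup X] [InnerProductSpace ℂ X] [CompleteSpace X]
  [NormedAddCommGroup Y] [InnerProductSpace ℂ Y] [CompleteSpace Y]

omit [CompleteSpace Y] in
/-- The range of a bounded below operator is closed. -/
theorem closed_range_of_bound {E : Type*} [NormedAddCommGroup E] [InnerProductSpace ℂ E]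
    [CompleteSpace E] (T : E →L[ℂ] Y) {d : ℝ} (hd : 0 < d) (hT : ∀ z, d * ‖z‖ ≤ ‖T z‖) :
    IsClosed (T.range : Set Y) := by
  have : AntilipschitzWith ⟨d⁻¹, by positivity⟩ T := by
    refine AddMonoidHomClass.antilipschitz_of_bound T fun z => ?_
    have := hT z
    show ‖z‖ ≤ d⁻¹ * ‖T z‖
    rw [inv_mul_eq_div, le_div_iff₀ hd]
    linarith
  have h2 := this.isClosed_range T.uniformContinuous
  exact h2

/-- Local step: cokernels near `t`. -/
theorem cofin_step (D D' : X →L[ℂ] Y) (F : Submodule ℂ X) {d : ℝ} (hd : 0 < d)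
    (hb : ∀ ψ ∈ Fᗮ, d * ‖ψ‖ ≤ ‖D ψ‖) (hb' : ∀ ψ ∈ Fᗮ, d * ‖ψ‖ ≤ ‖D' ψ‖)
    (hDD : ‖D - D'‖ ≤ d / 2)
    (hN : FiniteDimensional ℂ (((D.comp Fᗮ.subtypeL).range)ᗮ : Submodule ℂ Y)) :
    (D'.comp Fᗮ.subtypeL).range ⊔ ((D.comp Fᗮ.subtypeL).range)ᗮ = ⊤ ∧
    FiniteDimensional ℂ (((D'.comp Fᗮ.subtypeL).range)ᗮ : Submodule ℂ Y) := by
  have h1 : ∀ z : Fᗮ, d * ‖z‖ ≤ ‖(D.comp Fᗮ.subtypeL) z‖ := fun z => hb z z.2
  have h2 : ∀ z : Fᗮ, d * ‖z‖ ≤ ‖(D'.comp Fᗮ.subtypeL) z‖ := fun z => hb' z z.2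
  have h3 : ‖D.comp Fᗮ.subtypeL - D'.comp Fᗮ.subtypeL‖ ≤ d / 2 := by
    rw [← ContinuousLinearMap.sub_comp]
    calc ‖(D - D').comp Fᗮ.subtypeL‖ ≤ ‖D - D'‖ * ‖Fᗮ.subtypeL‖ :=
          ContinuousLinearMap.opNorm_comp_le _ _
      _ ≤ ‖D - D'‖ * 1 := by
          gcongr
          exact Submodule.norm_subtypeL_le _
      _ ≤ d / 2 := by linarith
  have h4 := perturb_top _ _ (by linarith) (by linarith) h1 h2 h3 hN
  exact ⟨h4, finite_orth _ _ (closed_range_of_bound _ hd h2) h4⟩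

/-- Finite codimension spreads over preconnected parameter sets. -/
theorem cofin_all {T : Type*} [TopologicalSpace T] {S : Set T} (hS : IsPreconnected S)
    (D : T → X →L[ℂ] Y) (hD : ContinuousOn D S) (F : Submodule ℂ X) {d : ℝ} (hd : 0 < d)
    (hb : ∀ t ∈ S, ∀ ψ ∈ Fᗮ, d * ‖ψ‖ ≤ ‖D t ψ‖) {t0 : T} (ht0 : t0 ∈ S)
    (h0 : FiniteDimensional ℂ ((((D t0).comp Fᗮ.subtypeL).range)ᗮ : Submodule ℂ Y)) :
    ∀ t ∈ S, FiniteDimensional ℂ ((((D t).comp Fᗮ.subtypeL).range)ᗮ : Submodule ℂ Y) := by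
  intro t ht
  refine hS.induction₂' (fun x y =>
    FiniteDimensional ℂ ((((D x).comp Fᗮ.subtypeL).range)ᗮ : Submodule ℂ Y) →
    FiniteDimensional ℂ ((((D y).comp Fᗮ.subtypeL).range)ᗮ : Submodule ℂ Y)) ?_ ?_ ht0 ht h0
  · intro x hx
    have hev := (Metric.continuousWithinAt_iff'.1 (hD x hx)) (d / 2) (by positivity)
    filter_upwards [hev, self_mem_nhdsWithin] with y hy hyS
    rw [dist_eq_norm] at hy
    refine ⟨fun h => ?_, fun h => ?_⟩
    · exact (cofin_step (D x) (D y) F hd (hb x hx) (hb y hyS)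
        (by rw [norm_sub_rev]; exact hy.le) h).2
    · exact (cofin_step (D y) (D x) F hd (hb y hyS) (hb x hx) hy.le h).2
  · intro x _ y _ z _ h1 h2 h
    exact h2 (h1 h)

/-- A common finite-dimensional complement over a compact set. -/
theorem exists_common {T : Type*} [TopologicalSpace T] {K : Set T} (hK : IsCompact K)
    (D : T → X →L[ℂ] Y) (hD : ContinuousOn D K) (F : Submodule ℂ X) {d : ℝ} (hd : 0 < d)
    (hb : ∀ t ∈ K, ∀ ψ ∈ Fᗮ, d * ‖ψ‖ ≤ ‖D t ψ‖)
    (hfin : ∀ t ∈ K, FiniteDimensional ℂ ((((D t).comp Fᗮ.subtypeL).range)ᗮ : Submodule ℂ Y)) :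
    ∃ W : Submodule ℂ Y, FiniteDimensional ℂ W ∧ ∀ t ∈ K, (D t).range ⊔ W = ⊤ := by
  refine hK.induction_on (p := fun s => ∃ W : Submodule ℂ Y, FiniteDimensional ℂ W ∧
    ∀ t ∈ s, (D t).range ⊔ W = ⊤) ?_ ?_ ?_ ?_
  · exact ⟨⊥, inferInstance, fun t ht => absurd ht (notMem_empty t)⟩
  · rintro s t hst ⟨W, hW, h⟩
    exact ⟨W, hW, fun x hx => h x (hst hx)⟩
  · rintro s t ⟨W, hW, h⟩ ⟨W', hW', h'⟩
    refine ⟨W ⊔ W', inferInstance, ?_⟩
    rintro x (hx | hx)
    · rw [eq_top_iff, ← h x hx]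
      exact sup_le_sup_left le_sup_left _
    · rw [eq_top_iff, ← h' x hx]
      exact sup_le_sup_left le_sup_right _
  · intro x hx
    have hev := (Metric.continuousWithinAt_iff'.1 (hD x hx)) (d / 2) (by positivity)
    refine ⟨_, Filter.inter_mem hev self_mem_nhdsWithin,
      (((D x).comp Fᗮ.subtypeL).range)ᗮ, hfin x hx, ?_⟩
    rintro y ⟨hy, hyK⟩
    have hy' : dist (D y) (D x) < d / 2 := hy
    rw [dist_eq_norm] at hy'
    have h1 := (cofin_step (D x) (D y) F hd (hb x hx) (hb y hyK)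
        (by rw [norm_sub_rev]; exact hy'.le) (hfin x hx)).1
    rw [eq_top_iff, ← h1]
    refine sup_le_sup_right ?_ _
    rintro _ ⟨z, rfl⟩
    exact ⟨z, rfl⟩

/-- The adjoint of a surjective operator is bounded below, so `B ∘ B†` is invertible. -/
theorem isUnit_comp_adjoint (B : X →L[ℂ] Y) (hB : Function.Surjective B) :
    IsUnit (B.comp (ContinuousLinearMap.adjoint B)) := by
  obtain ⟨C, hC, hpre⟩ := B.exists_preimage_norm_le hB
  have h1 : ∀ z : Y, C⁻¹ * ‖z‖ ≤ ‖ContinuousLinearMap.adjoint B z‖ := by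
    intro z
    obtain ⟨x, hx, hxn⟩ := hpre z
    have h2 : ‖z‖ ^ 2 ≤ C * ‖z‖ * ‖ContinuousLinearMap.adjoint B z‖ := by
      have h3 : ‖z‖ ^ 2 = RCLike.re (inner ℂ x (ContinuousLinearMap.adjoint B z)) := by
        rw [ContinuousLinearMap.adjoint_inner_right, hx, inner_self_eq_norm_sq]
      rw [h3]
      calc RCLike.re (inner ℂ x (ContinuousLinearMap.adjoint B z))
          ≤ ‖inner ℂ x (ContinuousLinearMap.adjoint B z)‖ := RCLike.re_le_norm _
        _ ≤ ‖x‖ * ‖ContinuousLinearMap.adjoint B z‖ := norm_inner_le_norm _ _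
        _ ≤ C * ‖z‖ * ‖ContinuousLinearMap.adjoint B z‖ := by gcongr
    rcases eq_or_ne z 0 with rfl | hne
    · simp
    have hpos : 0 < ‖z‖ := norm_pos_iff.2 hne
    rw [inv_mul_le_iff₀ hC]
    by_contra hcon
    push Not at hcon
    nlinarith
  have hinj : Function.Injective (B.comp (ContinuousLinearMap.adjoint B)) := by
    rw [injective_iff_map_eq_zero]
    intro z hz
    have h2 : ‖ContinuousLinearMap.adjoint B z‖ ^ 2 = 0 := by
      rw [← @inner_self_eq_norm_sq ℂ, ContinuousLinearMap.adjoint_inner_right]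
      have : B (ContinuousLinearMap.adjoint B z) = 0 := hz
      rw [this]
      simp
    have h3 : ‖ContinuousLinearMap.adjoint B z‖ = 0 := by
      exact pow_eq_zero_iff (two_ne_zero) |>.1 h2
    have h4 := h1 z
    rw [h3] at h4
    have : ‖z‖ ≤ 0 := by
      rw [inv_mul_le_iff₀ hC] at h4
      simpa using h4
    exact norm_le_zero_iff.1 this
  have hsurj : Function.Surjective (B.comp (ContinuousLinearMap.adjoint B)) := by
    intro y
    obtain ⟨x, hx⟩ := hB y
    have hcl := closed_range_of_bound (ContinuousLinearMap.adjoint B) (inv_pos.2 hC) h1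
    have : CompleteSpace (ContinuousLinearMap.adjoint B).range := hcl.completeSpace_coe
    have hx' : x ∈ (ContinuousLinearMap.adjoint B).range ⊔ ((ContinuousLinearMap.adjoint B).range)ᗮ := by
      rw [Submodule.sup_orthogonal_of_hasOrthogonalProjection]; trivial
    obtain ⟨_, ⟨z, rfl⟩, v, hv, hzv⟩ := Submodule.mem_sup.1 hx'
    refine ⟨z, ?_⟩
    rw [ContinuousLinearMap.orthogonal_range, ContinuousLinearMap.adjoint_adjoint] at hv
    have hv' : B v = 0 := hv
    have : B x = B (ContinuousLinearMap.adjoint B z) := by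
      rw [← hzv, map_add, hv', add_zero]
      rfl
    rw [← hx, this]
    rfl
  exact ContinuousLinearMap.isUnit_iff_bijective.2 ⟨hinj, hsurj⟩

/-- The projection onto the kernel of a surjective operator. -/
noncomputable def kerProj (B : X →L[ℂ] Y) : X →L[ℂ] X :=
  ContinuousLinearMap.id ℂ X - (ContinuousLinearMap.adjoint B).comp
    ((Ring.inverse (B.comp (ContinuousLinearMap.adjoint B))).comp B)

theorem kerProj_mem (B : X →L[ℂ] Y) (hB : Function.Surjective B) (x : X) :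
    B (kerProj B x) = 0 := by
  have hu := isUnit_comp_adjoint B hB
  have h1 := Ring.mul_inverse_cancel _ hu
  have h2 := congrArg (fun T : Y →L[ℂ] Y => T (B x)) h1
  have h3 : B (ContinuousLinearMap.adjoint B
      (Ring.inverse (B.comp (ContinuousLinearMap.adjoint B)) (B x))) = B x := h2
  simp only [kerProj, sub_apply, ContinuousLinearMap.id_apply, ContinuousLinearMap.comp_apply,
    map_sub]
  rw [h3, sub_self]

theorem kerProj_of_mem (B : X →L[ℂ] Y) {x : X} (hx : B x = 0) : kerProj B x = x := by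
  simp [kerProj, hx]

theorem kerProj_continuousOn {T : Type*} [TopologicalSpace T] {S : Set T} (B : T → X →L[ℂ] Y)
    (hB : ContinuousOn B S) (hs : ∀ t ∈ S, Function.Surjective (B t)) :
    ContinuousOn (fun t => kerProj (B t)) S := by
  have hadj : ContinuousOn (fun t => ContinuousLinearMap.adjoint (B t)) S :=
    (ContinuousLinearMap.adjoint (𝕜 := ℂ) (E := X) (F := Y)).continuous.comp_continuousOn hB
  have hinv : ContinuousOn
      (fun t => Ring.inverse ((B t).comp (ContinuousLinearMap.adjoint (B t)))) S := by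
    intro t ht
    obtain ⟨u, hu⟩ := isUnit_comp_adjoint (B t) (hs t ht)
    have h1 : ContinuousAt Ring.inverse ((B t).comp (ContinuousLinearMap.adjoint (B t))) := by
      rw [← hu]
      exact NormedRing.inverse_continuousAt u
    exact ContinuousAt.comp_continuousWithinAt (f := fun t =>
      (B t).comp (ContinuousLinearMap.adjoint (B t))) h1 ((hB.clm_comp hadj) t ht)
  exact continuousOn_const.sub (hadj.clm_comp (hinv.clm_comp hB))

end Vale.Agent.P247.H350
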