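import Mathlib

/-!
# Fourier analysis on the cube in `ℝ⁴`: Parseval for periodic functions
-/

open MeasureTheory Set Topology
open scoped ContDiff ComplexConjugate

namespace Vale.Agent.P247.H350.FF

noncomputable section

local instance instMS : MeasureSpace UnitAddCircle := ⟨AddCircle.haarAddCircle⟩

local instance instHaar : Measure.IsAddHaarMeasure (volume : Measure UnitAddCircle) :=
  inferInstanceAs (Measure.IsAddHaarMeasure AddCircle.haarAddCircle)

local instance instProb : IsProbabilityMeasure (volume : Measure UnitAddCircle) :=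
  inferInstanceAs (IsProbabilityMeasure AddCircle.haarAddCircle)

abbrev R4 : Type := Fin 4 → ℝ
abbrev T4 : Type := UnitAddTorus (Fin 4)

/-- periodic functions -/
def Pr {E : Type*} (f : R4 → E) : Prop := ∀ (k : Fin 4 → ℤ) (x : R4), f (fun i => x i + k i) = f x

/-- the quotient map -/
def qT (x : R4) : T4 := fun i => (x i : UnitAddCircle)

theorem qT_quot : IsOpenQuotientMap qT :=
  IsOpenQuotientMap.piMap (f := fun _ : Fin 4 => ((↑) : ℝ → UnitAddCircle))
    fun _ => QuotientAddGroup.isOpenQuotientMap_mk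

/-- descend a function to the torus -/
def dsc {E : Type*} (f : R4 → E) (t : T4) : E := f fun i => (AddCircle.equivIco 1 0 (t i) : ℝ)

theorem dsc_qT {E : Type*} {f : R4 → E} (hf : Pr f) (x : R4) : dsc f (qT x) = f x := by
  unfold dsc qT
  have h : (fun i => (AddCircle.equivIco 1 0 ((x i : UnitAddCircle)) : ℝ)) =
      fun i => x i + ((-⌊x i⌋ : ℤ) : ℝ) := by
    funext i
    rw [AddCircle.coe_equivIco_mk_apply]
    simp [Int.fract, sub_eq_add_neg]
  rw [h]
  exact hf (fun i => -⌊x i⌋) x

theorem dsc_cont {E : Type*} [TopologicalSpace E] {f : R4 → E} (hf : Pr f) (hc : Continuous f) :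
    Continuous (dsc f) := by
  rw [qT_quot.isQuotientMap.continuous_iff]
  have : dsc f ∘ qT = f := funext fun x => dsc_qT hf x
  rwa [this]

/-- integral over the torus -/
theorem integral_dsc {E : Type*} [NormedAddCommGroup E] [NormedSpace ℝ E] {f : R4 → E}
    (hf : Pr f) : ∫ t, dsc f t = ∫ x in Icc (0 : R4) 1, f x := by
  rw [UnitAddTorus.integral_preimage (dsc f) (fun _ => 0)]
  have h1 : {x : R4 | ∀ i, x i ∈ Ioc (0 : ℝ) (0 + 1)} = univ.pi fun _ => Ioc (0 : ℝ) 1 := by
    ext x; simp
  have h2 : (fun x : R4 => dsc f fun i => (x i : UnitAddCircle)) = f :=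
    funext fun x => dsc_qT hf x
  rw [h1, h2]
  refine setIntegral_congr_set ?_
  exact Measure.univ_pi_Ioc_ae_eq_Icc (μ := fun _ : Fin 4 => (volume : Measure ℝ))

/-- the character `exp (2 π i k · x)` -/
def ch (k : Fin 4 → ℤ) (x : R4) : ℂ := Complex.exp (2 * Real.pi * Complex.I * ∑ i, (k i : ℂ) * x i)

theorem ch_per (k : Fin 4 → ℤ) : Pr (ch k) := by
  intro n x
  unfold ch
  have : (2 * Real.pi * Complex.I * ∑ i, (k i : ℂ) * ((x i + n i : ℝ) : ℂ)) =
      2 * Real.pi * Complex.I * ∑ i, (k i : ℂ) * x i +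
        ((∑ i, k i * n i : ℤ) : ℂ) * (2 * Real.pi * Complex.I) := by
    push_cast
    simp only [mul_add, Finset.sum_add_distrib]
    ring
  rw [this, Complex.exp_add, Complex.exp_int_mul_two_pi_mul_I, mul_one]

theorem ch_smooth (k : Fin 4 → ℤ) {n : WithTop ℕ∞} : ContDiff ℝ n (ch k) := by
  unfold ch
  refine Complex.contDiff_exp.comp ?_
  refine contDiff_const.mul (ContDiff.sum fun i _ => contDiff_const.mul ?_)
  exact Complex.ofRealCLM.contDiff.comp (contDiff_apply ℝ ℝ i)

theorem ch_cont (k : Fin 4 → ℤ) : Continuous (ch k) := (ch_smooth k (n := 0)).continuous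

theorem norm_ch (k : Fin 4 → ℤ) (x : R4) : ‖ch k x‖ = 1 := by
  unfold ch
  rw [show (2 * Real.pi * Complex.I * ∑ i, (k i : ℂ) * x i) =
    ((2 * Real.pi * ∑ i, (k i : ℝ) * x i : ℝ) : ℂ) * Complex.I by push_cast; ring]
  exact Complex.norm_exp_ofReal_mul_I _

theorem ch_add (k l : Fin 4 → ℤ) (x : R4) : ch (k + l) x = ch k x * ch l x := by
  unfold ch
  rw [← Complex.exp_add]
  congr 1
  simp only [Pi.add_apply, Int.cast_add, add_mul, Finset.sum_add_distrib]
  ring

theorem ch_neg (k : Fin 4 → ℤ) (x : R4) : ch (-k) x = conj (ch k x) := by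
  unfold ch
  rw [← Complex.exp_conj]
  congr 1
  simp only [Pi.neg_apply, Int.cast_neg, neg_mul, Finset.sum_neg_distrib, map_mul, map_sum,
    Complex.conj_ofReal, Complex.conj_I, map_ofNat, map_intCast]
  ring

theorem mFourier_qT (k : Fin 4 → ℤ) (x : R4) : UnitAddTorus.mFourier k (qT x) = ch k x := by
  unfold UnitAddTorus.mFourier qT ch
  simp only [ContinuousMap.coe_mk]
  rw [Finset.mul_sum, Complex.exp_sum]
  refine Finset.prod_congr rfl fun i _ => ?_
  rw [fourier_coe_apply]
  congr 1
  push_cast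
  ring

/-- Fourier coefficients -/
def fc (f : R4 → ℂ) (k : Fin 4 → ℤ) : ℂ := ∫ x in Icc (0 : R4) 1, ch (-k) x * f x

theorem fc_eq {f : R4 → ℂ} (hf : Pr f) (k : Fin 4 → ℤ) :
    fc f k = UnitAddTorus.mFourierCoeff (dsc f) k := by
  unfold fc UnitAddTorus.mFourierCoeff
  have hp : Pr (fun x => ch (-k) x * f x) := fun n x => by
    simp only [ch_per (-k) n x, hf n x]
  rw [← integral_dsc hp]
  refine integral_congr_ae (Filter.Eventually.of_forall fun t => ?_)
  obtain ⟨x, rfl⟩ := qT_quot.surjective t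
  simp only [dsc_qT hp, dsc_qT hf, mFourier_qT, smul_eq_mul]

/-- Parseval's identity -/
theorem parseval {f g : R4 → ℂ} (hf : Pr f) (hfc : Continuous f) (hg : Pr g) (hgc : Continuous g) :
    HasSum (fun k => conj (fc f k) * fc g k) (∫ x in Icc (0 : R4) 1, conj (f x) * g x) := by
  let F : C(T4, ℂ) := ⟨dsc f, dsc_cont hf hfc⟩
  let G : C(T4, ℂ) := ⟨dsc g, dsc_cont hg hgc⟩
  have h := UnitAddTorus.hasSum_prod_mFourierCoeff (ContinuousMap.toLp 2 volume ℂ F)
    (ContinuousMap.toLp 2 volume ℂ G)
  have e1 : ∀ k, UnitAddTorus.mFourierCoeff (ContinuousMap.toLp 2 volume ℂ F) k = fc f k := by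
    intro k
    rw [UnitAddTorus.mFourierCoeff_toLp, fc_eq hf]
    rfl
  have e2 : ∀ k, UnitAddTorus.mFourierCoeff (ContinuousMap.toLp 2 volume ℂ G) k = fc g k := by
    intro k
    rw [UnitAddTorus.mFourierCoeff_toLp, fc_eq hg]
    rfl
  simp only [e1, e2] at h
  have e3 : ∫ t, conj ((ContinuousMap.toLp 2 volume ℂ F : T4 → ℂ) t) *
      (ContinuousMap.toLp 2 volume ℂ G : T4 → ℂ) t = ∫ x in Icc (0 : R4) 1, conj (f x) * g x := by
    have hp : Pr (fun x => conj (f x) * g x) := fun n x => by simp only [hf n x, hg n x]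
    rw [← integral_dsc hp]
    refine integral_congr_ae ?_
    filter_upwards [F.coeFn_toLp (p := 2) (𝕜 := ℂ) volume,
      G.coeFn_toLp (p := 2) (𝕜 := ℂ) volume] with t h1 h2
    rw [h1, h2]
    obtain ⟨x, rfl⟩ := qT_quot.surjective t
    show conj (dsc f (qT x)) * dsc g (qT x) = _
    rw [dsc_qT hp, dsc_qT hf, dsc_qT hg]
  rwa [e3] at h

/-- multiplication by a character shifts the coefficients -/
theorem fc_ch_mul (f : R4 → ℂ) (m k : Fin 4 → ℤ) : fc (fun x => ch m x * f x) k = fc f (k - m) := by
  unfold fc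
  refine integral_congr_ae (Filter.Eventually.of_forall fun x => ?_)
  show ch (-k) x * (ch m x * f x) = ch (-(k - m)) x * f x
  rw [← mul_assoc, ← ch_add]
  congr 2
  abel

/-- the integral of a derivative of a periodic function vanishes -/
theorem int_pd {E : Type*} [NormedAddCommGroup E] [NormedSpace ℝ E] [CompleteSpace E]
    {f : R4 → E} (hf : ContDiff ℝ 1 f) (hp : Pr f) (k : Fin 4) :
    ∫ x in Icc (0 : R4) 1, fderiv ℝ f x (Pi.single k 1) = 0 := by
  have hdc : Continuous fun x => fderiv ℝ f x (Pi.single k 1) :=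
    (hf.continuous_fderiv (by norm_num)).clm_apply continuous_const
  have h := integral_divergence_of_hasFDerivAt_off_countable' (n := 3) (E := E) (0 : R4) 1
    zero_le_one (fun i x => if i = k then f x else 0)
    (fun i x => if i = k then fderiv ℝ f x else 0) ∅ countable_empty
    (fun i => by
      by_cases h : i = k
      · simpa only [Nat.reduceAdd, h, ↓reduceIte] using hf.continuous.continuousOn
      · simpa only [Nat.reduceAdd, h, ↓reduceIte] using continuousOn_const)
    (fun x _ i => by
      by_cases h : i = k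
      · simpa [h] using ((hf.differentiable (by norm_num)) x).hasFDerivAt
      · simpa [h] using hasFDerivAt_const (0 : E) x)
    (by
      have : (fun x => ∑ i, (if i = k then fderiv ℝ f x else 0) (Pi.single i 1)) =
          fun x => fderiv ℝ f x (Pi.single k 1) := by
        funext x
        rw [Finset.sum_eq_single k]
        · simp
        · intro b _ hb
          simp [hb]
        · simp only [Finset.mem_univ, not_true_eq_false, ↓reduceIte, IsEmpty.forall_iff]
      rw [this]
      exact hdc.integrableOn_Icc)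
  have e1 : ∀ x : R4, ∑ i, (if i = k then fderiv ℝ f x else 0) (Pi.single i 1) =
      fderiv ℝ f x (Pi.single k 1) := by
    intro x
    rw [Finset.sum_eq_single k]
    · simp
    · intro b _ hb
      simp [hb]
    · simp only [Finset.mem_univ, not_true_eq_false, ↓reduceIte, IsEmpty.forall_iff]
  simp only [e1] at h
  rw [h]
  refine Finset.sum_eq_zero fun i _ => ?_
  by_cases hi : i = k
  · subst hi
    rw [sub_eq_zero]
    refine setIntegral_congr_fun measurableSet_Icc fun y _ => ?_
    simp only [if_true]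
    have : (Fin.insertNth i ((1 : R4) i) y : R4) =
        fun j => (Fin.insertNth i ((0 : R4) i) y : R4) j + ((Pi.single i 1 : Fin 4 → ℤ) j : ℝ) := by
      funext j
      rcases Fin.eq_self_or_eq_succAbove i j with rfl | ⟨m, rfl⟩
      · simp
      · simp
    rw [this, hp]
  · simp [hi]

/-- Fourier coefficients of a derivative -/
theorem fc_pd {f : R4 → ℂ} (hf : ContDiff ℝ 1 f) (hp : Pr f) (j : Fin 4) (k : Fin 4 → ℤ) :
    fc (fun x => fderiv ℝ f x (Pi.single j 1)) k = 2 * Real.pi * Complex.I * k j * fc f k := by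
  have hd : ∀ x, HasFDerivAt (ch (-k)) ((ch (-k) x) • ((2 * Real.pi * Complex.I) •
      (∑ i, ((-k) i : ℂ) • (Complex.ofRealCLM.comp
        (ContinuousLinearMap.proj i : R4 →L[ℝ] ℝ))))) x := by
    intro x
    have h1 : HasFDerivAt (fun x : R4 => 2 * Real.pi * Complex.I * ∑ i, ((-k) i : ℂ) * x i)
        ((2 * Real.pi * Complex.I) • (∑ i, ((-k) i : ℂ) •
          (Complex.ofRealCLM.comp (ContinuousLinearMap.proj i : R4 →L[ℝ] ℝ)))) x := by
      refine HasFDerivAt.const_mul (HasFDerivAt.fun_sum fun i _ => HasFDerivAt.const_mul ?_ _) _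
      exact (Complex.ofRealCLM.hasFDerivAt (x := x i)).comp x
        (ContinuousLinearMap.proj i : R4 →L[ℝ] ℝ).hasFDerivAt
    exact h1.cexp
  have hg : ContDiff ℝ 1 (fun x => ch (-k) x * f x) := (ch_smooth (-k)).mul hf
  have hgp : Pr (fun x => ch (-k) x * f x) := fun n x => by simp only [ch_per (-k) n x, hp n x]
  have h0 := int_pd hg hgp j
  have h1 : ∀ x, fderiv ℝ (fun x => ch (-k) x * f x) x (Pi.single j 1) =
      ch (-k) x * fderiv ℝ f x (Pi.single j 1) -
        2 * Real.pi * Complex.I * k j * (ch (-k) x * f x) := by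
    intro x
    have h2 : HasFDerivAt (fun y => ch (-k) y * f y) _ x :=
      (hd x).mul ((hf.differentiable (by norm_num)) x).hasFDerivAt
    rw [h2.fderiv]
    simp only [add_apply, smul_apply, sum_apply,
      ContinuousLinearMap.comp_apply, ContinuousLinearMap.proj_apply, Complex.ofRealCLM_apply,
      smul_eq_mul]
    have h3 : ∑ i, ((-k) i : ℂ) * (((Pi.single j 1 : R4) i : ℝ) : ℂ) = -k j := by
      rw [Finset.sum_eq_single j]
      · simp
      · intro b _ hb
        simp [Pi.single_eq_of_ne hb]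
      · simp
    rw [h3]
    ring
  simp only [h1] at h0
  have hc1 : Continuous fun x => ch (-k) x * fderiv ℝ f x (Pi.single j 1) :=
    (ch_cont _).mul ((hf.continuous_fderiv (by norm_num)).clm_apply continuous_const)
  have hc2 : Continuous fun x => 2 * Real.pi * Complex.I * k j * (ch (-k) x * f x) :=
    continuous_const.mul ((ch_cont _).mul hf.continuous)
  rw [integral_sub hc1.integrableOn_Icc hc2.integrableOn_Icc, integral_const_mul] at h0
  unfold fc
  linear_combination h0

end

end Vale.Agent.P247.H350.FF
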