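import Vale.Agent.P247.H350.FF1

/-!
# The quadratic form `G ∧ G` on closed forms that tend weakly to zero
-/

open MeasureTheory Set Topology Filter
open scoped ContDiff ComplexConjugate

namespace Vale.Agent.P247.H350.FF

noncomputable section

/-- components of a two-form -/
abbrev Mt (K : Type) : Type := Fin 4 → Fin 4 → K

/-- the coefficient of `g ∧ h` -/
def W {K : Type} [CommRing K] (g h : Mt K) : K :=
  g 0 1 * h 2 3 - g 0 2 * h 1 3 + g 0 3 * h 1 2 + g 1 2 * h 0 3 - g 1 3 * h 0 2 + g 2 3 * h 0 1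

/-- `m ∧ u` -/
def wd (m u : Fin 4 → ℂ) : Mt ℂ := fun a b => m a * u b - m b * u a

/-- `l ⌟ h` -/
def ct (l : Fin 4 → ℂ) (h : Mt ℂ) : Fin 4 → ℂ := fun b => ∑ c, l c * h c b

/-- sum of the absolute values of the entries -/
def S (g : Mt ℂ) : ℝ := ∑ i, ∑ j, ‖g i j‖

theorem S_nonneg (g : Mt ℂ) : 0 ≤ S g :=
  Finset.sum_nonneg fun _ _ => Finset.sum_nonneg fun _ _ => norm_nonneg _

theorem alg_ct {l : Fin 4 → ℂ} {h : Mt ℂ} (ha : ∀ a b, h b a = - h a b)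
    (hc : ∀ a b c, l a * h b c + l b * h c a + l c * h a b = 0) (a b : Fin 4) :
    (∑ c, l c * l c) * h a b = wd l (ct l h) a b := by
  unfold wd ct
  rw [Finset.sum_mul, Finset.mul_sum, Finset.mul_sum, ← Finset.sum_sub_distrib]
  refine Finset.sum_congr rfl fun c _ => ?_
  linear_combination l c * hc a b c - l c * l a * ha c b

theorem W_wd_zero {k u : Fin 4 → ℂ} {g : Mt ℂ} (ha : ∀ a b, g b a = - g a b)
    (hc : ∀ a b c, k a * g b c + k b * g c a + k c * g a b = 0) : W g (wd k u) = 0 := by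
  unfold W wd
  linear_combination u 3 * (hc 0 1 2) - u 2 * (hc 0 1 3) + u 1 * (hc 0 2 3) - u 0 * (hc 1 2 3)
    - u 3 * k 1 * ha 0 2 + u 2 * k 1 * ha 0 3 - u 1 * k 2 * ha 0 3 + u 0 * k 2 * ha 1 3

theorem W_wd_sub (g : Mt ℂ) (k m u : Fin 4 → ℂ) :
    W g (wd (fun i => k i - m i) u) = W g (wd k u) - W g (wd m u) := by
  unfold W wd
  ring

theorem key_alg {k l m : Fin 4 → ℂ} {g h : Mt ℂ} (hga : ∀ a b, g b a = - g a b)
    (hgc : ∀ a b c, k a * g b c + k b * g c a + k c * g a b = 0)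
    (hha : ∀ a b, h b a = - h a b)
    (hhc : ∀ a b c, l a * h b c + l b * h c a + l c * h a b = 0)
    (hl : ∀ i, l i = k i - m i) :
    (∑ c, l c * l c) * W g h = - W g (wd m (ct l h)) := by
  have h1 : (∑ c, l c * l c) * W g h = W g (wd l (ct l h)) := by
    unfold W
    rw [← alg_ct hha hhc 0 1, ← alg_ct hha hhc 0 2, ← alg_ct hha hhc 0 3, ← alg_ct hha hhc 1 2,
      ← alg_ct hha hhc 1 3, ← alg_ct hha hhc 2 3]
    ring
  have h2 : l = fun i => k i - m i := funext hl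
  rw [h1]
  conv_lhs => rw [show wd l (ct l h) = wd (fun i => k i - m i) (ct l h) by rw [← h2]]
  rw [W_wd_sub, W_wd_zero hga hgc, zero_sub]

theorem norm_W_le (g h : Mt ℂ) : ‖W g h‖ ≤ S g * S h := by
  have h1 : ‖W g h‖ ≤ ‖g 0 1‖ * ‖h 2 3‖ + ‖g 0 2‖ * ‖h 1 3‖ + ‖g 0 3‖ * ‖h 1 2‖ +
      ‖g 1 2‖ * ‖h 0 3‖ + ‖g 1 3‖ * ‖h 0 2‖ + ‖g 2 3‖ * ‖h 0 1‖ := by
    unfold W
    refine (norm_add_le _ _).trans (add_le_add ((norm_sub_le _ _).trans (add_le_add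
      ((norm_add_le _ _).trans (add_le_add ((norm_add_le _ _).trans (add_le_add
      ((norm_sub_le _ _).trans (add_le_add ?_ ?_)) ?_)) ?_)) ?_)) ?_) <;>
    exact (norm_mul_le _ _)
  refine h1.trans ?_
  have hSg : ∀ i j, ‖g i j‖ ≤ S g := by
    intro i j
    unfold S
    calc ‖g i j‖ ≤ ∑ j, ‖g i j‖ :=
          Finset.single_le_sum (f := fun j => ‖g i j‖) (fun _ _ => norm_nonneg _)
            (Finset.mem_univ j)
      _ ≤ _ := Finset.single_le_sum (f := fun i => ∑ j, ‖g i j‖)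
            (fun _ _ => Finset.sum_nonneg fun _ _ => norm_nonneg _) (Finset.mem_univ i)
  calc ‖g 0 1‖ * ‖h 2 3‖ + ‖g 0 2‖ * ‖h 1 3‖ + ‖g 0 3‖ * ‖h 1 2‖ +
      ‖g 1 2‖ * ‖h 0 3‖ + ‖g 1 3‖ * ‖h 0 2‖ + ‖g 2 3‖ * ‖h 0 1‖
      ≤ S g * ‖h 2 3‖ + S g * ‖h 1 3‖ + S g * ‖h 1 2‖ + S g * ‖h 0 3‖ + S g * ‖h 0 2‖ +
        S g * ‖h 0 1‖ := by gcongr <;> exact hSg _ _
    _ = S g * (‖h 2 3‖ + ‖h 1 3‖ + ‖h 1 2‖ + ‖h 0 3‖ + ‖h 0 2‖ + ‖h 0 1‖) := by ring
    _ ≤ S g * S h := by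
      refine mul_le_mul_of_nonneg_left ?_ (S_nonneg g)
      unfold S
      simp only [Fin.sum_univ_four]
      have := fun i j => norm_nonneg (h i j)
      linarith [this 0 0, this 1 0, this 1 1, this 2 0, this 2 1, this 2 2, this 3 0, this 3 1,
        this 3 2, this 3 3]

/-- `ℓ¹` norm of an integer vector -/
def n1 (k : Fin 4 → ℤ) : ℝ := ∑ i, |(k i : ℝ)|

theorem n1_nonneg (k : Fin 4 → ℤ) : 0 ≤ n1 k := Finset.sum_nonneg fun _ _ => abs_nonneg _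

theorem S_wd_le (m u : Fin 4 → ℂ) : S (wd m u) ≤ 2 * (∑ i, ‖m i‖) * ∑ i, ‖u i‖ := by
  unfold S wd
  calc ∑ i, ∑ j, ‖m i * u j - m j * u i‖ ≤ ∑ i, ∑ j, (‖m i‖ * ‖u j‖ + ‖m j‖ * ‖u i‖) := by
        refine Finset.sum_le_sum fun i _ => Finset.sum_le_sum fun j _ => ?_
        refine (norm_sub_le _ _).trans ?_
        rw [norm_mul, norm_mul]
    _ = 2 * (∑ i, ‖m i‖) * ∑ i, ‖u i‖ := by
        simp only [Finset.sum_add_distrib, ← Finset.mul_sum, ← Finset.sum_mul]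
        ring

theorem sum_ct_le (l : Fin 4 → ℂ) (h : Mt ℂ) : ∑ i, ‖ct l h i‖ ≤ (∑ i, ‖l i‖) * S h := by
  unfold ct S
  calc ∑ i, ‖∑ c, l c * h c i‖ ≤ ∑ i, ∑ c, (∑ i, ‖l i‖) * ‖h c i‖ := by
        refine Finset.sum_le_sum fun i _ => (norm_sum_le _ _).trans ?_
        refine Finset.sum_le_sum fun c _ => ?_
        rw [norm_mul]
        gcongr
        exact Finset.single_le_sum (f := fun c => ‖l c‖) (fun _ _ => norm_nonneg _)
          (Finset.mem_univ c)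
    _ = (∑ i, ‖l i‖) * ∑ i, ∑ j, ‖h i j‖ := by
        rw [Finset.sum_comm, Finset.mul_sum]
        refine Finset.sum_congr rfl fun i _ => ?_
        rw [Finset.mul_sum]

/-- the key estimate -/
theorem key_est {k l m : Fin 4 → ℤ} {g h : Mt ℂ} (hga : ∀ a b, g b a = - g a b)
    (hgc : ∀ a b c, (k a : ℂ) * g b c + k b * g c a + k c * g a b = 0)
    (hha : ∀ a b, h b a = - h a b)
    (hhc : ∀ a b c, (l a : ℂ) * h b c + l b * h c a + l c * h a b = 0)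
    (hl : l = k - m) : n1 l * ‖W g h‖ ≤ 8 * n1 m * (S g * S h) := by
  have h1 := key_alg (k := fun i => (k i : ℂ)) (l := fun i => (l i : ℂ)) (m := fun i => (m i : ℂ))
    hga hgc hha hhc (fun i => by rw [hl]; simp)
  have e1 : ∀ q : Fin 4 → ℤ, ∑ i, ‖((q i : ℤ) : ℂ)‖ = n1 q := fun q => by
    unfold n1
    refine Finset.sum_congr rfl fun i _ => ?_
    simp
  have h2 : (∑ c, (l c : ℝ) * l c) * ‖W g h‖ ≤ S g * (2 * n1 m * (n1 l * S h)) := by
    have h3 := congrArg norm h1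
    rw [norm_mul, norm_neg] at h3
    have h4 : ‖∑ c, (l c : ℂ) * l c‖ = ∑ c, (l c : ℝ) * l c := by
      have : (∑ c, (l c : ℂ) * l c) = ((∑ c, (l c : ℝ) * l c : ℝ) : ℂ) := by push_cast; rfl
      rw [this, Complex.norm_real, Real.norm_of_nonneg]
      exact Finset.sum_nonneg fun i _ => mul_self_nonneg _
    rw [h4] at h3
    rw [h3]
    refine (norm_W_le _ _).trans (mul_le_mul_of_nonneg_left ?_ (S_nonneg g))
    refine (S_wd_le _ _).trans ?_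
    rw [e1]
    refine mul_le_mul_of_nonneg_left ?_ (by have := n1_nonneg m; positivity)
    refine (sum_ct_le _ _).trans ?_
    rw [e1]
  have h5 : n1 l * n1 l ≤ 4 * ∑ c, (l c : ℝ) * l c := by
    unfold n1
    simp only [Fin.sum_univ_four]
    have q := fun i => abs_mul_abs_self (l i : ℝ)
    nlinarith [sq_nonneg (|(l 0 : ℝ)| - |(l 1 : ℝ)|), sq_nonneg (|(l 0 : ℝ)| - |(l 2 : ℝ)|),
      sq_nonneg (|(l 0 : ℝ)| - |(l 3 : ℝ)|), sq_nonneg (|(l 1 : ℝ)| - |(l 2 : ℝ)|),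
      sq_nonneg (|(l 1 : ℝ)| - |(l 3 : ℝ)|), sq_nonneg (|(l 2 : ℝ)| - |(l 3 : ℝ)|),
      q 0, q 1, q 2, q 3]
  rcases eq_or_lt_of_le (n1_nonneg l) with h6 | h6
  · rw [← h6, zero_mul]
    have := n1_nonneg m
    have := S_nonneg g
    have := S_nonneg h
    positivity
  · have h7 : n1 l * (n1 l * ‖W g h‖) ≤ n1 l * (8 * n1 m * (S g * S h)) := by
      calc n1 l * (n1 l * ‖W g h‖) = (n1 l * n1 l) * ‖W g h‖ := by ring
        _ ≤ (4 * ∑ c, (l c : ℝ) * l c) * ‖W g h‖ := by gcongr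
        _ = 4 * ((∑ c, (l c : ℝ) * l c) * ‖W g h‖) := by ring
        _ ≤ 4 * (S g * (2 * n1 m * (n1 l * S h))) := by gcongr
        _ = n1 l * (8 * n1 m * (S g * S h)) := by ring
    exact le_of_mul_le_mul_left h7 h6

theorem finite_n1 (N : ℝ) : {l : Fin 4 → ℤ | n1 l < N}.Finite := by
  refine ((Set.finite_Icc (fun _ : Fin 4 => -⌈N⌉) (fun _ => ⌈N⌉))).subset ?_
  intro l hl
  have h1 : ∀ i, |(l i : ℝ)| ≤ ⌈N⌉ := by
    intro i
    have h2 : |(l i : ℝ)| ≤ n1 l :=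
      Finset.single_le_sum (f := fun i => |(l i : ℝ)|) (fun _ _ => abs_nonneg _) (Finset.mem_univ i)
    exact h2.trans ((le_of_lt hl).trans (Int.le_ceil N))
  have h3 : ∀ i, |l i| ≤ ⌈N⌉ := fun i => by
    have := h1 i
    rw [← Int.cast_abs] at this
    exact_mod_cast this
  exact ⟨fun i => (abs_le.1 (h3 i)).1, fun i => (abs_le.1 (h3 i)).2⟩

end

end Vale.Agent.P247.H350.FF
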