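import Vale.Agent.P247.H350.FF2

/-!
# Div-curl: `∫ χ G ∧ G → 0` for closed forms tending weakly to zero
-/

open MeasureTheory Set Topology Filter
open scoped ContDiff ComplexConjugate

namespace Vale.Agent.P247.H350.FF

noncomputable section

/-- the Fourier coefficients of a real two-form -/
def hat (G : Fin 4 → Fin 4 → R4 → ℝ) (k : Fin 4 → ℤ) : Mt ℂ :=
  fun i j => fc (fun x => (G i j x : ℂ)) k

theorem cont_ofReal {f : R4 → ℝ} (hf : Continuous f) : Continuous fun x => (f x : ℂ) :=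
  Complex.continuous_ofReal.comp hf

theorem pr_ofReal {f : R4 → ℝ} (hf : Pr f) : Pr fun x => (f x : ℂ) := fun k x => by
  simp only [hf k x]

theorem parseval_shift {f g : R4 → ℝ} (hf : Continuous f) (hfp : Pr f) (hg : Continuous g)
    (hgp : Pr g) (m : Fin 4 → ℤ) :
    HasSum (fun k => conj (fc (fun x => (f x : ℂ)) k) * fc (fun x => (g x : ℂ)) (k - m))
      (∫ x in Icc (0 : R4) 1, ch m x * ((f x * g x : ℝ) : ℂ)) := by
  have h := parseval (pr_ofReal hfp) (cont_ofReal hf) (g := fun x => ch m x * (g x : ℂ))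
    (fun k x => by simp only [ch_per m k x, hgp k x]) ((ch_cont m).mul (cont_ofReal hg))
  simp only [fc_ch_mul] at h
  convert! h using 2
  funext x
  rw [Complex.conj_ofReal]
  push_cast
  ring

theorem hasSum_sq {f : R4 → ℝ} (hf : Continuous f) (hfp : Pr f) :
    HasSum (fun k => ‖fc (fun x => (f x : ℂ)) k‖ ^ 2) (∫ x in Icc (0 : R4) 1, f x ^ 2) := by
  have h := parseval (pr_ofReal hfp) (cont_ofReal hf) (pr_ofReal hfp) (cont_ofReal hf)
  have h2 := RCLike.hasSum_re ℂ h
  have e : (∫ x in Icc (0 : R4) 1, conj ((f x : ℝ) : ℂ) * ((f x : ℝ) : ℂ)) =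
      ((∫ x in Icc (0 : R4) 1, f x ^ 2 : ℝ) : ℂ) := by
    rw [← integral_complex_ofReal]
    refine integral_congr_ae (Filter.Eventually.of_forall fun x => ?_)
    show conj ((f x : ℝ) : ℂ) * ((f x : ℝ) : ℂ) = ((f x ^ 2 : ℝ) : ℂ)
    rw [Complex.conj_ofReal]
    push_cast
    ring
  rw [e] at h2
  convert! h2 using 1
  · funext k
    show _ = (conj (fc (fun x => (f x : ℂ)) k) * fc (fun x => (f x : ℂ)) k).re
    rw [← Complex.normSq_eq_conj_mul_self, Complex.normSq_eq_norm_sq, Complex.ofReal_re]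

/-- the hypotheses on the sequence -/
structure Seq (G : ℕ → Fin 4 → Fin 4 → R4 → ℝ) (C : ℝ) : Prop where
  cont : ∀ n i j, Continuous (G n i j)
  per : ∀ n i j, Pr (G n i j)
  anti : ∀ n i j x, G n j i x = - G n i j x
  closed : ∀ n k a b c, (k a : ℂ) * hat (G n) k b c + k b * hat (G n) k c a +
    k c * hat (G n) k a b = 0
  energy : ∀ n, ∑ i, ∑ j, ∫ x in Icc (0 : R4) 1, G n i j x ^ 2 ≤ C

variable {G : ℕ → Fin 4 → Fin 4 → R4 → ℝ} {C : ℝ}

theorem fc_neg' (f : R4 → ℂ) (k : Fin 4 → ℤ) : fc (fun x => - f x) k = - fc f k := by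
  unfold fc
  rw [← integral_neg]
  simp only [mul_neg]

theorem Seq.hat_anti (h : Seq G C) (n : ℕ) (k : Fin 4 → ℤ) (a b : Fin 4) :
    hat (G n) k b a = - hat (G n) k a b := by
  unfold hat
  rw [← fc_neg']
  congr 1
  funext x
  rw [h.anti n a b x]
  simp

theorem Seq.sumsq (h : Seq G C) (n : ℕ) (s : Finset (Fin 4 → ℤ)) :
    ∑ k ∈ s, S (hat (G n) k) ^ 2 ≤ 16 * C := by
  have h1 : ∀ k, S (hat (G n) k) ^ 2 ≤ 16 * ∑ i, ∑ j, ‖hat (G n) k i j‖ ^ 2 := by
    intro k
    unfold S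
    have h3 : (∑ i : Fin 4, ∑ j : Fin 4, ‖hat (G n) k i j‖) ^ 2 ≤
        4 * ∑ i : Fin 4, (∑ j : Fin 4, ‖hat (G n) k i j‖) ^ 2 := by
      have := sq_sum_le_card_mul_sum_sq (s := (Finset.univ : Finset (Fin 4)))
        (f := fun i => ∑ j : Fin 4, ‖hat (G n) k i j‖)
      simpa using this
    refine h3.trans ?_
    have h4 : ∀ i, (∑ j : Fin 4, ‖hat (G n) k i j‖) ^ 2 ≤
        4 * ∑ j : Fin 4, ‖hat (G n) k i j‖ ^ 2 := by
      intro i
      have := sq_sum_le_card_mul_sum_sq (s := (Finset.univ : Finset (Fin 4)))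
        (f := fun j => ‖hat (G n) k i j‖)
      simpa using this
    calc 4 * ∑ i : Fin 4, (∑ j : Fin 4, ‖hat (G n) k i j‖) ^ 2
        ≤ 4 * ∑ i : Fin 4, 4 * ∑ j : Fin 4, ‖hat (G n) k i j‖ ^ 2 := by
          gcongr with i _
          exact h4 i
      _ = 16 * ∑ i, ∑ j, ‖hat (G n) k i j‖ ^ 2 := by
          rw [← Finset.mul_sum]
          ring
  have h5 : ∀ i j, ∑ k ∈ s, ‖hat (G n) k i j‖ ^ 2 ≤ ∫ x in Icc (0 : R4) 1, G n i j x ^ 2 := by
    intro i j
    exact sum_le_hasSum s (fun _ _ => by positivity) (hasSum_sq (h.cont n i j) (h.per n i j))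
  calc ∑ k ∈ s, S (hat (G n) k) ^ 2 ≤ ∑ k ∈ s, 16 * ∑ i, ∑ j, ‖hat (G n) k i j‖ ^ 2 :=
        Finset.sum_le_sum fun k _ => h1 k
    _ = 16 * ∑ i, ∑ j, ∑ k ∈ s, ‖hat (G n) k i j‖ ^ 2 := by
        rw [← Finset.mul_sum, Finset.sum_comm]
        congr 1
        refine Finset.sum_congr rfl fun i _ => ?_
        rw [Finset.sum_comm]
    _ ≤ 16 * ∑ i, ∑ j, ∫ x in Icc (0 : R4) 1, G n i j x ^ 2 := by
        gcongr with i _ j _
        exact h5 i j
    _ ≤ 16 * C := by
        gcongr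
        exact h.energy n

/-- complex conjugate of the components -/
def cj (g : Mt ℂ) : Mt ℂ := fun i j => conj (g i j)

theorem S_cj (g : Mt ℂ) : S (cj g) = S g := by
  unfold S cj
  simp only [RCLike.norm_conj]

theorem six {μ : Measure R4} (f : Fin 6 → R4 → ℂ) (hf : ∀ i, Integrable (f i) μ) :
    ∫ x, (f 0 x - f 1 x + f 2 x + f 3 x - f 4 x + f 5 x) ∂μ =
      ∫ x, f 0 x ∂μ - ∫ x, f 1 x ∂μ + ∫ x, f 2 x ∂μ + ∫ x, f 3 x ∂μ - ∫ x, f 4 x ∂μ +
        ∫ x, f 5 x ∂μ := by
  show ∫ x, (f 0 - f 1 + f 2 + f 3 - f 4 + f 5) x ∂μ = _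
  rw [integral_add' (((((hf 0).sub (hf 1)).add (hf 2)).add (hf 3)).sub (hf 4)) (hf 5),
    integral_sub' ((((hf 0).sub (hf 1)).add (hf 2)).add (hf 3)) (hf 4),
    integral_add' (((hf 0).sub (hf 1)).add (hf 2)) (hf 3),
    integral_add' ((hf 0).sub (hf 1)) (hf 2), integral_sub' (hf 0) (hf 1)]

theorem Seq.hasSum_W (h : Seq G C) (n : ℕ) (m : Fin 4 → ℤ) :
    HasSum (fun k => W (cj (hat (G n) k)) (hat (G n) (k - m)))
      (∫ x in Icc (0 : R4) 1, ch m x *
        ((W (fun i j => G n i j x) (fun i j => G n i j x) : ℝ) : ℂ)) := by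
  have hs := fun a b c d => parseval_shift (h.cont n a b) (h.per n a b) (h.cont n c d)
    (h.per n c d) m
  have hi : ∀ a b c d, IntegrableOn (fun x => ch m x * ((G n a b x * G n c d x : ℝ) : ℂ))
      (Icc (0 : R4) 1) := fun a b c d =>
    ((ch_cont m).mul (cont_ofReal ((h.cont n a b).mul (h.cont n c d)))).integrableOn_Icc
  have key := (((((hs 0 1 2 3).sub (hs 0 2 1 3)).add (hs 0 3 1 2)).add (hs 1 2 0 3)).sub
    (hs 1 3 0 2)).add (hs 2 3 0 1)
  have e := six ![fun x => ch m x * ((G n 0 1 x * G n 2 3 x : ℝ) : ℂ),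
    fun x => ch m x * ((G n 0 2 x * G n 1 3 x : ℝ) : ℂ),
    fun x => ch m x * ((G n 0 3 x * G n 1 2 x : ℝ) : ℂ),
    fun x => ch m x * ((G n 1 2 x * G n 0 3 x : ℝ) : ℂ),
    fun x => ch m x * ((G n 1 3 x * G n 0 2 x : ℝ) : ℂ),
    fun x => ch m x * ((G n 2 3 x * G n 0 1 x : ℝ) : ℂ)] (by
      intro i
      fin_cases i
      · exact hi 0 1 2 3
      · exact hi 0 2 1 3
      · exact hi 0 3 1 2
      · exact hi 1 2 0 3
      · exact hi 1 3 0 2
      · exact hi 2 3 0 1)
  have e' : (∫ x in Icc (0 : R4) 1, ch m x *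
        ((W (fun i j => G n i j x) (fun i j => G n i j x) : ℝ) : ℂ)) =
      ∫ x in Icc (0 : R4) 1, (ch m x * ((G n 0 1 x * G n 2 3 x : ℝ) : ℂ) -
        ch m x * ((G n 0 2 x * G n 1 3 x : ℝ) : ℂ) + ch m x * ((G n 0 3 x * G n 1 2 x : ℝ) : ℂ) +
        ch m x * ((G n 1 2 x * G n 0 3 x : ℝ) : ℂ) - ch m x * ((G n 1 3 x * G n 0 2 x : ℝ) : ℂ) +
        ch m x * ((G n 2 3 x * G n 0 1 x : ℝ) : ℂ)) := by
    refine integral_congr_ae (Filter.Eventually.of_forall fun x => ?_)
    simp only [W]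
    push_cast
    ring
  rw [e']
  refine (e.symm ▸ key : _)

theorem Seq.bound (h : Seq G C) (n : ℕ) (m : Fin 4 → ℤ) {N : ℝ} (hN : 0 < N)
    (B : Finset (Fin 4 → ℤ)) (hB : ∀ k, n1 (k - m) < N → k ∈ B) :
    ‖∫ x in Icc (0 : R4) 1, ch m x *
        ((W (fun i j => G n i j x) (fun i j => G n i j x) : ℝ) : ℂ)‖ ≤
      ∑ k ∈ B, S (hat (G n) k) * S (hat (G n) (k - m)) + 8 * n1 m / N * (16 * C) := by
  refine le_of_tendsto (h.hasSum_W n m).norm (Eventually.of_forall fun s => ?_)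
  have hterm : ∀ k, ‖W (cj (hat (G n) k)) (hat (G n) (k - m))‖ ≤
      (if k ∈ B then S (hat (G n) k) * S (hat (G n) (k - m)) else 0) +
        8 * n1 m / N * ((S (hat (G n) k) ^ 2 + S (hat (G n) (k - m)) ^ 2) / 2) := by
    intro k
    have hm := n1_nonneg m
    have hS1 := S_nonneg (hat (G n) k)
    have hS2 := S_nonneg (hat (G n) (k - m))
    by_cases hk : n1 (k - m) < N
    · rw [if_pos (hB k hk)]
      have h1 := norm_W_le (cj (hat (G n) k)) (hat (G n) (k - m))
      rw [S_cj] at h1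
      have : 0 ≤ 8 * n1 m / N * ((S (hat (G n) k) ^ 2 + S (hat (G n) (k - m)) ^ 2) / 2) := by
        positivity
      linarith
    · push Not at hk
      have h1 := key_est (k := k) (l := k - m) (m := m) (g := cj (hat (G n) k))
        (h := hat (G n) (k - m))
        (fun a b => by
          show conj (hat (G n) k b a) = - conj (hat (G n) k a b)
          rw [h.hat_anti, map_neg])
        (fun a b c => by
          have := congrArg conj (h.closed n k a b c)
          simpa [cj] using this)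
        (fun a b => h.hat_anti n _ a b) (fun a b c => h.closed n _ a b c) rfl
      rw [S_cj] at h1
      have h2 : N * ‖W (cj (hat (G n) k)) (hat (G n) (k - m))‖ ≤
          8 * n1 m * (S (hat (G n) k) * S (hat (G n) (k - m))) :=
        le_trans (by gcongr) h1
      have h3 : ‖W (cj (hat (G n) k)) (hat (G n) (k - m))‖ ≤
          8 * n1 m / N * (S (hat (G n) k) * S (hat (G n) (k - m))) := by
        rw [div_mul_eq_mul_div, le_div_iff₀ hN]
        linarith
      have h4 : S (hat (G n) k) * S (hat (G n) (k - m)) ≤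
          (S (hat (G n) k) ^ 2 + S (hat (G n) (k - m)) ^ 2) / 2 := by
        nlinarith [sq_nonneg (S (hat (G n) k) - S (hat (G n) (k - m)))]
      have h5 : 0 ≤ (if k ∈ B then S (hat (G n) k) * S (hat (G n) (k - m)) else 0) := by
        split_ifs
        · positivity
        · exact le_refl _
      have h6 : 0 ≤ 8 * n1 m / N := by positivity
      nlinarith
  have hm := n1_nonneg m
  calc ‖∑ k ∈ s, W (cj (hat (G n) k)) (hat (G n) (k - m))‖
      ≤ ∑ k ∈ s, ‖W (cj (hat (G n) k)) (hat (G n) (k - m))‖ := norm_sum_le _ _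
    _ ≤ ∑ k ∈ s, ((if k ∈ B then S (hat (G n) k) * S (hat (G n) (k - m)) else 0) +
        8 * n1 m / N * ((S (hat (G n) k) ^ 2 + S (hat (G n) (k - m)) ^ 2) / 2)) :=
        Finset.sum_le_sum fun k _ => hterm k
    _ = (∑ k ∈ s, if k ∈ B then S (hat (G n) k) * S (hat (G n) (k - m)) else 0) +
        8 * n1 m / N * ((∑ k ∈ s, S (hat (G n) k) ^ 2 + ∑ k ∈ s, S (hat (G n) (k - m)) ^ 2) / 2) := by
        rw [Finset.sum_add_distrib, ← Finset.mul_sum, ← Finset.sum_div, Finset.sum_add_distrib]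
    _ ≤ ∑ k ∈ B, S (hat (G n) k) * S (hat (G n) (k - m)) + 8 * n1 m / N * (16 * C) := by
        refine add_le_add ?_ ?_
        · rw [← Finset.sum_filter]
          refine Finset.sum_le_sum_of_subset_of_nonneg (fun k hk => (Finset.mem_filter.1 hk).2)
            fun k _ _ => mul_nonneg (S_nonneg _) (S_nonneg _)
        · have h1 := h.sumsq n s
          have h2 : ∑ k ∈ s, S (hat (G n) (k - m)) ^ 2 ≤ 16 * C := by
            have := h.sumsq n (s.map ((Equiv.subRight m).toEmbedding))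
            rw [Finset.sum_map] at this
            exact this
          have h6 : 0 ≤ 8 * n1 m / N := by positivity
          refine mul_le_mul_of_nonneg_left ?_ h6
          linarith

theorem Seq.tendsto_ch (h : Seq G C)
    (hw : ∀ i j k, Tendsto (fun n => hat (G n) k i j) atTop (𝓝 0)) (m : Fin 4 → ℤ) :
    Tendsto (fun n => ∫ x in Icc (0 : R4) 1, ch m x *
        ((W (fun i j => G n i j x) (fun i j => G n i j x) : ℝ) : ℂ)) atTop (𝓝 0) := by
  have hC : 0 ≤ C := by
    refine le_trans ?_ (h.energy 0)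
    exact Finset.sum_nonneg fun _ _ => Finset.sum_nonneg fun _ _ =>
      integral_nonneg fun _ => sq_nonneg _
  have hS : ∀ k, Tendsto (fun n => S (hat (G n) k)) atTop (𝓝 0) := by
    intro k
    have : Tendsto (fun n => ∑ i : Fin 4, ∑ j : Fin 4, ‖hat (G n) k i j‖) atTop
        (𝓝 (∑ i : Fin 4, ∑ j : Fin 4, ‖(0 : ℂ)‖)) :=
      tendsto_finsetSum _ fun i _ => tendsto_finsetSum _ fun j _ => (hw i j k).norm
    simpa [S] using this
  rw [Metric.tendsto_atTop]
  intro ε hε
  have hm := n1_nonneg m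
  set N : ℝ := (8 * n1 m * (16 * C) + 1) / (ε / 2) with hNdef
  have hN : 0 < N := by positivity
  have hNε : 8 * n1 m / N * (16 * C) < ε / 2 := by
    rw [div_mul_eq_mul_div, div_lt_iff₀ hN, hNdef, mul_div_cancel₀ _ (by positivity)]
    linarith
  have hfin : {k : Fin 4 → ℤ | n1 (k - m) < N}.Finite := by
    refine (finite_n1 N).preimage (f := fun k : Fin 4 → ℤ => k - m) ?_
    intro a _ b _ hab
    exact sub_left_injective hab
  have hsum : Tendsto (fun n => ∑ k ∈ hfin.toFinset, S (hat (G n) k) * S (hat (G n) (k - m)))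
      atTop (𝓝 0) := by
    have : Tendsto (fun n => ∑ k ∈ hfin.toFinset, S (hat (G n) k) * S (hat (G n) (k - m)))
      atTop (𝓝 (∑ k ∈ hfin.toFinset, (0 : ℝ) * 0)) :=
      tendsto_finsetSum _ fun k _ => (hS k).mul (hS (k - m))
    simpa using this
  obtain ⟨n0, hn0⟩ := (hsum.eventually (gt_mem_nhds (show (0 : ℝ) < ε / 2 by positivity))).exists_forall_of_atTop
  refine ⟨n0, fun n hn => ?_⟩
  rw [dist_zero_right]
  have h1 := h.bound n m hN hfin.toFinset (fun k hk => hfin.mem_toFinset.2 hk)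
  have h2 := hn0 n hn
  linarith

theorem abs_W_self_le (g : Mt ℝ) : |W g g| ≤ ∑ i, ∑ j, g i j ^ 2 := by
  unfold W
  simp only [Fin.sum_univ_four]
  rw [abs_le]
  constructor <;>
  nlinarith [sq_nonneg (g 0 1 - g 2 3), sq_nonneg (g 0 1 + g 2 3), sq_nonneg (g 0 2 - g 1 3),
    sq_nonneg (g 0 2 + g 1 3), sq_nonneg (g 0 3 - g 1 2), sq_nonneg (g 0 3 + g 1 2),
    sq_nonneg (g 0 0), sq_nonneg (g 1 0), sq_nonneg (g 1 1), sq_nonneg (g 2 0),
    sq_nonneg (g 2 1), sq_nonneg (g 2 2), sq_nonneg (g 3 0), sq_nonneg (g 3 1),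
    sq_nonneg (g 3 2), sq_nonneg (g 3 3)]

theorem Seq.cont_W (h : Seq G C) (n : ℕ) :
    Continuous fun x => W (fun i j => G n i j x) (fun i j => G n i j x) := by
  unfold W
  have := h.cont n
  fun_prop

theorem Seq.int_W (h : Seq G C) (n : ℕ) :
    ∫ x in Icc (0 : R4) 1, |W (fun i j => G n i j x) (fun i j => G n i j x)| ≤ C := by
  refine le_trans ?_ (h.energy n)
  have hi : ∀ i j, IntegrableOn (fun x => G n i j x ^ 2) (Icc (0 : R4) 1) := fun i j =>
    ((h.cont n i j).pow 2).integrableOn_Icc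
  calc ∫ x in Icc (0 : R4) 1, |W (fun i j => G n i j x) (fun i j => G n i j x)|
      ≤ ∫ x in Icc (0 : R4) 1, ∑ i, ∑ j, G n i j x ^ 2 := by
        refine integral_mono (h.cont_W n).abs.integrableOn_Icc
          (integrable_finsetSum _ fun i _ => integrable_finsetSum _ fun j _ => hi i j)
          fun x => abs_W_self_le _
    _ = ∑ i, ∑ j, ∫ x in Icc (0 : R4) 1, G n i j x ^ 2 := by
        rw [integral_finsetSum _ fun i _ => integrable_finsetSum _ fun j _ => hi i j]
        refine Finset.sum_congr rfl fun i _ => ?_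
        rw [integral_finsetSum _ fun j _ => hi i j]

/-- the div-curl theorem -/
theorem Seq.divcurl (h : Seq G C)
    (hw : ∀ i j k, Tendsto (fun n => hat (G n) k i j) atTop (𝓝 0)) {χ : R4 → ℝ}
    (hχ : Continuous χ) (hχp : Pr χ) :
    Tendsto (fun n => ∫ x in Icc (0 : R4) 1, χ x *
        W (fun i j => G n i j x) (fun i j => G n i j x)) atTop (𝓝 0) := by
  set w : ℕ → R4 → ℝ := fun n x => W (fun i j => G n i j x) (fun i j => G n i j x) with hwdef
  have hwc : ∀ n, Continuous (w n) := fun n => h.cont_W n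
  have hqc : Continuous qT := qT_quot.continuous
  have hI : ∀ (F : C(T4, ℂ)) n, IntegrableOn (fun x => F (qT x) * ((w n x : ℝ) : ℂ))
      (Icc (0 : R4) 1) := fun F n =>
    ((F.continuous.comp hqc).mul (cont_ofReal (hwc n))).integrableOn_Icc
  have hbd : ∀ (F : C(T4, ℂ)) n, ‖∫ x in Icc (0 : R4) 1, F (qT x) * ((w n x : ℝ) : ℂ)‖ ≤
      ‖F‖ * C := by
    intro F n
    calc ‖∫ x in Icc (0 : R4) 1, F (qT x) * ((w n x : ℝ) : ℂ)‖
        ≤ ∫ x in Icc (0 : R4) 1, ‖F (qT x) * ((w n x : ℝ) : ℂ)‖ := norm_integral_le_integral_norm _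
      _ ≤ ∫ x in Icc (0 : R4) 1, ‖F‖ * |w n x| := by
          refine integral_mono (hI F n).norm ((hwc n).abs.integrableOn_Icc.const_mul _) fun x => ?_
          show ‖F (qT x) * ((w n x : ℝ) : ℂ)‖ ≤ ‖F‖ * |w n x|
          rw [norm_mul, Complex.norm_real, Real.norm_eq_abs]
          gcongr
          exact F.norm_coe_le_norm _
      _ = ‖F‖ * ∫ x in Icc (0 : R4) 1, |w n x| := integral_const_mul _ _
      _ ≤ ‖F‖ * C := by
          gcongr
          exact h.int_W n
  let A : Submodule ℂ C(T4, ℂ) :=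
    { carrier := {F | Tendsto (fun n => ∫ x in Icc (0 : R4) 1, F (qT x) * ((w n x : ℝ) : ℂ))
        atTop (𝓝 0)}
      add_mem' := by
        intro F F' hF hF'
        have := hF.add hF'
        rw [add_zero] at this
        refine this.congr fun n => ?_
        rw [← integral_add (hI F n) (hI F' n)]
        refine integral_congr_ae (Eventually.of_forall fun x => ?_)
        simp only [ContinuousMap.add_apply, add_mul]
      zero_mem' := by simp
      smul_mem' := by
        intro c F hF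
        have := hF.const_mul c
        rw [mul_zero] at this
        refine this.congr fun n => ?_
        rw [← integral_const_mul]
        refine integral_congr_ae (Eventually.of_forall fun x => ?_)
        simp only [ContinuousMap.smul_apply, smul_eq_mul, mul_assoc] }
  have hAcl : IsClosed (A : Set C(T4, ℂ)) := by
    rw [← closure_subset_iff_isClosed]
    intro F hF
    rw [Metric.mem_closure_iff] at hF
    show Tendsto _ _ _
    rw [Metric.tendsto_atTop]
    intro ε hε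
    have hC : 0 ≤ C := by
      refine le_trans ?_ (h.energy 0)
      exact Finset.sum_nonneg fun _ _ => Finset.sum_nonneg fun _ _ =>
        integral_nonneg fun _ => sq_nonneg _
    obtain ⟨F', hF', hd⟩ := hF (ε / (2 * (C + 1))) (by positivity)
    have hF'' : Tendsto (fun n => ∫ x in Icc (0 : R4) 1, F' (qT x) * ((w n x : ℝ) : ℂ))
        atTop (𝓝 0) := hF'
    rw [Metric.tendsto_atTop] at hF''
    obtain ⟨n0, hn0⟩ := hF'' (ε / 2) (by positivity)
    refine ⟨n0, fun n hn => ?_⟩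
    have h1 := hn0 n hn
    rw [dist_zero_right] at h1 ⊢
    have h2 := hbd (F - F') n
    have h3 : (∫ x in Icc (0 : R4) 1, (F - F') (qT x) * ((w n x : ℝ) : ℂ)) =
        (∫ x in Icc (0 : R4) 1, F (qT x) * ((w n x : ℝ) : ℂ)) -
          ∫ x in Icc (0 : R4) 1, F' (qT x) * ((w n x : ℝ) : ℂ) := by
      rw [← integral_sub (hI F n) (hI F' n)]
      refine integral_congr_ae (Eventually.of_forall fun x => ?_)
      simp only [ContinuousMap.sub_apply, sub_mul]
    rw [h3] at h2
    have h4 : ‖F - F'‖ * C < ε / 2 := by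
      rw [← dist_eq_norm]
      calc dist F F' * C ≤ ε / (2 * (C + 1)) * C := by gcongr
        _ < ε / 2 := by
          rw [div_mul_eq_mul_div, div_lt_div_iff₀ (by positivity) (by positivity)]
          nlinarith
    have h5 := norm_sub_norm_le (∫ x in Icc (0 : R4) 1, F (qT x) * ((w n x : ℝ) : ℂ))
      (∫ x in Icc (0 : R4) 1, F' (qT x) * ((w n x : ℝ) : ℂ))
    linarith
  have hAtop : A = ⊤ := by
    rw [eq_top_iff, ← UnitAddTorus.span_mFourier_closure_eq_top (d := Fin 4)]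
    refine Submodule.topologicalClosure_minimal _ ?_ hAcl
    rw [Submodule.span_le]
    rintro _ ⟨m, rfl⟩
    show Tendsto _ _ _
    refine (h.tendsto_ch hw m).congr fun n => ?_
    refine integral_congr_ae (Eventually.of_forall fun x => ?_)
    show ch m x * _ = UnitAddTorus.mFourier m (qT x) * _
    rw [mFourier_qT]
  have hmem : (⟨dsc (fun x => (χ x : ℂ)), dsc_cont (pr_ofReal hχp) (cont_ofReal hχ)⟩ : C(T4, ℂ)) ∈ A := by
    rw [hAtop]; trivial
  have hfin : Tendsto (fun n => ∫ x in Icc (0 : R4) 1, dsc (fun x => (χ x : ℂ)) (qT x) *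
      ((w n x : ℝ) : ℂ)) atTop (𝓝 0) := hmem
  have hre := (Complex.continuous_re.tendsto 0).comp hfin
  simp only [Complex.zero_re] at hre
  refine hre.congr fun n => ?_
  show (∫ x in Icc (0 : R4) 1, dsc (fun x => (χ x : ℂ)) (qT x) * ((w n x : ℝ) : ℂ)).re = _
  have h1 : (∫ x in Icc (0 : R4) 1, dsc (fun x => (χ x : ℂ)) (qT x) * ((w n x : ℝ) : ℂ)) =
      ((∫ x in Icc (0 : R4) 1, χ x * w n x : ℝ) : ℂ) := by
    rw [← integral_complex_ofReal]
    refine integral_congr_ae (Eventually.of_forall fun x => ?_)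
    show dsc (fun x => (χ x : ℂ)) (qT x) * ((w n x : ℝ) : ℂ) = ((χ x * w n x : ℝ) : ℂ)
    rw [dsc_qT (pr_ofReal hχp)]
    push_cast
    rfl
  rw [h1, Complex.ofReal_re]

end

end Vale.Agent.P247.H350.FF
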