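import Vale.Agent.P247.H350.FF3

/-!
# Weak limits of closed forms whose self-dual part tends to zero
-/

open MeasureTheory Set Topology Filter
open scoped ContDiff ComplexConjugate ENNReal

namespace Vale.Agent.P247.H350.FF

noncomputable section

abbrev V6 : Type := EuclideanSpace ℝ (Fin 6)

/-- the measure on the cube -/
abbrev μc : Measure R4 := (volume : Measure R4).restrict (Icc 0 1)

theorem finite_μc : IsFiniteMeasure μc :=
  ⟨by rw [Measure.restrict_apply_univ]; exact isCompact_Icc.measure_lt_top⟩

attribute [local instance] finite_μc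

abbrev Hc : Type := Lp V6 2 μc

theorem sep_Hc : TopologicalSpace.SeparableSpace Hc := by
  have : Fact ((2 : ℝ≥0∞) ≠ (⊤ : ℝ≥0∞)) := ⟨by simp⟩
  infer_instance

/-- the Hodge-star-like involution: `W g h = ⟨vec g, st (vec h)⟩` -/
def st : V6 →L[ℝ] V6 := LinearMap.toContinuousLinearMap
  { toFun := fun v => WithLp.toLp 2 ![v 5, -v 4, v 3, v 2, -v 1, v 0]
    map_add' := fun u v => by
      ext i
      fin_cases i <;> simp <;> ring
    map_smul' := fun c v => by
      ext i
      fin_cases i <;> simp }

theorem st_apply (v : V6) : st v = WithLp.toLp 2 ![v 5, -v 4, v 3, v 2, -v 1, v 0] := rfl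

def vec (g : Mt ℝ) : V6 := WithLp.toLp 2 ![g 0 1, g 0 2, g 0 3, g 1 2, g 1 3, g 2 3]

theorem inner_vec (g h : Mt ℝ) : inner ℝ (vec g) (st (vec h)) = W g h := by
  rw [st_apply]
  simp only [vec, PiLp.inner_apply, Fin.sum_univ_six]
  simp [W]
  ring

theorem memLp_cont {v : R4 → V6} (hv : Continuous v) : MemLp v 2 μc := by
  obtain ⟨B, hB⟩ := (isCompact_Icc (a := (0 : R4)) (b := 1)).exists_bound_of_continuousOn
    hv.continuousOn
  refine MemLp.of_bound hv.aestronglyMeasurable B ?_
  exact (ae_restrict_iff' measurableSet_Icc).2 (Eventually.of_forall hB)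

def tl (v : R4 → V6) (hv : Continuous v) : Hc := (memLp_cont hv).toLp v

theorem tl_ae (v : R4 → V6) (hv : Continuous v) : tl v hv =ᵐ[μc] v := (memLp_cont hv).coeFn_toLp

theorem inner_tl (g : Hc) (u : R4 → V6) (hu : Continuous u) :
    inner ℝ g (tl u hu) = ∫ x in Icc (0 : R4) 1, inner ℝ (g x) (u x) := by
  rw [L2.inner_def]
  refine integral_congr_ae ?_
  filter_upwards [tl_ae u hu] with x h2
  rw [h2]

theorem inner_tl_tl (v u : R4 → V6) (hv : Continuous v) (hu : Continuous u) :
    inner ℝ (tl v hv) (tl u hu) = ∫ x in Icc (0 : R4) 1, inner ℝ (v x) (u x) := by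
  rw [L2.inner_def]
  refine integral_congr_ae ?_
  filter_upwards [tl_ae v hv, tl_ae u hu] with x h1 h2
  rw [h1, h2]

/-- the quadratic form -/
def qf (g : Hc) : ℝ := inner ℝ g (st.compLpL 2 μc g)

theorem qf_cont : Continuous qf := continuous_id.inner (st.compLpL 2 μc).continuous

theorem qf_eq (g : Hc) : qf g = ∫ x in Icc (0 : R4) 1, inner ℝ (g x) (st (g x)) := by
  unfold qf
  rw [L2.inner_def]
  refine integral_congr_ae ?_
  filter_upwards [st.coeFn_compLpL (p := 2) (μ := μc) g] with x h2
  rw [h2]

theorem qf_tl (v : R4 → V6) (hv : Continuous v) :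
    qf (tl v hv) = ∫ x in Icc (0 : R4) 1, inner ℝ (v x) (st (v x)) := by
  rw [qf_eq]
  refine integral_congr_ae ?_
  filter_upwards [tl_ae v hv] with x h1
  rw [h1]

/-- weakly convergent subsequences -/
theorem weak_subseq {H : Type*} [NormedAddCommGroup H] [InnerProductSpace ℝ H] [CompleteSpace H]
    [TopologicalSpace.SeparableSpace H] (g : ℕ → H) (B : ℝ) (hB : ∀ n, ‖g n‖ ≤ B) :
    ∃ (φ : ℕ → ℕ) (G : H), StrictMono φ ∧
      ∀ z, Tendsto (fun n => inner ℝ (g (φ n)) z) atTop (𝓝 (inner ℝ G z)) := by
  have hs := WeakDual.isSeqCompact_closedBall (𝕜 := ℝ) (E := H) 0 B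
  obtain ⟨L, -, φ, hφ, hL⟩ := hs (x := fun n =>
    WeakDual.toStrongDual.symm (InnerProductSpace.toDual ℝ H (g n))) (fun n => by
      show WeakDual.toStrongDual (WeakDual.toStrongDual.symm
        (InnerProductSpace.toDual ℝ H (g n))) ∈ Metric.closedBall 0 B
      rw [LinearEquiv.apply_symm_apply, mem_closedBall_zero_iff, LinearIsometryEquiv.norm_map]
      exact hB n)
  refine ⟨φ, (InnerProductSpace.toDual ℝ H).symm (WeakDual.toStrongDual L), hφ, fun z => ?_⟩
  have h1 := ((WeakDual.eval_continuous (𝕜 := ℝ) (E := H) z).tendsto L).comp hL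
  have h2 : inner ℝ ((InnerProductSpace.toDual ℝ H).symm (WeakDual.toStrongDual L)) z = L z := by
    rw [InnerProductSpace.toDual_symm_apply]
    rfl
  rw [h2]
  exact h1

/-- the main weak convergence statement -/
theorem weak_zero (v : ℕ → R4 → V6) (hv : ∀ n, Continuous (v n)) (C : ℝ)
    (hC : ∀ n, ∫ x in Icc (0 : R4) 1, ‖v n x‖ ^ 2 ≤ C)
    (𝓔 : Submodule ℝ (R4 → V6))
    (hE0 : ∀ l ∈ 𝓔, ∫ x in Icc (0 : R4) 1, inner ℝ (l x) (st (l x)) = 0)
    (κ : ℕ → V6) (hκ : Tendsto κ atTop (𝓝 0)) (hvE : ∀ n, (fun x => v n x - κ n) ∈ 𝓔)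
    (w : Fin 3 → R4 → V6) (hw : ∀ j, Continuous (w j))
    (hvw : ∀ j, Tendsto (fun n => ∫ x in Icc (0 : R4) 1, |inner ℝ (v n x) (st (w j x))|)
      atTop (𝓝 0))
    (hneg : ∀ x, ∀ b : V6, (∀ j, inner ℝ b (st (w j x)) = 0) → b ≠ 0 → inner ℝ b (st b) < 0)
    (u : R4 → V6) (hu : Continuous u) :
    Tendsto (fun n => ∫ x in Icc (0 : R4) 1, inner ℝ (v n x) (u x)) atTop (𝓝 0) := by
  set g : ℕ → Hc := fun n => tl (v n) (hv n) with hg
  have hgn : ∀ n, ‖g n‖ ≤ Real.sqrt C := by
    intro n
    refine Real.le_sqrt_of_sq_le ?_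
    rw [← @inner_self_eq_norm_sq ℝ]
    simp only [hg]
    rw [inner_tl_tl]
    refine le_trans (le_of_eq ?_) (hC n)
    simp only [real_inner_self_eq_norm_sq]
    rfl
  have key : ∀ θ : ℕ → ℕ, StrictMono θ → ∃ ψ : ℕ → ℕ, StrictMono ψ ∧
      Tendsto (fun n => ∫ x in Icc (0 : R4) 1, inner ℝ (v (θ (ψ n)) x) (u x)) atTop (𝓝 0) := by
    intro θ hθ
    have := sep_Hc
    obtain ⟨ψ, G, hψ, hG⟩ := weak_subseq (fun n => g (θ n)) _ (fun n => hgn (θ n))
    refine ⟨ψ, hψ, ?_⟩
    have hθψ : Tendsto (fun n => θ (ψ n)) atTop atTop := hθ.tendsto_atTop.comp hψ.tendsto_atTop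
    -- the limit is in the closure of the exact forms
    let EE : Submodule ℝ Hc :=
      { carrier := {z | ∃ l ∈ 𝓔, ∃ hl : Continuous l, z = tl l hl}
        add_mem' := by
          rintro _ _ ⟨l, hl, hlc, rfl⟩ ⟨l', hl', hlc', rfl⟩
          refine ⟨l + l', 𝓔.add_mem hl hl', hlc.add hlc', ?_⟩
          rfl
        zero_mem' := ⟨0, 𝓔.zero_mem, continuous_const, rfl⟩
        smul_mem' := by
          rintro c _ ⟨l, hl, hlc, rfl⟩
          refine ⟨c • l, 𝓔.smul_mem c hl, hlc.const_smul c, ?_⟩
          rfl }
    have hGE : G ∈ EE.topologicalClosure := by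
      rw [← Submodule.orthogonal_orthogonal_eq_closure, Submodule.mem_orthogonal']
      intro z hz
      have h1 := hG z
      have h2 : Tendsto (fun n => inner ℝ (g (θ (ψ n))) z) atTop (𝓝 0) := by
        have h3 : ∀ n, inner ℝ (g n) z = inner ℝ (tl (fun _ => κ n) continuous_const) z := by
          intro n
          have h4 : g n = tl (fun x => v n x - κ n) ((hv n).sub continuous_const) +
              tl (fun _ => κ n) continuous_const := by
            have : g n = tl ((fun x => v n x - κ n) + fun _ => κ n)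
                (((hv n).sub continuous_const).add continuous_const) := by
              simp only [hg]
              congr 1
              funext x
              simp
            rw [this]
            rfl
          rw [h4, inner_add_left]
          have h5 : inner ℝ (tl (fun x => v n x - κ n) ((hv n).sub continuous_const)) z = 0 :=
            (Submodule.mem_orthogonal _ _).1 hz _ ⟨_, hvE n, _, rfl⟩
          rw [h5, zero_add]
        have h6 : Tendsto (fun n => inner ℝ (tl (fun _ => κ n) continuous_const) z) atTop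
            (𝓝 0) := by
          have h7 : ∀ n, ‖inner ℝ (tl (fun _ => κ n) continuous_const) z‖ ≤ ‖κ n‖ * ‖z‖ := by
            intro n
            refine (norm_inner_le_norm _ _).trans ?_
            gcongr
            refine le_of_sq_le_sq ?_ (norm_nonneg _)
            rw [← @inner_self_eq_norm_sq ℝ, inner_tl_tl]
            simp only [real_inner_self_eq_norm_sq]
            rw [integral_const]
            simp [measureReal_def]
          refine squeeze_zero_norm h7 ?_
          have := (hκ.norm).mul_const ‖z‖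
          simpa using this
        simp only [h3]
        exact h6.comp hθψ
      exact tendsto_nhds_unique h1 h2
    have hq : qf G = 0 := by
      have hcl : IsClosed {z : Hc | qf z = 0} := isClosed_eq qf_cont continuous_const
      have hsub : (EE : Set Hc) ⊆ {z : Hc | qf z = 0} := by
        rintro _ ⟨l, hl, hlc, rfl⟩
        show qf _ = 0
        rw [qf_tl, hE0 l hl]
      have := closure_minimal hsub hcl
      exact this hGE
    -- the self-dual part vanishes
    have hsd : ∀ j, ∀ᵐ x ∂μc, inner ℝ (G x) (st (w j x)) = 0 := by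
      intro j
      have hstw : Continuous fun x => st (w j x) := st.continuous.comp (hw j)
      have hint : Integrable (fun x => inner ℝ (G x) (st (w j x))) μc := by
        have h1 := L2.integrable_inner (𝕜 := ℝ) G (tl _ hstw)
        refine h1.congr ?_
        filter_upwards [tl_ae _ hstw] with x hx
        rw [hx]
      refine hint.ae_eq_zero_of_forall_setIntegral_eq_zero fun s hs _ => ?_
      -- test with the indicator
      have hmem : MemLp (s.indicator fun x => st (w j x)) 2 μc := (memLp_cont hstw).indicator hs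
      have h1 := hG (hmem.toLp _)
      have h2 : inner ℝ G (hmem.toLp _) = ∫ x in s, inner ℝ (G x) (st (w j x)) ∂μc := by
        rw [L2.inner_def, ← integral_indicator hs]
        refine integral_congr_ae ?_
        filter_upwards [hmem.coeFn_toLp] with x hx
        rw [hx]
        by_cases hxs : x ∈ s
        · simp [hxs]
        · simp [hxs]
      have h3 : ∀ n, |inner ℝ (g n) (hmem.toLp _)| ≤
          ∫ x in Icc (0 : R4) 1, |inner ℝ (v n x) (st (w j x))| := by
        intro n
        have hcn : Continuous fun x => inner ℝ (v n x) (st (w j x)) := (hv n).inner hstw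
        have h4 : inner ℝ (g n) (hmem.toLp _) =
            ∫ x in s, inner ℝ (v n x) (st (w j x)) ∂μc := by
          rw [L2.inner_def, ← integral_indicator hs]
          refine integral_congr_ae ?_
          filter_upwards [hmem.coeFn_toLp, tl_ae _ (hv n)] with x hx hx'
          simp only [hg]
          rw [hx, hx']
          by_cases hxs : x ∈ s
          · simp [hxs]
          · simp [hxs]
        rw [h4]
        calc |∫ x in s, inner ℝ (v n x) (st (w j x)) ∂μc|
            ≤ ∫ x in s, |inner ℝ (v n x) (st (w j x))| ∂μc := abs_integral_le_integral_abs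
          _ ≤ ∫ x, |inner ℝ (v n x) (st (w j x))| ∂μc := by
              refine setIntegral_le_integral ?_ (Eventually.of_forall fun x => abs_nonneg _)
              exact hcn.abs.integrableOn_Icc
      have h5 : Tendsto (fun n => inner ℝ (g (θ (ψ n))) (hmem.toLp _)) atTop (𝓝 0) :=
        squeeze_zero_norm (fun n => h3 (θ (ψ n))) ((hvw j).comp hθψ)
      rw [← h2]
      exact tendsto_nhds_unique h1 h5
    have hG0 : G = 0 := by
      rw [qf_eq] at hq
      have hall : ∀ᵐ x ∂μc, ∀ j, inner ℝ (G x) (st (w j x)) = 0 := ae_all_iff.2 hsd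
      have hle : ∀ᵐ x ∂μc, 0 ≤ -inner ℝ (G x) (st (G x)) := by
        filter_upwards [hall] with x hx
        by_cases h0 : G x = 0
        · rw [h0]; simp
        · have := hneg x (G x) hx h0
          linarith
      have hint : Integrable (fun x => -inner ℝ (G x) (st (G x))) μc := by
        have h1 := L2.integrable_inner (𝕜 := ℝ) G (st.compLpL 2 μc G)
        refine h1.neg.congr ?_
        filter_upwards [st.coeFn_compLpL (p := 2) (μ := μc) G] with x hx
        simp only [Pi.neg_apply]
        rw [hx]
      have hz : ∫ x, -inner ℝ (G x) (st (G x)) ∂μc = 0 := by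
        rw [integral_neg, hq, neg_zero]
      have h2 := (integral_eq_zero_iff_of_nonneg_ae hle hint).1 hz
      refine Lp.ext ?_
      filter_upwards [h2, hall, Lp.coeFn_zero V6 2 μc] with x hx1 hx2 hx3
      rw [hx3]
      by_contra hne
      have := hneg x (G x) hx2 hne
      simp only [Pi.zero_apply] at hx1
      linarith
    have hfin := hG (tl u hu)
    rw [hG0, inner_zero_left] at hfin
    refine hfin.congr fun n => ?_
    simp only [hg]
    rw [inner_tl_tl]
  -- subsequence principle
  refine tendsto_of_subseq_tendsto fun ns hns => ?_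
  obtain ⟨θ, hθ, hθm⟩ := strictMono_subseq_of_tendsto_atTop hns
  obtain ⟨ψ, hψ, hlim⟩ := key (fun n => ns (θ n)) hθm
  exact ⟨fun n => θ (ψ n), hlim⟩

end

end Vale.Agent.P247.H350.FF
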