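import Vale.Agent.P247.H350.FF5

/-!
# `FF_statement`
-/

open MeasureTheory Set Topology Filter
open scoped ContDiff ComplexConjugate

namespace Vale.Agent.P247.H350.FF

noncomputable section

open Vale.Agent.P247.H574 (dd tr w4 F2)
open Vale.Agent.P247.H74 (e)

theorem cont_val (a : Vale.Agent.P247.H74.CForm) (u v : R4) : Continuous fun x => a.val x u v := by
  unfold Vale.Agent.P247.H74.CForm.val
  have h1 : Continuous (fderiv ℝ a.lam) := a.lam_smooth.continuous_fderiv (by simp)
  exact (continuous_const.add ((h1.clm_apply continuous_const).clm_apply continuous_const)).sub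
    ((h1.clm_apply continuous_const).clm_apply continuous_const)

theorem cont_vec {g : R4 → Mt ℝ} (hg : ∀ i j, Continuous fun x => g x i j) :
    Continuous fun x => vec (g x) := by
  unfold vec
  refine (PiLp.continuous_toLp 2 _).comp (continuous_pi fun i => ?_)
  fin_cases i
  · exact hg 0 1
  · exact hg 0 2
  · exact hg 0 3
  · exact hg 1 2
  · exact hg 1 3
  · exact hg 2 3

theorem vec_sub (g h : Mt ℝ) : vec g - vec h = vec fun i j => g i j - h i j := by
  unfold vec
  ext i
  fin_cases i <;> simp

/-- no concentration of `F ∧ F / r` -/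
theorem ff (hF : Vale.Agent.P247.H647.FRM_statement) : Vale.Agent.P247.H647.FF_statement := by
  intro D Q r a C hr hlim hsm hQA hE hL χ hχ hχp
  -- the normalised curvature
  set G : ℕ → Fin 4 → Fin 4 → R4 → ℝ := fun n i j x => (Real.sqrt (r n))⁻¹ *
    dd (a n) x (e i) (e j) with hG
  have hsq : ∀ n, (Real.sqrt (r n))⁻¹ ^ 2 = (r n)⁻¹ := fun n => by
    rw [inv_pow, Real.sq_sqrt (hr n).le]
  have hGc : ∀ n i j, Continuous (G n i j) := fun n i j => (cont_dd (hsm n) i j).const_mul _
  have hGp : ∀ n i j, Pr (G n i j) := fun n i j k x => by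
    show (Real.sqrt (r n))⁻¹ * dd (a n) (tr k x) (e i) (e j) = _
    rw [dd_tr (hQA n)]
  have hGa : ∀ n i j x, G n j i x = - G n i j x := fun n i j x => by
    simp only [hG, dd_apply]
    ring
  have hhat : ∀ n k i j, hat (G n) k i j = ((Real.sqrt (r n))⁻¹ : ℝ) *
      fc (fun x => ((dd (a n) x (e i) (e j) : ℝ) : ℂ)) k := by
    intro n k i j
    unfold hat
    rw [← fc_smul']
    congr 1
    funext x
    simp only [hG]
    push_cast
    rfl
  have hGcl : ∀ n k i j l, (k i : ℂ) * hat (G n) k j l + k j * hat (G n) k l i +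
      k l * hat (G n) k i j = 0 := by
    intro n k i j l
    rw [hhat, hhat, hhat]
    have := closed_dd (hsm n) (hQA n) k i j l
    linear_combination ((Real.sqrt (r n))⁻¹ : ℝ) * this
  have hGe : ∀ n, ∑ i, ∑ j, ∫ x in Icc (0 : R4) 1, G n i j x ^ 2 ≤ C := by
    intro n
    have hi : ∀ i j, IntegrableOn (fun x => dd (a n) x (e i) (e j) ^ 2) (Icc (0 : R4) 1) :=
      fun i j => ((cont_dd (hsm n) i j).pow 2).integrableOn_Icc
    have h1 : ∑ i, ∑ j, ∫ x in Icc (0 : R4) 1, G n i j x ^ 2 =
        (r n)⁻¹ * ∫ x in Icc (0 : R4) 1, ∑ i, ∑ j, dd (a n) x (e i) (e j) ^ 2 := by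
      rw [integral_finsetSum _ fun i _ => integrable_finsetSum _ fun j _ => hi i j, Finset.mul_sum]
      refine Finset.sum_congr rfl fun i _ => ?_
      rw [integral_finsetSum _ fun j _ => hi i j, Finset.mul_sum]
      refine Finset.sum_congr rfl fun j _ => ?_
      rw [← integral_const_mul]
      refine integral_congr_ae (Eventually.of_forall fun x => ?_)
      simp only [hG, mul_pow, hsq]
    rw [h1, inv_mul_le_iff₀ (hr n)]
    have := hE n
    calc _ ≤ C * r n := this
      _ = r n * C := mul_comm _ _
  have hSeq : Seq G C := ⟨hGc, hGp, hGa, hGcl, hGe⟩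
  -- weak convergence
  set v : ℕ → R4 → V6 := fun n x => vec fun i j => G n i j x with hv
  have hvc : ∀ n, Continuous (v n) := fun n => cont_vec fun i j => hGc n i j
  have hr2 : Tendsto (fun n => (Real.sqrt (r n))⁻¹) atTop (𝓝 0) :=
    (Real.tendsto_sqrt_atTop.comp hlim).inv_tendsto_atTop
  set m0 : Mt ℝ := fun i j =>
    2 * Real.pi * ((e i : R4) 0 * (e j : R4) 1 - (e j : R4) 0 * (e i : R4) 1) with hm0
  set κ : ℕ → V6 := fun n => vec fun i j => (Real.sqrt (r n))⁻¹ * m0 i j with hκ
  have hκs : ∀ n, κ n = (Real.sqrt (r n))⁻¹ • vec m0 := by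
    intro n
    simp only [hκ, vec]
    ext i
    fin_cases i <;> simp
  have hκ0 : Tendsto κ atTop (𝓝 0) := by
    have h1 := hr2.smul_const (vec m0)
    rw [zero_smul] at h1
    exact h1.congr fun n => (hκs n).symm
  have hvκ : ∀ n, (fun x => v n x - κ n) ∈ EE := by
    intro n
    have hcomp : ∀ x i j, unv (v n x - κ n) i j = G n i j x - (Real.sqrt (r n))⁻¹ * m0 i j := by
      intro x i j
      have h1 : v n x - κ n = vec fun i j => G n i j x - (Real.sqrt (r n))⁻¹ * m0 i j := by
        simp only [hv, hκ]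
        rw [vec_sub]
      rw [h1, unv_vec]
      intro i j
      rw [hGa n i j x]
      simp only [hm0]
      ring
    have hh : ∀ k i j, hatv (fun x => v n x - κ n) k i j = hat (G n) k i j -
        fc (fun _ => (((Real.sqrt (r n))⁻¹ * m0 i j : ℝ) : ℂ)) k := by
      intro k i j
      unfold hatv hat
      have h1 : (fun x => ((unv (v n x - κ n) i j : ℝ) : ℂ)) = fun x => ((G n i j x : ℝ) : ℂ) +
          (fun _ => -(((Real.sqrt (r n))⁻¹ * m0 i j : ℝ) : ℂ)) x := by
        funext x
        rw [hcomp]
        push_cast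
        ring
      rw [h1, fc_add' (cont_ofReal (hGc n i j)) continuous_const, fc_neg', sub_eq_add_neg]
    refine ⟨(hvc n).sub continuous_const, fun k x => ?_, fun k p q s => ?_, fun i j => ?_⟩
    · show v n _ - κ n = v n x - κ n
      congr 1
      simp only [hv]
      congr 1
      funext i j
      exact hGp n i j k x
    · by_cases hk : k = 0
      · subst hk
        simp
      · rw [hh, hh, hh, fc_const hk, fc_const hk, fc_const hk]
        linear_combination hGcl n k p q s
    · rw [hh, hhat, fc_zero, fc_zero]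
      have h1 := mean_dd (hsm n) (hQA n) i j
      have h2 : (∫ x in Icc (0 : R4) 1, ((dd (a n) x (e i) (e j) : ℝ) : ℂ)) =
          ((m0 i j : ℝ) : ℂ) := by
        rw [integral_complex_ofReal]
        congr 1
      rw [h2, integral_const]
      simp [measureReal_def]
  set w : Fin 3 → R4 → V6 := fun j x => vec fun p q =>
    (Vale.Agent.P247.H647.tri D j).val x (e p) (e q) with hw
  have hwc : ∀ j, Continuous (w j) := fun j => cont_vec fun p q => cont_val _ _ _
  have hvw : ∀ j, Tendsto (fun n => ∫ x in Icc (0 : R4) 1, |inner ℝ (v n x) (st (w j x))|)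
      atTop (𝓝 0) := by
    intro j
    have h1 : ∀ n, ∫ x in Icc (0 : R4) 1, |inner ℝ (v n x) (st (w j x))| ≤
        (Real.sqrt (r n))⁻¹ * C := by
      intro n
      have h2 : ∫ x in Icc (0 : R4) 1, |inner ℝ (v n x) (st (w j x))| =
          (Real.sqrt (r n))⁻¹ * ∫ x in Icc (0 : R4) 1, |w4 (fun p q => dd (a n) x p q)
            (fun p q => (Vale.Agent.P247.H647.tri D j).val x p q)| := by
        rw [← integral_const_mul]
        refine integral_congr_ae (Eventually.of_forall fun x => ?_)
        show |inner ℝ (v n x) (st (w j x))| = _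
        simp only [hv, hw]
        rw [inner_vec]
        have h3 : (0 : ℝ) ≤ (Real.sqrt (r n))⁻¹ := by positivity
        rw [← abs_of_nonneg h3, ← abs_mul]
        congr 1
        simp only [W, w4, hG]
        ring
      rw [h2]
      exact mul_le_mul_of_nonneg_left (hL n j) (by positivity)
    refine squeeze_zero (fun n => integral_nonneg fun x => abs_nonneg _) h1 ?_
    have := hr2.mul_const C
    simpa using this
  have hvE : ∀ n, ∫ x in Icc (0 : R4) 1, ‖v n x‖ ^ 2 ≤ C := by
    intro n
    refine le_trans ?_ (hGe n)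
    have hi : ∀ i j, IntegrableOn (fun x => G n i j x ^ 2) (Icc (0 : R4) 1) :=
      fun i j => ((hGc n i j).pow 2).integrableOn_Icc
    rw [← show ∫ x in Icc (0 : R4) 1, ∑ i, ∑ j, G n i j x ^ 2 =
        ∑ i, ∑ j, ∫ x in Icc (0 : R4) 1, G n i j x ^ 2 by
      rw [integral_finsetSum _ fun i _ => integrable_finsetSum _ fun j _ => hi i j]
      refine Finset.sum_congr rfl fun i _ => ?_
      rw [integral_finsetSum _ fun j _ => hi i j]]
    refine integral_mono ((hvc n).norm.pow 2).integrableOn_Icc
      (integrable_finsetSum _ fun i _ => integrable_finsetSum _ fun j _ => hi i j) fun x => ?_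
    show ‖v n x‖ ^ 2 ≤ ∑ i, ∑ j, G n i j x ^ 2
    simp only [hv, vec]
    rw [EuclideanSpace.norm_sq_eq]
    simp only [Fin.sum_univ_six, Fin.sum_univ_four, Real.norm_eq_abs, sq_abs]
    simp
    nlinarith [sq_nonneg (G n 0 0 x), sq_nonneg (G n 1 0 x), sq_nonneg (G n 1 1 x),
      sq_nonneg (G n 2 0 x), sq_nonneg (G n 2 1 x), sq_nonneg (G n 2 2 x), sq_nonneg (G n 3 0 x),
      sq_nonneg (G n 3 1 x), sq_nonneg (G n 3 2 x), sq_nonneg (G n 3 3 x)]
  have hweak := fun u hu => weak_zero v hvc C hvE EE (fun l hl => EE_int hl) κ hκ0 hvκ w hwc hvw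
    (fun x b hb hne => neg_of_orth hF Q x b hb hne) u hu
  have hcoef : ∀ i j k, Tendsto (fun n => hat (G n) k i j) atTop (𝓝 0) := by
    intro i j k
    have hre : Continuous fun x => (ch (-k) x).re • Eij i j :=
      (Complex.continuous_re.comp (ch_cont _)).smul continuous_const
    have him : Continuous fun x => (ch (-k) x).im • Eij i j :=
      (Complex.continuous_im.comp (ch_cont _)).smul continuous_const
    have h1 := hweak _ hre
    have h2 := hweak _ him
    have h3 := ((Complex.continuous_ofReal.tendsto 0).comp h1).add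
      (((Complex.continuous_ofReal.tendsto 0).comp h2).mul_const Complex.I)
    simp only [Complex.ofReal_zero, zero_mul, add_zero] at h3
    refine h3.congr fun n => ?_
    show ((∫ x in Icc (0 : R4) 1, inner ℝ (v n x) ((ch (-k) x).re • Eij i j) : ℝ) : ℂ) +
      ((∫ x in Icc (0 : R4) 1, inner ℝ (v n x) ((ch (-k) x).im • Eij i j) : ℝ) : ℂ) * Complex.I =
      hat (G n) k i j
    rw [← integral_complex_ofReal, ← integral_complex_ofReal, ← integral_mul_const,
      ← integral_add]
    · unfold hat fc
      refine integral_congr_ae (Eventually.of_forall fun x => ?_)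
      have hcomp : inner ℝ (v n x) (Eij i j) = G n i j x := by
        have : unv (v n x) = fun i j => G n i j x := unv_vec (fun i j => hGa n i j x)
        exact congrFun (congrFun this i) j
      show ((inner ℝ (v n x) ((ch (-k) x).re • Eij i j) : ℝ) : ℂ) +
        ((inner ℝ (v n x) ((ch (-k) x).im • Eij i j) : ℝ) : ℂ) * Complex.I =
        ch (-k) x * ((G n i j x : ℝ) : ℂ)
      rw [real_inner_smul_right, real_inner_smul_right, hcomp]
      push_cast
      conv_rhs => rw [← Complex.re_add_im (ch (-k) x)]
      ring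
    · exact (cont_ofReal ((hvc n).inner hre)).integrableOn_Icc
    · exact ((cont_ofReal ((hvc n).inner him)).mul continuous_const).integrableOn_Icc
  have hfin := hSeq.divcurl hcoef hχ (fun k x => hχp k x)
  refine hfin.congr fun n => ?_
  show _ = 1 / r n * ∫ x in Icc (0 : R4) 1, χ x * w4 (fun p q => dd (a n) x p q)
    (fun p q => dd (a n) x p q)
  rw [← integral_const_mul]
  refine integral_congr_ae (Eventually.of_forall fun x => ?_)
  show χ x * W (fun i j => G n i j x) (fun i j => G n i j x) = 1 / r n * (χ x * _)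
  have h1 : W (fun i j => G n i j x) (fun i j => G n i j x) = (Real.sqrt (r n))⁻¹ ^ 2 *
      w4 (fun p q => dd (a n) x p q) (fun p q => dd (a n) x p q) := by
    simp only [W, w4, hG]
    ring
  rw [h1, hsq]
  ring

end

end Vale.Agent.P247.H350.FF
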