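import Vale.Agent.P247.H350.Mean

/-!
# P247: calculus of the closed forms
-/

open scoped ContDiff Topology
open Set MeasureTheory Filter Metric Asymptotics

noncomputable section

namespace Vale.Agent.P247.H350

open Vale.Agent.P247.H74

/-- the derivative of the form `a` in the direction `w` -/
def dval (a : CForm) (x w u v : R4) : ℝ :=
  (fderiv ℝ (fderiv ℝ a.lam) x w u) v - (fderiv ℝ (fderiv ℝ a.lam) x w v) u

theorem κ_swap (a : CForm) (u v : R4) : a.κ v u = - a.κ u v := by
  have h := a.κ_self (u + v)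
  simp only [map_add, add_apply, a.κ_self] at h
  linarith

theorem val_swap (a : CForm) (x u v : R4) : a.val x v u = - a.val x u v := by
  unfold CForm.val
  rw [κ_swap]
  ring

theorem val_self (a : CForm) (x u : R4) : a.val x u u = 0 := by
  unfold CForm.val
  rw [a.κ_self]
  ring

theorem val_add_left (a : CForm) (x u u' v : R4) : a.val x (u + u') v = a.val x u v + a.val x u' v := by
  unfold CForm.val
  simp only [map_add, add_apply]
  ring

theorem val_add_right (a : CForm) (x u v v' : R4) : a.val x u (v + v') = a.val x u v + a.val x u v' := by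
  unfold CForm.val
  simp only [map_add, add_apply]
  ring

theorem val_smul_left (a : CForm) (x : R4) (t : ℝ) (u v : R4) : a.val x (t • u) v = t * a.val x u v := by
  unfold CForm.val
  simp only [map_smul, smul_apply, smul_eq_mul]
  ring

theorem val_smul_right (a : CForm) (x : R4) (t : ℝ) (u v : R4) : a.val x u (t • v) = t * a.val x u v := by
  unfold CForm.val
  simp only [map_smul, smul_apply, smul_eq_mul]
  ring

theorem val_sub_right (a : CForm) (x u v v' : R4) : a.val x u (v - v') = a.val x u v - a.val x u v' := by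
  unfold CForm.val
  simp only [map_sub, sub_apply]
  ring

theorem val_sub_left (a : CForm) (x u u' v : R4) : a.val x (u - u') v = a.val x u v - a.val x u' v := by
  unfold CForm.val
  simp only [map_sub, sub_apply]
  ring

@[simp] theorem val_zero_left (a : CForm) (x v : R4) : a.val x 0 v = 0 := by
  unfold CForm.val
  simp

@[simp] theorem val_zero_right (a : CForm) (x v : R4) : a.val x v 0 = 0 := by
  unfold CForm.val
  simp

theorem lam_diff (a : CForm) : Differentiable ℝ a.lam := a.lam_smooth.differentiable (by simp)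

theorem dlam_smooth (a : CForm) : ContDiff ℝ ∞ (fderiv ℝ a.lam) :=
  a.lam_smooth.fderiv_right (by simp)

theorem dlam_diff (a : CForm) : Differentiable ℝ (fderiv ℝ a.lam) :=
  (dlam_smooth a).differentiable (by simp)

/-- closedness -/
theorem dval_closed (a : CForm) (x u v w : R4) :
    dval a x u v w + dval a x v w u + dval a x w u v = 0 := by
  have hs : IsSymmSndFDerivAt ℝ a.lam x :=
    (a.lam_smooth.contDiffAt).isSymmSndFDerivAt (by
      simp only [minSmoothness_of_isRCLikeNormedField]
      exact WithTop.coe_le_coe.2 (le_top : (2 : ℕ∞) ≤ ⊤))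
  unfold dval
  rw [hs u v, hs u w, hs v w]
  ring

section

variable {F : Type*} [NormedAddCommGroup F] [NormedSpace ℝ F]

theorem hasFDerivAt_val (a : CForm) {x u v : F → R4} {x' u' v' : F →L[ℝ] R4} {p : F}
    (hx : HasFDerivAt x x' p) (hu : HasFDerivAt u u' p) (hv : HasFDerivAt v v' p) :
    ∃ L : F →L[ℝ] ℝ, HasFDerivAt (fun q => a.val (x q) (u q) (v q)) L p ∧
      ∀ w, L w = dval a (x p) (x' w) (u p) (v p) + a.val (x p) (u' w) (v p)
        + a.val (x p) (u p) (v' w) := by
  have h1 : HasFDerivAt (fun q => fderiv ℝ a.lam (x q))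
      ((fderiv ℝ (fderiv ℝ a.lam) (x p)).comp x') p :=
    HasFDerivAt.comp (g := fderiv ℝ a.lam) p (dlam_diff a (x p)).hasFDerivAt hx
  have h2 := (h1.clm_apply hu).clm_apply hv
  have h3 := (h1.clm_apply hv).clm_apply hu
  have h4 : HasFDerivAt (fun q => a.κ (u q)) (a.κ.comp u') p := a.κ.hasFDerivAt.comp p hu
  have h5 := h4.clm_apply hv
  refine ⟨_, (h5.add h2).sub h3, fun w => ?_⟩
  simp only [dval, CForm.val, add_apply, sub_apply,
    ContinuousLinearMap.comp_apply, ContinuousLinearMap.flip_apply]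
  ring

theorem fderiv_val (a : CForm) {x u v : F → R4} {p : F} (hx : DifferentiableAt ℝ x p)
    (hu : DifferentiableAt ℝ u p) (hv : DifferentiableAt ℝ v p) (w : F) :
    fderiv ℝ (fun q => a.val (x q) (u q) (v q)) p w =
      dval a (x p) (fderiv ℝ x p w) (u p) (v p) + a.val (x p) (fderiv ℝ u p w) (v p)
        + a.val (x p) (u p) (fderiv ℝ v p w) := by
  obtain ⟨L, hL, h⟩ := hasFDerivAt_val a hx.hasFDerivAt hu.hasFDerivAt hv.hasFDerivAt
  rw [hL.fderiv, h]

theorem contDiff_val (a : CForm) {n : WithTop ℕ∞} (hn : n ≤ ∞) {x u v : F → R4}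
    (hx : ContDiff ℝ n x) (hu : ContDiff ℝ n u) (hv : ContDiff ℝ n v) :
    ContDiff ℝ n fun q => a.val (x q) (u q) (v q) := by
  have h1 : ContDiff ℝ n fun q => fderiv ℝ a.lam (x q) := ((dlam_smooth a).of_le hn).comp hx
  have h4 : ContDiff ℝ n fun q => a.κ (u q) := a.κ.contDiff.comp hu
  exact ((h4.clm_apply hv).add ((h1.clm_apply hu).clm_apply hv)).sub
    ((h1.clm_apply hv).clm_apply hu)

end

/-- derivative of the identity `η j (u, J u) = 0` -/
theorem val_J_self (D : Data) (j : Fin 2) (x u : R4) : (D.η j).val x u (D.J x u) = 0 := by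
  rw [D.η_J]
  simp [val_self]

theorem J_diff (D : Data) : Differentiable ℝ D.J := D.J_smooth.differentiable (by simp)

theorem dval_J (D : Data) (j : Fin 2) (x w u : R4) :
    dval (D.η j) x w u (D.J x u) + (D.η j).val x u (fderiv ℝ D.J x w u) = 0 := by
  have h1 : (fun y : R4 => (D.η j).val y u (D.J y u)) = fun _ => 0 := by
    funext y
    exact val_J_self D j y u
  have hJ : DifferentiableAt ℝ (fun y : R4 => D.J y u) x :=
    (J_diff D x).clm_apply (differentiableAt_const u)
  have h2 := fderiv_val (D.η j) (x := fun y : R4 => y) (u := fun _ => u) (v := fun y => D.J y u)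
    (p := x) differentiableAt_fun_id (differentiableAt_const u) hJ w
  have h3 : fderiv ℝ (fun y : R4 => D.J y u) x w = fderiv ℝ D.J x w u := by
    rw [fderiv_clm_apply (J_diff D x) (differentiableAt_const u)]
    simp
  rw [h1, h3] at h2
  simp at h2
  linarith

theorem val_J_polar (D : Data) (j : Fin 2) (x u v : R4) :
    (D.η j).val x u (D.J x v) + (D.η j).val x v (D.J x u) = 0 := by
  have h := val_J_self D j x (u + v)
  rw [map_add, val_add_left, val_add_right, val_add_right, val_J_self, val_J_self] at h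
  linarith

/-! ## the map `phi` -/

theorem contDiff_lin {n : WithTop ℕ∞} : ContDiff ℝ n lin := by
  rw [contDiff_pi]
  intro i
  fin_cases i <;> simp [lin] <;> fun_prop

theorem lin_add (p q : P2) : lin (p + q) = lin p + lin q := by
  funext i
  fin_cases i <;> simp [lin]

theorem lin_smul (c : ℝ) (p : P2) : lin (c • p) = c • lin p := by
  funext i
  fin_cases i <;> simp [lin]

/-- `lin` as a continuous linear map -/
def linL : P2 →L[ℝ] R4 := LinearMap.toContinuousLinearMap
  { toFun := lin, map_add' := lin_add, map_smul' := lin_smul }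

theorem hasFDerivAt_lin (p : P2) : HasFDerivAt lin linL p := linL.hasFDerivAt

theorem linL_s : linL (1, 0) = e 2 := by
  funext i
  show lin (1, 0) i = _
  fin_cases i <;> simp [lin, e]

theorem linL_t : linL (0, 1) = e 3 := by
  funext i
  show lin (0, 1) i = _
  fin_cases i <;> simp [lin, e]

theorem contDiff_phi {n : WithTop ℕ∞} {f : P2 → R4} (hf : ContDiff ℝ n f) : ContDiff ℝ n (phi f) :=
  contDiff_lin.add hf

theorem ds_phi {f : P2 → R4} (hf : Differentiable ℝ f) (p : P2) :
    ds (phi f) p = e 2 + ds f p := by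
  have h := (hasFDerivAt_lin p).add (hf p).hasFDerivAt
  show fderiv ℝ (fun p => lin p + f p) p (1, 0) = _
  have h' : fderiv ℝ (fun p => lin p + f p) p = linL + fderiv ℝ f p := h.fderiv
  rw [h', add_apply, linL_s]
  rfl

theorem dt_phi {f : P2 → R4} (hf : Differentiable ℝ f) (p : P2) :
    dt (phi f) p = e 3 + dt f p := by
  have h := (hasFDerivAt_lin p).add (hf p).hasFDerivAt
  show fderiv ℝ (fun p => lin p + f p) p (0, 1) = _
  have h' : fderiv ℝ (fun p => lin p + f p) p = linL + fderiv ℝ f p := h.fderiv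
  rw [h', add_apply, linL_t]
  rfl

/-- the shift of `phi` -/
theorem phi_per {f : P2 → R4} (hf : Per f) (m n : ℤ) (p : P2) :
    phi f (p.1 + m, p.2 + n) = fun i => phi f p i + (![0, 0, m, n] : Fin 4 → ℤ) i := by
  funext i
  simp only [phi, Pi.add_apply]
  rw [hf m n p]
  fin_cases i <;> simp [lin] <;> ring

section

variable {E : Type*} [NormedAddCommGroup E] [NormedSpace ℝ E]

theorem contDiff_ds {n m : WithTop ℕ∞} {g : P2 → E} (hg : ContDiff ℝ n g) (h : m + 1 ≤ n) :
    ContDiff ℝ m (ds g) :=
  (hg.fderiv_right h).clm_apply contDiff_const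

theorem contDiff_dt {n m : WithTop ℕ∞} {g : P2 → E} (hg : ContDiff ℝ n g) (h : m + 1 ≤ n) :
    ContDiff ℝ m (dt g) :=
  (hg.fderiv_right h).clm_apply contDiff_const

theorem per_fderiv {g : P2 → E} (hp : Per g) (m n : ℤ) (p : P2) :
    fderiv ℝ g (p.1 + m, p.2 + n) = fderiv ℝ g p := by
  have h : (fun q : P2 => g (q + ((m : ℝ), (n : ℝ)))) = g := by
    funext q
    exact hp m n q
  have h2 := fderiv_comp_add_right (𝕜 := ℝ) (f := g) (x := p) (((m : ℝ), (n : ℝ)) : P2)
  rw [h] at h2
  exact h2.symm

theorem per_ds {g : P2 → E} (hp : Per g) : Per (ds g) := by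
  intro m n p
  simp only [ds, per_fderiv hp]

theorem per_dt {g : P2 → E} (hp : Per g) : Per (dt g) := by
  intro m n p
  simp only [dt, per_fderiv hp]

/-- mixed derivatives commute -/
theorem ds_dt_comm {g : P2 → E} (hg : ContDiff ℝ 2 g) (p : P2) : ds (dt g) p = dt (ds g) p := by
  have hs : IsSymmSndFDerivAt ℝ g p := hg.contDiffAt.isSymmSndFDerivAt (by simp)
  have hd : DifferentiableAt ℝ (fderiv ℝ g) p :=
    (hg.fderiv_right (m := 1) (by norm_num)).differentiable one_ne_zero p
  have h1 : ds (dt g) p = fderiv ℝ (fderiv ℝ g) p (1, 0) (0, 1) := by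
    show fderiv ℝ (fun q => fderiv ℝ g q (0, 1)) p (1, 0) = _
    rw [fderiv_clm_apply hd (differentiableAt_const _)]
    simp
  have h2 : dt (ds g) p = fderiv ℝ (fderiv ℝ g) p (0, 1) (1, 0) := by
    show fderiv ℝ (fun q => fderiv ℝ g q (1, 0)) p (0, 1) = _
    rw [fderiv_clm_apply hd (differentiableAt_const _)]
    simp
  rw [h1, h2]
  exact hs _ _

end

theorem per_comp_phi {E : Type*} {f : P2 → R4} (hf : Per f) {G : R4 → E}
    (hG : ∀ (n : Fin 4 → ℤ) (x : R4), G (fun i => x i + n i) = G x) (m n : ℤ) (p : P2) :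
    G (phi f (p.1 + m, p.2 + n)) = G (phi f p) := by
  rw [phi_per hf]
  exact hG _ _

theorem per_dlam (a : CForm) (n : Fin 4 → ℤ) (x : R4) :
    fderiv ℝ a.lam (fun i => x i + n i) = fderiv ℝ a.lam x := by
  have h : (fun q : R4 => a.lam (q + fun i => (n i : ℝ))) = a.lam := by
    funext q
    exact a.lam_per n q
  have h2 := fderiv_comp_add_right (𝕜 := ℝ) (f := a.lam) (x := x) (fun i => (n i : ℝ))
  rw [h] at h2
  exact h2.symm

theorem val_per (a : CForm) (n : Fin 4 → ℤ) (x u v : R4) :
    a.val (fun i => x i + n i) u v = a.val x u v := by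
  unfold CForm.val
  rw [per_dlam]

end Vale.Agent.P247.H350
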