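import Vale.Agent.P247.H350.Form

/-!
# P247: closed one-forms on the torus with zero means have a zero; nonnegative functions
-/

open scoped ContDiff Topology Interval
open Set MeasureTheory Filter Metric Asymptotics

noncomputable section

namespace Vale.Agent.P247.H350

open Vale.Agent.P247.H74

/-- Green's formula on a rectangle for a closed one-form -/
theorem green {A B : P2 → ℝ} (hA : ContDiff ℝ 1 A) (hB : ContDiff ℝ 1 B)
    (hcl : ∀ p, ds B p = dt A p) (a₁ b₁ a₂ b₂ : ℝ) :
    (∫ x in a₁..b₁, A (x, b₂)) - ∫ x in a₁..b₁, A (x, a₂) =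
      (∫ y in a₂..b₂, B (b₁, y)) - ∫ y in a₂..b₂, B (a₁, y) := by
  have h := integral2_divergence_prod_of_hasFDerivAt B (fun p => - A p)
    (fun p => fderiv ℝ B p) (fun p => - fderiv ℝ A p) a₁ a₂ b₁ b₂ hB.continuous.continuousOn
    hA.continuous.neg.continuousOn
    (fun x _ => (hB.differentiable one_ne_zero x).hasFDerivAt)
    (fun x _ => (hA.differentiable one_ne_zero x).hasFDerivAt.neg) (by
      refine ContinuousOn.integrableOn_compact (isCompact_uIcc.prod isCompact_uIcc) ?_
      refine Continuous.continuousOn ?_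
      exact ((hB.continuous_fderiv one_ne_zero).clm_apply continuous_const).add
        ((hA.continuous_fderiv one_ne_zero).neg.clm_apply continuous_const))
  have h0 : ∀ p : P2, fderiv ℝ B p (1, 0) + (-fderiv ℝ A p) (0, 1) = 0 := by
    intro p
    have := hcl p
    unfold ds dt at this
    rw [this]
    simp
  simp only [h0, intervalIntegral.integral_zero, intervalIntegral.integral_neg] at h
  linarith

/-- a closed one-form with zero periods on the torus vanishes somewhere -/
theorem exists_common_zero {A B : P2 → ℝ} (hA : ContDiff ℝ 1 A) (hB : ContDiff ℝ 1 B)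
    (pA : Per A) (pB : Per B) (hcl : ∀ p, ds B p = dt A p) (mA : mean A = 0) (mB : mean B = 0) :
    ∃ p, A p = 0 ∧ B p = 0 := by
  have hAc := hA.continuous
  have hBc := hB.continuous
  -- the periods
  have P0 : ∀ t, ∫ x in (0 : ℝ)..1, A (x, t) = 0 := by
    have h1 : ∀ t, ∫ x in (0 : ℝ)..1, A (x, t) = ∫ x in (0 : ℝ)..1, A (x, 0) := by
      intro t
      have h := green hA hB hcl 0 1 0 t
      have h2 : ∀ y : ℝ, B (1, y) = B (0, y) := by
        intro y
        have := Per.one_left pB 0 y
        rwa [zero_add] at this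
      simp only [h2] at h
      linarith
    intro t
    have h3 := mean_eq' hAc
    simp only [h1] at h3
    rw [mA] at h3
    simp at h3
    rw [h1 t, ← h3]
  have Q0 : ∀ s, ∫ y in (0 : ℝ)..1, B (s, y) = 0 := by
    have h1 : ∀ s, ∫ y in (0 : ℝ)..1, B (s, y) = ∫ y in (0 : ℝ)..1, B (0, y) := by
      intro s
      have h := green hA hB hcl 0 s 0 1
      have h2 : ∀ x : ℝ, A (x, 1) = A (x, 0) := by
        intro x
        have := Per.one_right pA x 0
        rwa [zero_add] at this
      simp only [h2] at h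
      linarith
    intro s
    have h3 := mean_eq hBc
    simp only [h1] at h3
    rw [mB] at h3
    simp at h3
    rw [h1 s, ← h3]
  -- the potential
  set H : P2 → ℝ := fun p => (∫ x in (0 : ℝ)..p.1, A (x, 0)) + ∫ y in (0 : ℝ)..p.2, B (p.1, y)
    with hH
  have H' : ∀ p : P2, H p = (∫ y in (0 : ℝ)..p.2, B (0, y)) + ∫ x in (0 : ℝ)..p.1, A (x, p.2) := by
    intro p
    have h := green hA hB hcl 0 p.1 0 p.2
    simp only [hH]
    linarith
  have cA : ∀ t, Continuous fun x => A (x, t) := fun t => hAc.comp (by fun_prop)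
  have cB : ∀ s, Continuous fun y => B (s, y) := fun s => hBc.comp (by fun_prop)
  have Hs : ∀ s t : ℝ, HasDerivAt (fun x => H (x, t)) (A (s, t)) s := by
    intro s t
    have h1 : (fun x => H (x, t)) = fun x => (∫ y in (0 : ℝ)..t, B (0, y)) +
        ∫ z in (0 : ℝ)..x, A (z, t) := by
      funext x
      exact H' (x, t)
    rw [h1]
    have h2 := intervalIntegral.integral_hasDerivAt_right ((cA t).intervalIntegrable 0 s)
      ((cA t).stronglyMeasurableAtFilter _ _) (cA t).continuousAt
    exact h2.const_add _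
  have Ht : ∀ s t : ℝ, HasDerivAt (fun x => H (s, x)) (B (s, t)) t := by
    intro s t
    have h2 := intervalIntegral.integral_hasDerivAt_right ((cB s).intervalIntegrable 0 t)
      ((cB s).stronglyMeasurableAtFilter _ _) (cB s).continuousAt
    exact h2.const_add (∫ x in (0 : ℝ)..s, A (x, 0))
  have Hc : Continuous H := by
    refine Continuous.add ?_ ?_
    · exact (intervalIntegral.continuous_primitive (fun a b => (cA 0).intervalIntegrable a b)
        0).comp continuous_fst
    · refine intervalIntegral.continuous_parametric_intervalIntegral_of_continuous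
        (f := fun p : P2 => fun y => B (p.1, y)) ?_ continuous_snd
      exact hBc.comp (by fun_prop)
  have Hp1 : ∀ s t : ℝ, H (s + 1, t) = H (s, t) := by
    intro s t
    rw [H', H']
    simp only
    have h1 : (∫ x in (0 : ℝ)..s + 1, A (x, t)) = (∫ x in (0 : ℝ)..s, A (x, t)) +
        ∫ x in s..s + 1, A (x, t) :=
      (intervalIntegral.integral_add_adjacent_intervals ((cA t).intervalIntegrable _ _)
        ((cA t).intervalIntegrable _ _)).symm
    have h2 : ∫ x in s..s + 1, A (x, t) = ∫ x in (0 : ℝ)..0 + 1, A (x, t) := by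
      refine Function.Periodic.intervalIntegral_add_eq (f := fun x => A (x, t)) ?_ s 0
      intro x
      exact Per.one_left pA x t
    rw [h1, h2, zero_add, P0, add_zero]
  have Hp2 : ∀ s t : ℝ, H (s, t + 1) = H (s, t) := by
    intro s t
    simp only [hH]
    have h1 : (∫ x in (0 : ℝ)..t + 1, B (s, x)) = (∫ x in (0 : ℝ)..t, B (s, x)) +
        ∫ x in t..t + 1, B (s, x) :=
      (intervalIntegral.integral_add_adjacent_intervals ((cB s).intervalIntegrable _ _)
        ((cB s).intervalIntegrable _ _)).symm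
    have h2 : ∫ x in t..t + 1, B (s, x) = ∫ x in (0 : ℝ)..0 + 1, B (s, x) := by
      refine Function.Periodic.intervalIntegral_add_eq (f := fun x => B (s, x)) ?_ t 0
      intro x
      exact Per.one_right pB s x
    rw [h1, h2, zero_add, Q0, add_zero]
  have HpZ1 : ∀ (m : ℤ) (s t : ℝ), H (s + m, t) = H (s, t) := by
    intro m s t
    have h1 : Function.Periodic (fun x => H (x, t)) 1 := fun x => Hp1 x t
    have h2 := h1.int_mul m s
    simpa using h2
  have HpZ2 : ∀ (m : ℤ) (s t : ℝ), H (s, t + m) = H (s, t) := by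
    intro m s t
    have h1 : Function.Periodic (fun x => H (s, x)) 1 := fun x => Hp2 s x
    have h2 := h1.int_mul m t
    simpa using h2
  obtain ⟨p, hp, hmax⟩ := (isCompact_Icc (a := (0 : P2)) (b := 1)).exists_isMaxOn
    ⟨0, by simp⟩ Hc.continuousOn
  have hmax' : ∀ q, H q ≤ H p := by
    intro q
    have h1 : H q = H (Int.fract q.1, Int.fract q.2) := by
      have h2 := HpZ1 ⌊q.1⌋ (Int.fract q.1) (Int.fract q.2 + ⌊q.2⌋)
      have h3 := HpZ2 ⌊q.2⌋ (Int.fract q.1) (Int.fract q.2)
      rw [h3] at h2
      rw [← h2, Int.fract_add_floor, Int.fract_add_floor]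
    rw [h1]
    refine hmax ?_
    simp only [mem_Icc, Prod.le_def]
    exact ⟨⟨Int.fract_nonneg _, Int.fract_nonneg _⟩, (Int.fract_lt_one _).le,
      (Int.fract_lt_one _).le⟩
  refine ⟨p, ?_, ?_⟩
  · have h1 : IsLocalMax (fun x => H (x, p.2)) p.1 :=
      Filter.Eventually.of_forall fun x => hmax' (x, p.2)
    exact h1.hasDerivAt_eq_zero (Hs p.1 p.2)
  · have h1 : IsLocalMax (fun x => H (p.1, x)) p.2 :=
      Filter.Eventually.of_forall fun x => hmax' (p.1, x)
    exact h1.hasDerivAt_eq_zero (Ht p.1 p.2)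

theorem per_fract {E : Type*} [NormedAddCommGroup E] {g : P2 → E} (hp : Per g) (q : P2) :
    g q = g (Int.fract q.1, Int.fract q.2) := by
  have h := hp ⌊q.1⌋ ⌊q.2⌋ (Int.fract q.1, Int.fract q.2)
  simp only [Int.fract_add_floor] at h
  exact h

theorem fract_mem (q : P2) : ((Int.fract q.1, Int.fract q.2) : P2) ∈ Icc (0 : P2) 1 := by
  simp only [mem_Icc, Prod.le_def]
  exact ⟨⟨Int.fract_nonneg _, Int.fract_nonneg _⟩, (Int.fract_lt_one _).le,
      (Int.fract_lt_one _).le⟩

/-- a nonnegative continuous periodic function with zero mean vanishes -/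
theorem eq_zero_of_mean {g : P2 → ℝ} (hg : Continuous g) (hp : Per g) (h0 : ∀ p, 0 ≤ g p)
    (hm : mean g = 0) (p : P2) : g p = 0 := by
  have h1 : g =ᵐ[volume.restrict (Icc (0 : P2) 1)] 0 :=
    (integral_eq_zero_iff_of_nonneg h0 (integrableOn_Icc hg)).1 hm
  have h2 : EqOn g 0 (Icc (0 : P2) 1) := by
    refine Measure.eqOn_of_ae_eq h1 hg.continuousOn continuousOn_const ?_
    rw [Icc_eq, interior_prod_eq, closure_prod_eq, interior_Icc, closure_Ioo zero_ne_one]
  rw [per_fract hp]
  exact h2 (fract_mem p)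

end Vale.Agent.P247.H350
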