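import Vale.Agent.P247.H350.Lin
import Vale.Agent.P247.H350.Pot

/-!
# P247, package K3-LIN: the kernel of the linearised problem (LIN4)
-/

open scoped ContDiff Topology
open Set MeasureTheory Filter Metric Asymptotics

noncomputable section

namespace Vale.Agent.P247.H350

open Vale.Agent.P247.H74 Vale.Agent.P247.H332

/-! ## linear algebra -/

/-- `J X` is not a multiple of `X` -/
theorem J_indep (D : Data) (x X : R4) (hX : X ≠ 0) (a b : ℝ) (h : a • X + b • D.J x X = 0) :
    a = 0 ∧ b = 0 := by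
  have hb : b = 0 := by
    by_contra hb
    have h1 : D.J x X = (-(a / b)) • X := by
      have : b • D.J x X = (-a) • X := by
        rw [neg_smul]
        exact eq_neg_of_add_eq_zero_right h
      have h2 : D.J x X = b⁻¹ • (b • D.J x X) := by
        rw [smul_smul, inv_mul_cancel₀ hb, one_smul]
      rw [h2, this, smul_smul]
      congr 1
      field_simp
    have h2 : D.J x (D.J x X) = (-(a / b)) • (-(a / b)) • X := by
      conv_lhs => rw [h1]
      rw [map_smul, h1]
    rw [D.J_sq, smul_smul] at h2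
    have h3 : ((a / b) ^ 2 + 1) • X = 0 := by
      rw [add_smul, one_smul]
      have : (a / b) ^ 2 = (-(a / b)) * (-(a / b)) := by ring
      rw [this, ← h2]
      simp
    rcases smul_eq_zero.1 h3 with h4 | h4
    · nlinarith [sq_nonneg (a / b)]
    · exact hX h4
  subst hb
  rw [zero_smul, add_zero] at h
  rcases smul_eq_zero.1 h with h4 | h4
  · exact ⟨h4, rfl⟩
  · exact absurd h4 hX

/-- the Gram determinant -/
def gram (X Y : R4) : ℝ := (X ⬝ᵥ X) * (Y ⬝ᵥ Y) - (X ⬝ᵥ Y) ^ 2

theorem gram_ne {X Y : R4} (hX : X ≠ 0) (h : ∀ a b : ℝ, a • X + b • Y = 0 → b = 0) :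
    gram X Y ≠ 0 := by
  intro hg
  have h1 : ((X ⬝ᵥ X) • Y - (X ⬝ᵥ Y) • X) ⬝ᵥ ((X ⬝ᵥ X) • Y - (X ⬝ᵥ Y) • X) =
      (X ⬝ᵥ X) * gram X Y := by
    unfold gram
    simp only [sub_dotProduct, dotProduct_sub, smul_dotProduct, dotProduct_smul, smul_eq_mul,
      dotProduct_comm Y X]
    ring
  rw [hg, mul_zero, dotProduct_self_eq_zero] at h1
  have h2 : (-(X ⬝ᵥ Y)) • X + (X ⬝ᵥ X) • Y = 0 := by
    rw [neg_smul, ← h1]
    abel
  have h3 := h _ _ h2
  rw [dotProduct_self_eq_zero] at h3
  exact hX h3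

theorem gram_coeff {X Y v : R4} {a b : ℝ} (h : v = a • X + b • Y) :
    (v ⬝ᵥ X) * (Y ⬝ᵥ Y) - (v ⬝ᵥ Y) * (X ⬝ᵥ Y) = a * gram X Y ∧
    (v ⬝ᵥ Y) * (X ⬝ᵥ X) - (v ⬝ᵥ X) * (X ⬝ᵥ Y) = b * gram X Y := by
  subst h
  unfold gram
  simp only [add_dotProduct, smul_dotProduct, smul_eq_mul, dotProduct_comm Y X]
  constructor <;> ring

theorem contDiff_dot {F : Type*} [NormedAddCommGroup F] [NormedSpace ℝ F] {n : WithTop ℕ∞}
    {x u : F → R4} (hx : ContDiff ℝ n x) (hu : ContDiff ℝ n u) :
    ContDiff ℝ n fun q => x q ⬝ᵥ u q := by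
  unfold dotProduct
  refine ContDiff.sum fun i _ => ?_
  exact (contDiff_pi.1 hx i).mul (contDiff_pi.1 hu i)

/-! ## the constant solutions -/

/-- the doubly periodic holomorphic functions are constant -/
theorem const_of_cr {a b : P2 → ℝ} {τ : ℂ} (hτ : 0 < τ.im) (ha : ContDiff ℝ 2 a)
    (hb : ContDiff ℝ 2 b) (pa : Per a) (pb : Per b)
    (h1 : ∀ p, dt a p = -(τ.re ^ 2 + τ.im ^ 2) * ds b p)
    (h2 : ∀ p, dt b p = ds a p + 2 * τ.re * ds b p) :
    (∀ p, a p = a 0) ∧ ∀ p, b p = b 0 := by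
  have ha1 : ContDiff ℝ 1 a := ha.of_le (by norm_num)
  have hb1 : ContDiff ℝ 1 b := hb.of_le (by norm_num)
  have has : ContDiff ℝ 1 (ds a) := contDiff_ds ha (by norm_num)
  have hbs : ContDiff ℝ 1 (ds b) := contDiff_ds hb (by norm_num)
  have hbt : ContDiff ℝ 1 (dt b) := contDiff_dt hb (by norm_num)
  -- Stokes
  have e1 : ∀ p, ds a p * dt b p - dt a p * ds b p =
      ds (fun q => a q * dt b q) p - dt (fun q => a q * ds b q) p := by
    intro p
    have h3 : ds (fun q => a q * dt b q) p = ds a p * dt b p + a p * ds (dt b) p := by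
      unfold ds
      rw [fderiv_fun_mul (ha1.differentiable one_ne_zero p) (hbt.differentiable one_ne_zero p)]
      simp only [add_apply, smul_apply, smul_eq_mul]
      ring
    have h4 : dt (fun q => a q * ds b q) p = dt a p * ds b p + a p * dt (ds b) p := by
      unfold dt
      rw [fderiv_fun_mul (ha1.differentiable one_ne_zero p) (hbs.differentiable one_ne_zero p)]
      simp only [add_apply, smul_apply, smul_eq_mul]
      ring
    rw [h3, h4, ds_dt_comm hb p]
    ring
  have hm : mean (fun p => ds a p * dt b p - dt a p * ds b p) = 0 := by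
    simp only [e1]
    have c1 : ContDiff ℝ 1 fun q => a q * dt b q := ha1.mul hbt
    have c2 : ContDiff ℝ 1 fun q => a q * ds b q := ha1.mul hbs
    rw [mean_sub (continuous_ds c1) (continuous_dt c2), mean_ds c1, mean_dt c2, sub_zero]
    · intro m n p
      simp only
      rw [pa m n p, per_ds pb m n p]
    · intro m n p
      simp only
      rw [pa m n p, per_dt pb m n p]
  have e2 : ∀ p, ds a p * dt b p - dt a p * ds b p =
      (ds a p + τ.re * ds b p) ^ 2 + (τ.im * ds b p) ^ 2 := by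
    intro p
    rw [h1, h2]
    ring
  simp only [e2] at hm
  have hz := eq_zero_of_mean (g := fun p => (ds a p + τ.re * ds b p) ^ 2 + (τ.im * ds b p) ^ 2)
    (((has.continuous.add (continuous_const.mul hbs.continuous)).pow 2).add
      ((continuous_const.mul hbs.continuous).pow 2)) (by
      intro m n p
      simp only
      rw [per_ds pb m n p, per_ds pa m n p]) (fun p => by positivity) hm
  have hbs0 : ∀ p, ds b p = 0 := by
    intro p
    have h3 := hz p
    have h4 : τ.im * ds b p = 0 := by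
      nlinarith [sq_nonneg (ds a p + τ.re * ds b p), sq_nonneg (τ.im * ds b p)]
    rcases mul_eq_zero.1 h4 with h5 | h5
    · exact absurd h5 hτ.ne'
    · exact h5
  have has0 : ∀ p, ds a p = 0 := by
    intro p
    have h3 := hz p
    simp only [hbs0, mul_zero, add_zero] at h3
    nlinarith [sq_nonneg (ds a p)]
  have hat0 : ∀ p, dt a p = 0 := by
    intro p
    rw [h1, hbs0, mul_zero]
  have hbt0 : ∀ p, dt b p = 0 := by
    intro p
    rw [h2, hbs0, has0]
    ring
  have key : ∀ g : P2 → ℝ, ContDiff ℝ 1 g → (∀ p, ds g p = 0) → (∀ p, dt g p = 0) →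
      ∀ p, g p = g 0 := by
    intro g hg hs ht p
    refine is_const_of_fderiv_eq_zero (𝕜 := ℝ) (hg.differentiable one_ne_zero) (fun q => ?_) p 0
    refine ContinuousLinearMap.ext fun w => ?_
    have h5 : w = w.1 • ((1, 0) : P2) + w.2 • ((0, 1) : P2) := by
      ext <;> simp
    rw [h5, map_add, map_smul, map_smul]
    have h6 := hs q
    have h7 := ht q
    unfold ds at h6
    unfold dt at h7
    rw [h6, h7]
    simp
  exact ⟨key a ha1 has0 hat0, key b hb1 hbs0 hbt0⟩

end Vale.Agent.P247.H350
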