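import Vale.Agent.P247.H350.Form

/-!
# P247, package K3-LIN: Stokes, closedness, flux derivative (LIN1, LIN2, LIN3)
-/

open scoped ContDiff Topology
open Set MeasureTheory Filter Metric Asymptotics

noncomputable section

namespace Vale.Agent.P247.H350

open Vale.Agent.P247.H74 Vale.Agent.P247.H332

theorem two_le_inf : (2 : WithTop ℕ∞) ≤ ∞ := WithTop.coe_le_coe.2 (le_top : (2 : ℕ∞) ≤ ⊤)
theorem one_le_inf : (1 : WithTop ℕ∞) ≤ ∞ := WithTop.coe_le_coe.2 (le_top : (1 : ℕ∞) ≤ ⊤)

/-- `lam(φ) (u)` -/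
theorem contDiff_lam (a : CForm) {n : WithTop ℕ∞} (hn : n ≤ ∞) {F : Type*} [NormedAddCommGroup F]
    [NormedSpace ℝ F] {x u : F → R4} (hx : ContDiff ℝ n x) (hu : ContDiff ℝ n u) :
    ContDiff ℝ n fun q => a.lam (x q) (u q) :=
  ((a.lam_smooth.of_le hn).comp hx).clm_apply hu

theorem contDiff_κ (a : CForm) {n : WithTop ℕ∞} {F : Type*} [NormedAddCommGroup F]
    [NormedSpace ℝ F] {x u : F → R4} (hx : ContDiff ℝ n x) (hu : ContDiff ℝ n u) :
    ContDiff ℝ n fun q => a.κ (x q) (u q) :=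
  (a.κ.contDiff.comp hx).clm_apply hu

theorem fderiv_lam (a : CForm) {F : Type*} [NormedAddCommGroup F]
    [NormedSpace ℝ F] {x u : F → R4} {p : F} (hx : DifferentiableAt ℝ x p)
    (hu : DifferentiableAt ℝ u p) (w : F) :
    fderiv ℝ (fun q => a.lam (x q) (u q)) p w =
      (fderiv ℝ a.lam (x p) (fderiv ℝ x p w)) (u p) + a.lam (x p) (fderiv ℝ u p w) := by
  have h1 : HasFDerivAt (fun q => a.lam (x q)) ((fderiv ℝ a.lam (x p)).comp (fderiv ℝ x p)) p :=
    HasFDerivAt.comp (g := a.lam) p (lam_diff a (x p)).hasFDerivAt hx.hasFDerivAt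
  rw [(h1.clm_apply hu.hasFDerivAt).fderiv]
  simp only [add_apply, ContinuousLinearMap.comp_apply, ContinuousLinearMap.flip_apply]
  ring

theorem fderiv_κ (a : CForm) {F : Type*} [NormedAddCommGroup F]
    [NormedSpace ℝ F] {x u : F → R4} {p : F} (hx : DifferentiableAt ℝ x p)
    (hu : DifferentiableAt ℝ u p) (w : F) :
    fderiv ℝ (fun q => a.κ (x q) (u q)) p w =
      a.κ (fderiv ℝ x p w) (u p) + a.κ (x p) (fderiv ℝ u p w) := by
  have h1 : HasFDerivAt (fun q => a.κ (x q)) (a.κ.comp (fderiv ℝ x p)) p :=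
    a.κ.hasFDerivAt.comp p hx.hasFDerivAt
  rw [(h1.clm_apply hu.hasFDerivAt).fderiv]
  simp only [add_apply, ContinuousLinearMap.comp_apply, ContinuousLinearMap.flip_apply]
  ring

/-- the pull-back of a closed form by `φ` differs from the constant `κ (e 2, e 3)` by an exact
form -/
theorem val_phi_exact (a : CForm) {f : P2 → R4} (hf : ContDiff ℝ 2 f) (p : P2) :
    a.val (phi f p) (ds (phi f) p) (dt (phi f) p) = a.κ (e 2) (e 3) +
      (ds (fun q => a.lam (phi f q) (dt (phi f) q) + (1 / 2) * a.κ (f q) (dt f q)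
          + a.κ (f q) (e 3)) p
        - dt (fun q => a.lam (phi f q) (ds (phi f) q) + (1 / 2) * a.κ (f q) (ds f q)
          - a.κ (e 2) (f q)) p) := by
  have hf1 : Differentiable ℝ f := hf.differentiable two_ne_zero
  have hφ : ContDiff ℝ 2 (phi f) := contDiff_phi hf
  have hφ1 : Differentiable ℝ (phi f) := hφ.differentiable two_ne_zero
  have hs : Differentiable ℝ (ds (phi f)) :=
    (contDiff_ds (m := 1) hφ (by norm_num)).differentiable one_ne_zero
  have ht : Differentiable ℝ (dt (phi f)) :=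
    (contDiff_dt (m := 1) hφ (by norm_num)).differentiable one_ne_zero
  have hs' : Differentiable ℝ (ds f) :=
    (contDiff_ds (m := 1) hf (by norm_num)).differentiable one_ne_zero
  have ht' : Differentiable ℝ (dt f) :=
    (contDiff_dt (m := 1) hf (by norm_num)).differentiable one_ne_zero
  have hL : ∀ (u : P2 → R4), Differentiable ℝ u → Differentiable ℝ fun q => a.lam (phi f q) (u q) :=
    fun u hu q => ((lam_diff a _).comp q (hφ1 q)).clm_apply (hu q)
  have hK : ∀ (x u : P2 → R4), Differentiable ℝ x → Differentiable ℝ u →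
      Differentiable ℝ fun q => a.κ (x q) (u q) :=
    fun x u hx hu q => (a.κ.differentiableAt.comp q (hx q)).clm_apply (hu q)
  have e1 : ds (fun q => a.lam (phi f q) (dt (phi f) q) + (1 / 2) * a.κ (f q) (dt f q)
          + a.κ (f q) (e 3)) p =
      (fderiv ℝ a.lam (phi f p) (ds (phi f) p)) (dt (phi f) p) + a.lam (phi f p) (ds (dt (phi f)) p)
      + (1 / 2) * (a.κ (ds f p) (dt f p) + a.κ (f p) (ds (dt f) p)) + a.κ (ds f p) (e 3) := by
    have h1 := (hL _ ht p).hasFDerivAt
    have h2 := ((hK _ _ hf1 ht' p).hasFDerivAt).const_mul (1 / 2 : ℝ)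
    have h3 := (hK _ _ hf1 (differentiable_const (e 3)) p).hasFDerivAt
    have h4 := ((h1.add h2).add h3).fderiv
    have h5 : ds (fun q => a.lam (phi f q) (dt (phi f) q) + (1 / 2) * a.κ (f q) (dt f q)
          + a.κ (f q) (e 3)) p = _ := congrArg (fun L : P2 →L[ℝ] ℝ => L (1, 0)) h4
    rw [h5]
    simp only [add_apply, smul_apply, smul_eq_mul]
    rw [fderiv_lam a (hφ1 p) (ht p), fderiv_κ a (hf1 p) (ht' p),
      fderiv_κ a (hf1 p) (differentiableAt_const _)]
    simp [ds, dt]
  have e2 : dt (fun q => a.lam (phi f q) (ds (phi f) q) + (1 / 2) * a.κ (f q) (ds f q)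
          - a.κ (e 2) (f q)) p =
      (fderiv ℝ a.lam (phi f p) (dt (phi f) p)) (ds (phi f) p) + a.lam (phi f p) (dt (ds (phi f)) p)
      + (1 / 2) * (a.κ (dt f p) (ds f p) + a.κ (f p) (dt (ds f) p)) - a.κ (e 2) (dt f p) := by
    have h1 := (hL _ hs p).hasFDerivAt
    have h2 := ((hK _ _ hf1 hs' p).hasFDerivAt).const_mul (1 / 2 : ℝ)
    have h3 := (hK _ _ (differentiable_const (e 2)) hf1 p).hasFDerivAt
    have h4 := ((h1.add h2).sub h3).fderiv
    have h5 : dt (fun q => a.lam (phi f q) (ds (phi f) q) + (1 / 2) * a.κ (f q) (ds f q)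
          - a.κ (e 2) (f q)) p = _ := congrArg (fun L : P2 →L[ℝ] ℝ => L (0, 1)) h4
    rw [h5]
    simp only [add_apply, sub_apply, smul_apply, smul_eq_mul]
    rw [fderiv_lam a (hφ1 p) (hs p), fderiv_κ a (hf1 p) (hs' p),
      fderiv_κ a (differentiableAt_const _) (hf1 p)]
    simp [ds, dt]
  rw [e1, e2, ds_dt_comm hφ p, ds_dt_comm hf p]
  unfold CForm.val
  rw [κ_swap a (ds f p) (dt f p)]
  simp only [ds_phi hf1, dt_phi hf1, map_add, add_apply]
  ring

theorem mean_val_phi (a : CForm) {f : P2 → R4} (hf : ContDiff ℝ 2 f) (hp : Per f) :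
    mean (fun p => a.val (phi f p) (ds (phi f) p) (dt (phi f) p)) = a.κ (e 2) (e 3) := by
  have hφ : ContDiff ℝ 2 (phi f) := contDiff_phi hf
  have hφ1 : ContDiff ℝ 1 (phi f) := hφ.of_le (by norm_num)
  have hf1 : ContDiff ℝ 1 f := hf.of_le (by norm_num)
  have hs : ContDiff ℝ 1 (ds (phi f)) := contDiff_ds hφ (by norm_num)
  have ht : ContDiff ℝ 1 (dt (phi f)) := contDiff_dt hφ (by norm_num)
  have hs' : ContDiff ℝ 1 (ds f) := contDiff_ds hf (by norm_num)
  have ht' : ContDiff ℝ 1 (dt f) := contDiff_dt hf (by norm_num)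
  have e3per : ∀ (m n : ℤ) (p : P2), dt (phi f) (p.1 + m, p.2 + n) = dt (phi f) p := by
    intro m n p
    rw [dt_phi (hf1.differentiable one_ne_zero), dt_phi (hf1.differentiable one_ne_zero),
      per_dt hp]
  have e2per : ∀ (m n : ℤ) (p : P2), ds (phi f) (p.1 + m, p.2 + n) = ds (phi f) p := by
    intro m n p
    rw [ds_phi (hf1.differentiable one_ne_zero), ds_phi (hf1.differentiable one_ne_zero),
      per_ds hp]
  have hA : ContDiff ℝ 1 (fun q => a.lam (phi f q) (dt (phi f) q) + (1 / 2) * a.κ (f q) (dt f q)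
          + a.κ (f q) (e 3)) :=
    ((contDiff_lam a one_le_inf hφ1 ht).add (contDiff_const.mul (contDiff_κ a hf1 ht'))).add
      (contDiff_κ a hf1 contDiff_const)
  have hB : ContDiff ℝ 1 (fun q => a.lam (phi f q) (ds (phi f) q) + (1 / 2) * a.κ (f q) (ds f q)
          - a.κ (e 2) (f q)) :=
    ((contDiff_lam a one_le_inf hφ1 hs).add (contDiff_const.mul (contDiff_κ a hf1 hs'))).sub
      (contDiff_κ a contDiff_const hf1)
  have pA : Per (fun q => a.lam (phi f q) (dt (phi f) q) + (1 / 2) * a.κ (f q) (dt f q)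
          + a.κ (f q) (e 3)) := by
    intro m n p
    simp only
    rw [per_comp_phi hp a.lam_per m n p, e3per, hp m n p, per_dt hp m n p]
  have pB : Per (fun q => a.lam (phi f q) (ds (phi f) q) + (1 / 2) * a.κ (f q) (ds f q)
          - a.κ (e 2) (f q)) := by
    intro m n p
    simp only
    rw [per_comp_phi hp a.lam_per m n p, e2per, hp m n p, per_ds hp m n p]
  have h : (fun p => a.val (phi f p) (ds (phi f) p) (dt (phi f) p)) = fun p => a.κ (e 2) (e 3) +
      (ds (fun q => a.lam (phi f q) (dt (phi f) q) + (1 / 2) * a.κ (f q) (dt f q)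
          + a.κ (f q) (e 3)) p
        - dt (fun q => a.lam (phi f q) (ds (phi f) q) + (1 / 2) * a.κ (f q) (ds f q)
          - a.κ (e 2) (f q)) p) := by
    funext p
    exact val_phi_exact a hf p
  have h6 := mean_sub (continuous_ds hA) (continuous_dt hB)
  rw [mean_ds hA pA, mean_dt hB pB] at h6
  have h7 := mean_add (continuous_const (y := a.κ (e 2) (e 3)))
    ((continuous_ds hA).sub (continuous_dt hB))
  rw [h]
  refine h7.trans ?_
  rw [mean_const]
  have h8 : mean (ds (fun q => a.lam (phi f q) (dt (phi f) q) + (1 / 2) * a.κ (f q) (dt f q)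
          + a.κ (f q) (e 3))
        - dt (fun q => a.lam (phi f q) (ds (phi f) q) + (1 / 2) * a.κ (f q) (ds f q)
          - a.κ (e 2) (f q))) = 0 - 0 := h6
  rw [h8]
  simp

theorem LIN1 : LIN1_statement := by
  intro D f τ hf hp j
  have h : (fun p => (D.η j).val (phi f p) (ds (phi f) p) (Fop D f τ p)) =
      fun p => (D.η j).val (phi f p) (ds (phi f) p) (dt (phi f) p) := by
    funext p
    unfold Fop
    rw [val_sub_right, val_sub_right, val_smul_right, val_smul_right, val_self, val_J_self]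
    ring
  rw [h, mean_val_phi _ hf hp, D.cls]

/-- the main computation of `LIN2` -/
theorem LIN2 : LIN2_statement := by
  intro D f τ v σ hJ hv _ j p
  have hf2 : ContDiff ℝ 2 f := hJ.smooth.of_le two_le_inf
  have hφ : ContDiff ℝ 2 (phi f) := contDiff_phi hf2
  have hφ1 : Differentiable ℝ (phi f) := hφ.differentiable two_ne_zero
  have hv1 : Differentiable ℝ v := hv.differentiable two_ne_zero
  have hs : Differentiable ℝ (ds (phi f)) :=
    (contDiff_ds (m := 1) hφ (by norm_num)).differentiable one_ne_zero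
  have ht : Differentiable ℝ (dt (phi f)) :=
    (contDiff_dt (m := 1) hφ (by norm_num)).differentiable one_ne_zero
  have e1 : ds (fun q => (D.η j).val (phi f q) (v q) (dt (phi f) q)) p =
      dval (D.η j) (phi f p) (ds (phi f) p) (v p) (dt (phi f) p)
      + (D.η j).val (phi f p) (ds v p) (dt (phi f) p)
      + (D.η j).val (phi f p) (v p) (ds (dt (phi f)) p) :=
    fderiv_val (D.η j) (hφ1 p) (hv1 p) (ht p) _
  have e2 : dt (fun q => (D.η j).val (phi f q) (v q) (ds (phi f) q)) p =
      dval (D.η j) (phi f p) (dt (phi f) p) (v p) (ds (phi f) p)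
      + (D.η j).val (phi f p) (dt v p) (ds (phi f) p)
      + (D.η j).val (phi f p) (v p) (dt (ds (phi f)) p) :=
    fderiv_val (D.η j) (hφ1 p) (hv1 p) (hs p) _
  rw [e1, e2, ds_dt_comm hφ p]
  have hcl := dval_closed (D.η j) (phi f p) (ds (phi f) p) (dt (phi f) p) (v p)
  have hanti : ∀ w a b, dval (D.η j) (phi f p) w a b = - dval (D.η j) (phi f p) w b a := by
    intro w a b
    unfold dval
    ring
  have hdJ := dval_J D j (phi f p) (v p) (ds (phi f) p)
  have hpol := val_J_polar D j (phi f p) (ds (phi f) p) (ds v p)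
  have heq := hJ.eq p
  have hdv : dval (D.η j) (phi f p) (v p) (ds (phi f) p) (dt (phi f) p) =
      τ.im * dval (D.η j) (phi f p) (v p) (ds (phi f) p) (D.J (phi f p) (ds (phi f) p)) := by
    rw [heq]
    unfold dval
    simp only [map_add, map_smul, add_apply, smul_apply, smul_eq_mul]
    ring
  have hvv : (D.η j).val (phi f p) (ds v p) (dt (phi f) p) =
      τ.re * (D.η j).val (phi f p) (ds v p) (ds (phi f) p) +
      τ.im * (D.η j).val (phi f p) (ds v p) (D.J (phi f p) (ds (phi f) p)) := by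
    rw [heq, val_add_right, val_smul_right, val_smul_right]
  unfold Lop
  simp only [val_sub_right, val_smul_right, val_self, val_J_self]
  rw [hvv, val_swap (D.η j) (phi f p) (ds (phi f) p) (ds v p),
    val_swap (D.η j) (phi f p) (ds (phi f) p) (dt v p)]
  rw [hanti (ds (phi f) p) (v p) (dt (phi f) p)]
  have h5 := hdv
  have h6 : dval (D.η j) (phi f p) (ds (phi f) p) (dt (phi f) p) (v p) +
    dval (D.η j) (phi f p) (dt (phi f) p) (v p) (ds (phi f) p) =
    - (τ.im * dval (D.η j) (phi f p) (v p) (ds (phi f) p) (D.J (phi f p) (ds (phi f) p))) := by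
    rw [← hdv]
    linarith
  have h7 : (D.η j).val (phi f p) (ds v p) (D.J (phi f p) (ds (phi f) p)) =
     - (D.η j).val (phi f p) (ds (phi f) p) (D.J (phi f p) (ds v p)) := by linarith
  rw [h7]
  have h8 : (D.η j).val (phi f p) (ds (phi f) p) (fderiv ℝ D.J (phi f p) (v p) (ds (phi f) p)) =
     - dval (D.η j) (phi f p) (v p) (ds (phi f) p) (D.J (phi f p) (ds (phi f) p)) := by linarith
  rw [h8]
  linarith

/-- pointwise form of `LIN3` -/
theorem flux_exact (a : CForm) {f v : P2 → R4} (hf : ContDiff ℝ 2 f) (hv : ContDiff ℝ 2 v)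
    (w : P2) (E : R4) (p : P2) (hE : fderiv ℝ (phi f) p w = E + fderiv ℝ f p w) :
    (fderiv ℝ a.lam (phi f p) (v p)) (fderiv ℝ (phi f) p w)
      + a.lam (phi f p) (fderiv ℝ v p w) - a.κ E (v p)
      + (1 / 2) * (a.κ (v p) (fderiv ℝ f p w) + a.κ (f p) (fderiv ℝ v p w)) =
    a.val (phi f p) (v p) (fderiv ℝ (phi f) p w) +
      fderiv ℝ (fun q => a.lam (phi f q) (v q) + (1 / 2) * a.κ (f q) (v q)) p w := by
  have hf1 : Differentiable ℝ f := hf.differentiable two_ne_zero
  have hφ1 : Differentiable ℝ (phi f) := (contDiff_phi hf).differentiable two_ne_zero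
  have hv1 : Differentiable ℝ v := hv.differentiable two_ne_zero
  have hL : DifferentiableAt ℝ (fun q => a.lam (phi f q) (v q)) p :=
    ((lam_diff a _).comp p (hφ1 p)).clm_apply (hv1 p)
  have hK : DifferentiableAt ℝ (fun q => a.κ (f q) (v q)) p :=
    (a.κ.differentiableAt.comp p (hf1 p)).clm_apply (hv1 p)
  rw [fderiv_fun_add hL (hK.const_mul _), fderiv_const_mul hK]
  simp only [add_apply, smul_apply, smul_eq_mul]
  rw [fderiv_lam a (hφ1 p) (hv1 p), fderiv_κ a (hf1 p) (hv1 p)]
  unfold CForm.val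
  rw [hE, κ_swap a (v p) E, κ_swap a (v p) (fderiv ℝ f p w)]
  simp only [map_add, add_apply]
  ring

theorem LIN3 : LIN3_statement := by
  intro D f v hf hp hv hvp
  have hf2 : ContDiff ℝ 2 f := hf.of_le two_le_inf
  have hf1 : Differentiable ℝ f := hf2.differentiable two_ne_zero
  have hφ : ContDiff ℝ 2 (phi f) := contDiff_phi hf2
  have hφ1 : ContDiff ℝ 1 (phi f) := hφ.of_le (by norm_num)
  have hs : ContDiff ℝ 1 (ds (phi f)) := contDiff_ds hφ (by norm_num)
  have ht : ContDiff ℝ 1 (dt (phi f)) := contDiff_dt hφ (by norm_num)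
  have hv1 : ContDiff ℝ 1 v := hv.of_le (by norm_num)
  have hg : ContDiff ℝ 1 (fun q => (D.η 0).lam (phi f q) (v q) + (1 / 2) * (D.η 0).κ (f q) (v q)) :=
    (contDiff_lam _ one_le_inf hφ1 hv1).add
      (contDiff_const.mul (contDiff_κ _ (hf2.of_le (by norm_num)) hv1))
  have pg : Per (fun q => (D.η 0).lam (phi f q) (v q) + (1 / 2) * (D.η 0).κ (f q) (v q)) := by
    intro m n p
    simp only
    rw [per_comp_phi hp (D.η 0).lam_per m n p, hp m n p, hvp m n p]
  constructor
  · have h : ∀ p, (fderiv ℝ (D.η 0).lam (phi f p) (v p)) (ds (phi f) p)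
      + (D.η 0).lam (phi f p) (ds v p) - (D.η 0).κ (e 2) (v p)
      + (1 / 2) * ((D.η 0).κ (v p) (ds f p) + (D.η 0).κ (f p) (ds v p)) =
      (D.η 0).val (phi f p) (v p) (ds (phi f) p) +
      ds (fun q => (D.η 0).lam (phi f q) (v q) + (1 / 2) * (D.η 0).κ (f q) (v q)) p :=
      fun p => flux_exact (D.η 0) hf2 hv _ _ p (ds_phi hf1 p)
    simp only [h]
    rw [mean_add (contDiff_val _ one_le_inf hφ1 hv1 hs).continuous (continuous_ds hg),
      mean_ds hg pg, add_zero]
  · have h : ∀ p, (fderiv ℝ (D.η 0).lam (phi f p) (v p)) (dt (phi f) p)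
      + (D.η 0).lam (phi f p) (dt v p) - (D.η 0).κ (e 3) (v p)
      + (1 / 2) * ((D.η 0).κ (v p) (dt f p) + (D.η 0).κ (f p) (dt v p)) =
      (D.η 0).val (phi f p) (v p) (dt (phi f) p) +
      dt (fun q => (D.η 0).lam (phi f q) (v q) + (1 / 2) * (D.η 0).κ (f q) (v q)) p :=
      fun p => flux_exact (D.η 0) hf2 hv _ _ p (dt_phi hf1 p)
    simp only [h]
    rw [mean_add (contDiff_val _ one_le_inf hφ1 hv1 ht).continuous (continuous_dt hg),
      mean_dt hg pg, add_zero]

end Vale.Agent.P247.H350
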