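import Vale.Agent.P247.H350.Ker

/-!
# P247, package K3-LIN: the kernel of the linearised problem (LIN4)
-/

open scoped ContDiff Topology
open Set MeasureTheory Filter Metric Asymptotics

noncomputable section

namespace Vale.Agent.P247.H350

open Vale.Agent.P247.H74 Vale.Agent.P247.H332

theorem fderiv_J (D : Data) {F : Type*} [NormedAddCommGroup F]
    [NormedSpace ℝ F] {x u : F → R4} {p : F} (hx : DifferentiableAt ℝ x p)
    (hu : DifferentiableAt ℝ u p) (w : F) :
    fderiv ℝ (fun q => D.J (x q) (u q)) p w =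
      (fderiv ℝ D.J (x p) (fderiv ℝ x p w)) (u p) + D.J (x p) (fderiv ℝ u p w) := by
  have h1 : HasFDerivAt (fun q => D.J (x q)) ((fderiv ℝ D.J (x p)).comp (fderiv ℝ x p)) p :=
    HasFDerivAt.comp (g := D.J) p (J_diff D (x p)).hasFDerivAt hx.hasFDerivAt
  rw [(h1.clm_apply hu.hasFDerivAt).fderiv]
  simp only [add_apply, ContinuousLinearMap.comp_apply, ContinuousLinearMap.flip_apply]
  abel

/-- the derivative of the equation -/
theorem eq_deriv (D : Data) {f : P2 → R4} {τ : ℂ} (hJ : JT D f τ) (p w : P2) :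
    fderiv ℝ (dt (phi f)) p w = τ.re • fderiv ℝ (ds (phi f)) p w
      + τ.im • ((fderiv ℝ D.J (phi f p) (fderiv ℝ (phi f) p w)) (ds (phi f) p)
        + D.J (phi f p) (fderiv ℝ (ds (phi f)) p w)) := by
  have hf2 : ContDiff ℝ 2 f := hJ.smooth.of_le two_le_inf
  have hφ : ContDiff ℝ 2 (phi f) := contDiff_phi hf2
  have hφ1 : Differentiable ℝ (phi f) := hφ.differentiable two_ne_zero
  have hs : Differentiable ℝ (ds (phi f)) :=
    (contDiff_ds (m := 1) hφ (by norm_num)).differentiable one_ne_zero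
  have hJd : DifferentiableAt ℝ (fun q => D.J (phi f q) (ds (phi f) q)) p :=
    ((J_diff D _).comp p (hφ1 p)).clm_apply (hs p)
  have h1 : dt (phi f) = fun q => τ.re • ds (phi f) q + τ.im • D.J (phi f q) (ds (phi f) q) := by
    funext q
    exact hJ.eq q
  have h2 := (((hs p).hasFDerivAt.const_smul τ.re).add (hJd.hasFDerivAt.const_smul τ.im)).fderiv
  have h3 : fderiv ℝ (dt (phi f)) p = _ := (congrArg (fun g => fderiv ℝ g p) h1).trans h2
  rw [h3]
  simp only [add_apply, smul_apply]
  rw [fderiv_J D (hφ1 p) (hs p)]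

/-- the linearised operator on `a φ_s + b φ_t` -/
theorem lop_comb (D : Data) {f : P2 → R4} {τ : ℂ} (hJ : JT D f τ) {a b : P2 → ℝ}
    (ha : Differentiable ℝ a) (hb : Differentiable ℝ b) (σ : ℂ) (p : P2) :
    Lop D f τ (fun q => a q • ds (phi f) q + b q • dt (phi f) q) σ p =
      (dt a p - τ.re * ds a p + τ.re * (dt b p - τ.re * ds b p) + τ.im ^ 2 * ds b p - σ.re) •
        ds (phi f) p +
      (τ.im * (dt b p - 2 * τ.re * ds b p - ds a p) - σ.im) • D.J (phi f p) (ds (phi f) p) := by
  have hf2 : ContDiff ℝ 2 f := hJ.smooth.of_le two_le_inf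
  have hφ : ContDiff ℝ 2 (phi f) := contDiff_phi hf2
  have hφ1 : Differentiable ℝ (phi f) := hφ.differentiable two_ne_zero
  have hs : Differentiable ℝ (ds (phi f)) :=
    (contDiff_ds (m := 1) hφ (by norm_num)).differentiable one_ne_zero
  have ht : Differentiable ℝ (dt (phi f)) :=
    (contDiff_dt (m := 1) hφ (by norm_num)).differentiable one_ne_zero
  have hd : ∀ w : P2, fderiv ℝ (fun q => a q • ds (phi f) q + b q • dt (phi f) q) p w =
      (fderiv ℝ a p w) • ds (phi f) p + a p • fderiv ℝ (ds (phi f)) p w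
      + ((fderiv ℝ b p w) • dt (phi f) p + b p • fderiv ℝ (dt (phi f)) p w) := by
    intro w
    have h2 := (((ha p).hasFDerivAt.smul (hs p).hasFDerivAt).add
      ((hb p).hasFDerivAt.smul (ht p).hasFDerivAt)).fderiv
    have h3 : fderiv ℝ (fun q => a q • ds (phi f) q + b q • dt (phi f) q) p w = _ :=
      congrArg (fun L : P2 →L[ℝ] R4 => L w) h2
    rw [h3]
    simp only [add_apply, smul_apply, ContinuousLinearMap.smulRight_apply]
    abel
  have E1 := eq_deriv D hJ p (1, 0)
  have E2 := eq_deriv D hJ p (0, 1)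
  have hc : fderiv ℝ (dt (phi f)) p (1, 0) = fderiv ℝ (ds (phi f)) p (0, 1) := ds_dt_comm hφ p
  rw [hc] at E1
  have hE := hJ.eq p
  unfold Lop
  simp only [ds, dt] at *
  rw [hd, hd, hc, E2, E1]
  simp only [map_add, map_smul, add_apply, smul_apply, smul_add, smul_smul]
  rw [hE]
  simp only [map_add, map_smul, add_apply, smul_apply, smul_add, smul_smul, D.J_sq, smul_neg]
  module

theorem c01_ne (D : Data) (x : R4) : D.c x 0 1 ≠ 0 := by
  intro h
  have h1 := D.c_sq x 0 0
  simp only [Fin.sum_univ_two, h, zero_mul, add_zero, if_true] at h1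
  nlinarith [sq_nonneg (D.c x 0 0)]

theorem ds_phi_per {f : P2 → R4} (hf : Differentiable ℝ f) (hp : Per f) : Per (ds (phi f)) := by
  intro m n p
  rw [ds_phi hf, ds_phi hf, per_ds hp]

theorem dt_phi_per {f : P2 → R4} (hf : Differentiable ℝ f) (hp : Per f) : Per (dt (phi f)) := by
  intro m n p
  rw [dt_phi hf, dt_phi hf, per_dt hp]

theorem ds_comp {f : P2 → R4} (hf : Differentiable ℝ f) (i : Fin 4) (p : P2) :
    ds f p i = ds (fun q => f q i) p := by
  unfold ds
  rw [fderiv_apply (hf p)]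
  rfl

theorem dt_comp {f : P2 → R4} (hf : Differentiable ℝ f) (i : Fin 4) (p : P2) :
    dt f p i = dt (fun q => f q i) p := by
  unfold dt
  rw [fderiv_apply (hf p)]
  rfl

theorem mean_ds_phi {f : P2 → R4} (hf : ContDiff ℝ 1 f) (hp : Per f) (i : Fin 4) :
    mean (fun p => ds (phi f) p i) = e 2 i := by
  have h : ∀ p, ds (phi f) p i = e 2 i + ds (fun q => f q i) p := by
    intro p
    rw [ds_phi (hf.differentiable one_ne_zero), Pi.add_apply,
      ds_comp (hf.differentiable one_ne_zero)]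
  have hfi : ContDiff ℝ 1 fun q => f q i := contDiff_pi.1 hf i
  simp only [h]
  rw [mean_add continuous_const (continuous_ds hfi), mean_const, mean_ds hfi, add_zero]
  intro m n p
  simp only
  rw [hp m n p]

theorem mean_dt_phi {f : P2 → R4} (hf : ContDiff ℝ 1 f) (hp : Per f) (i : Fin 4) :
    mean (fun p => dt (phi f) p i) = e 3 i := by
  have h : ∀ p, dt (phi f) p i = e 3 i + dt (fun q => f q i) p := by
    intro p
    rw [dt_phi (hf.differentiable one_ne_zero), Pi.add_apply,
      dt_comp (hf.differentiable one_ne_zero)]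
  have hfi : ContDiff ℝ 1 fun q => f q i := contDiff_pi.1 hf i
  simp only [h]
  rw [mean_add continuous_const (continuous_dt hfi), mean_const, mean_dt hfi, add_zero]
  intro m n p
  simp only
  rw [hp m n p]

theorem LIN4 (hN : N_statement) : LIN4_statement := by
  intro D f τ v σ hJ him hv pv hL m2 m3 mA mB
  have hf2 : ContDiff ℝ 2 f := hJ.smooth.of_le two_le_inf
  have hf1 : Differentiable ℝ f := hf2.differentiable two_ne_zero
  have hφi : ContDiff ℝ ∞ (phi f) := contDiff_phi hJ.smooth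
  have hφ : ContDiff ℝ 2 (phi f) := contDiff_phi hf2
  have hXi : ContDiff ℝ ∞ (ds (phi f)) := contDiff_ds hφi (by simp)
  have hYi : ContDiff ℝ ∞ (dt (phi f)) := contDiff_dt hφi (by simp)
  have hX2 : ContDiff ℝ 2 (ds (phi f)) := hXi.of_le two_le_inf
  have hY2 : ContDiff ℝ 2 (dt (phi f)) := hYi.of_le two_le_inf
  have pX : Per (ds (phi f)) := ds_phi_per hf1 hJ.per
  have pY : Per (dt (phi f)) := dt_phi_per hf1 hJ.per
  have hτ := hJ.im_pos
  have pval : ∀ (a : CForm) {x y : P2 → R4}, Per x → Per y →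
      Per (fun p => a.val (phi f p) (x p) (y p)) := by
    intro a x y hx hy m n p
    show a.val (phi f (p.1 + m, p.2 + n)) (x (p.1 + m, p.2 + n)) (y (p.1 + m, p.2 + n)) = _
    rw [hx m n p, hy m n p, phi_per hJ.per, val_per]
  have hk : ∀ j p, (D.η j).val (phi f p) (v p) (dt (phi f) p) =
      τ.re * (D.η j).val (phi f p) (v p) (ds (phi f) p) +
      τ.im * ∑ k, D.c (phi f p) j k * (D.η k).val (phi f p) (v p) (ds (phi f) p) := by
    intro j p
    rw [hJ.eq p, val_add_right, val_smul_right, val_smul_right, D.η_J]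
  have hcl : ∀ j p, ds (fun q => (D.η j).val (phi f q) (v q) (dt (phi f) q)) p =
      dt (fun q => (D.η j).val (phi f q) (v q) (ds (phi f) q)) p := by
    intro j p
    have h1 := LIN2 D f τ v σ hJ hv pv j p
    rw [hL p, val_zero_right] at h1
    linarith
  have hcase := hN (fun p => D.c (phi f p)) τ
    (fun j p => (D.η j).val (phi f p) (v p) (ds (phi f) p)) hτ (D.c_smooth.comp hφi) (by
      intro m n p
      show D.c (phi f (p.1 + m, p.2 + n)) = D.c (phi f p)
      rw [phi_per hJ.per, D.c_per]) (fun p j l => D.c_sq _ j l)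
      (fun j => contDiff_val _ two_le_inf hφ hv hX2) (fun j => pval _ pv pX) (by
      intro j p
      rw [← hcl j p]
      congr 1
      funext q
      exact hk j q)
  have hall : ∀ j p, (D.η j).val (phi f p) (v p) (ds (phi f) p) = 0 := by
    rcases hcase with h | h
    · exact h
    · exfalso
      obtain ⟨p, hp1, hp2⟩ := exists_common_zero
        (A := fun q => (D.η 0).val (phi f q) (v q) (ds (phi f) q))
        (B := fun q => (D.η 0).val (phi f q) (v q) (dt (phi f) q))
        ((contDiff_val _ two_le_inf hφ hv hX2).of_le (by norm_num))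
        ((contDiff_val _ two_le_inf hφ hv hY2).of_le (by norm_num)) (pval _ pv pX) (pval _ pv pY)
        (hcl 0) mA mB
      have h1 := hk 0 p
      rw [hp1, hp2, Fin.sum_univ_two, hp1] at h1
      have h2 : (D.η 1).val (phi f p) (v p) (ds (phi f) p) = 0 := by
        have h3 : τ.im * (D.c (phi f p) 0 1 * (D.η 1).val (phi f p) (v p) (ds (phi f) p)) = 0 := by
          linarith
        rcases mul_eq_zero.1 h3 with h4 | h4
        · exact absurd h4 hτ.ne'
        · rcases mul_eq_zero.1 h4 with h5 | h5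
          · exact absurd h5 (c01_ne D _)
          · exact h5
      obtain ⟨j, hj⟩ := h p
      fin_cases j
      · exact hj hp1
      · exact hj h2
  -- tangential field
  set X : P2 → R4 := ds (phi f) with hX
  set Y : P2 → R4 := dt (phi f) with hY
  have hXne : ∀ p, X p ≠ 0 := him
  have hYeq : ∀ p, Y p = τ.re • X p + τ.im • D.J (phi f p) (X p) := hJ.eq
  have hG : ∀ p, gram (X p) (Y p) ≠ 0 := by
    intro p
    refine gram_ne (hXne p) fun a b hab => ?_
    have h1 : (a + b * τ.re) • X p + (b * τ.im) • D.J (phi f p) (X p) = 0 := by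
      rw [← hab, hYeq p]
      module
    have h2 := (J_indep D _ _ (hXne p) _ _ h1).2
    rcases mul_eq_zero.1 h2 with h3 | h3
    · exact h3
    · exact absurd h3 hτ.ne'
  set a : P2 → ℝ := fun p =>
    ((v p ⬝ᵥ X p) * (Y p ⬝ᵥ Y p) - (v p ⬝ᵥ Y p) * (X p ⬝ᵥ Y p)) / gram (X p) (Y p) with ha
  set b : P2 → ℝ := fun p =>
    ((v p ⬝ᵥ Y p) * (X p ⬝ᵥ X p) - (v p ⬝ᵥ X p) * (X p ⬝ᵥ Y p)) / gram (X p) (Y p) with hb
  have hvab : ∀ p, v p = a p • X p + b p • Y p := by
    intro p
    have h1 : ∀ j, (D.η j).val (phi f p) (X p) (v p) = 0 := by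
      intro j
      rw [val_swap, hall j p, neg_zero]
    obtain ⟨α, β, h2⟩ := D.nd _ _ _ (hXne p) h1
    have h3 : v p = (α - β * τ.re / τ.im) • X p + (β / τ.im) • Y p := by
      rw [h2, hYeq p, smul_add, smul_smul, smul_smul, div_mul_cancel₀ _ hτ.ne', ← add_assoc,
        ← add_smul]
      congr 2
      ring
    obtain ⟨h4, h5⟩ := gram_coeff h3
    have h6 : a p = α - β * τ.re / τ.im := by
      simp only [ha]
      rw [h4, mul_div_assoc, div_self (hG p), mul_one]
    have h7 : b p = β / τ.im := by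
      simp only [hb]
      rw [h5, mul_div_assoc, div_self (hG p), mul_one]
    rw [h6, h7]
    exact h3
  have hgr : ContDiff ℝ 2 fun p => gram (X p) (Y p) := by
    unfold gram
    exact ((contDiff_dot hX2 hX2).mul (contDiff_dot hY2 hY2)).sub ((contDiff_dot hX2 hY2).pow 2)
  have ha2 : ContDiff ℝ 2 a :=
    (((contDiff_dot hv hX2).mul (contDiff_dot hY2 hY2)).sub
      ((contDiff_dot hv hY2).mul (contDiff_dot hX2 hY2))).div hgr hG
  have hb2 : ContDiff ℝ 2 b :=
    (((contDiff_dot hv hY2).mul (contDiff_dot hX2 hX2)).sub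
      ((contDiff_dot hv hX2).mul (contDiff_dot hX2 hY2))).div hgr hG
  have pa : Per a := by
    intro m n p
    simp only [ha]
    rw [pv m n p, pX m n p, pY m n p]
  have pb : Per b := by
    intro m n p
    simp only [hb]
    rw [pv m n p, pX m n p, pY m n p]
  have ha1 : ContDiff ℝ 1 a := ha2.of_le (by norm_num)
  have hb1 : ContDiff ℝ 1 b := hb2.of_le (by norm_num)
  have had : Differentiable ℝ a := ha1.differentiable one_ne_zero
  have hbd : Differentiable ℝ b := hb1.differentiable one_ne_zero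
  have hv' : v = fun q => a q • X q + b q • Y q := funext hvab
  have hcoef : ∀ p, (dt a p - τ.re * ds a p + τ.re * (dt b p - τ.re * ds b p)
        + τ.im ^ 2 * ds b p - σ.re) = 0 ∧
      (τ.im * (dt b p - 2 * τ.re * ds b p - ds a p) - σ.im) = 0 := by
    intro p
    have h1 := hL p
    rw [hv', lop_comb D hJ had hbd σ p] at h1
    exact J_indep D _ _ (hXne p) _ _ h1
  -- `σ = 0`
  have lin_ds : ∀ (c₁ c₂ : ℝ) (p : P2), ds (fun q => c₁ * a q + c₂ * b q) p =
      c₁ * ds a p + c₂ * ds b p := by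
    intro c₁ c₂ p
    have h1 := (((had p).hasFDerivAt.const_mul c₁).add ((hbd p).hasFDerivAt.const_mul c₂)).fderiv
    exact congrArg (fun L : P2 →L[ℝ] ℝ => L (1, 0)) h1
  have lin_dt : ∀ (c₁ c₂ : ℝ) (p : P2), dt (fun q => c₁ * a q + c₂ * b q) p =
      c₁ * dt a p + c₂ * dt b p := by
    intro c₁ c₂ p
    have h1 := (((had p).hasFDerivAt.const_mul c₁).add ((hbd p).hasFDerivAt.const_mul c₂)).fderiv
    exact congrArg (fun L : P2 →L[ℝ] ℝ => L (0, 1)) h1
  have lin_C : ∀ (c₁ c₂ : ℝ), ContDiff ℝ 1 (fun q => c₁ * a q + c₂ * b q) :=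
    fun c₁ c₂ => (contDiff_const.mul ha1).add (contDiff_const.mul hb1)
  have lin_P : ∀ (c₁ c₂ : ℝ), Per (fun q => c₁ * a q + c₂ * b q) := by
    intro c₁ c₂ m n p
    simp only
    rw [pa m n p, pb m n p]
  have mean_lin : ∀ (c₁ c₂ c₃ c₄ s : ℝ), (∀ p, s = dt (fun q => c₁ * a q + c₂ * b q) p
      - ds (fun q => c₃ * a q + c₄ * b q) p) → s = 0 := by
    intro c₁ c₂ c₃ c₄ s hs
    have h1 : mean (fun _ : P2 => s) = mean (fun p => dt (fun q => c₁ * a q + c₂ * b q) p
      - ds (fun q => c₃ * a q + c₄ * b q) p) := by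
      congr 1
      funext p
      exact hs p
    rw [mean_const, mean_sub (continuous_dt (lin_C _ _)) (continuous_ds (lin_C _ _)),
      mean_dt (lin_C _ _) (lin_P _ _), mean_ds (lin_C _ _) (lin_P _ _), sub_zero] at h1
    exact h1
  have hσ1 : σ.re = 0 := by
    refine mean_lin 1 τ.re τ.re (τ.re ^ 2 - τ.im ^ 2) _ fun p => ?_
    rw [lin_ds, lin_dt]
    have := (hcoef p).1
    linarith
  have hσ2 : σ.im = 0 := by
    refine mean_lin 0 τ.im τ.im (2 * τ.re * τ.im) _ fun p => ?_
    rw [lin_ds, lin_dt]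
    have := (hcoef p).2
    linarith
  have hB : ∀ p, dt b p = ds a p + 2 * τ.re * ds b p := by
    intro p
    have h1 := (hcoef p).2
    rw [hσ2, sub_zero] at h1
    rcases mul_eq_zero.1 h1 with h2 | h2
    · exact absurd h2 hτ.ne'
    · linarith
  have hA : ∀ p, dt a p = -(τ.re ^ 2 + τ.im ^ 2) * ds b p := by
    intro p
    have h1 := (hcoef p).1
    rw [hσ1, hB p] at h1
    linarith
  obtain ⟨ca, cb⟩ := const_of_cr hτ ha2 hb2 pa pb hA hB
  have hmean : ∀ i, mean (fun p => v p i) = a 0 * e 2 i + b 0 * e 3 i := by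
    intro i
    have h1 : ∀ p, v p i = a 0 * X p i + b 0 * Y p i := by
      intro p
      rw [hvab p, ca p, cb p]
      rfl
    simp only [h1]
    have cX : Continuous fun p => X p i := (continuous_apply i).comp hX2.continuous
    have cY : Continuous fun p => Y p i := (continuous_apply i).comp hY2.continuous
    have h2 := mean_add (g := fun p => a 0 * X p i) (h := fun p => b 0 * Y p i)
      (continuous_const.mul cX) (continuous_const.mul cY)
    rw [h2, mean_mul, mean_mul,
      mean_ds_phi (hf2.of_le (by norm_num)) hJ.per, mean_dt_phi (hf2.of_le (by norm_num)) hJ.per]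
  have ha0 : a 0 = 0 := by
    have h1 := hmean 2
    rw [m2] at h1
    simp [e] at h1
    exact h1.symm
  have hb0 : b 0 = 0 := by
    have h1 := hmean 3
    rw [m3] at h1
    simp [e] at h1
    exact h1.symm
  refine ⟨fun p => ?_, Complex.ext hσ1 hσ2⟩
  rw [hvab p, ca p, cb p, ha0, hb0, zero_smul, zero_smul, add_zero]

end Vale.Agent.P247.H350
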