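import Vale.Agent.P247.H332.K3.Sta

/-!
# P247: means over the unit square, Stokes' theorem for periodic functions
-/

open scoped ContDiff Topology
open Set MeasureTheory Filter Metric Asymptotics

noncomputable section

namespace Vale.Agent.P247.H350

open Vale.Agent.P247.H74

section

variable {E : Type*} [NormedAddCommGroup E]

theorem volume_prod_eq : (volume : Measure P2) = (volume : Measure ℝ).prod volume := rfl

theorem integrableOn_Icc {g : P2 → E} (hg : Continuous g) : IntegrableOn g (Icc (0 : P2) 1) :=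
  hg.continuousOn.integrableOn_compact isCompact_Icc

theorem Icc_eq : Icc (0 : P2) 1 = Icc (0 : ℝ) 1 ×ˢ Icc (0 : ℝ) 1 := by
  rw [Icc_prod_Icc]
  rfl

variable [NormedSpace ℝ E]

theorem mean_eq {g : P2 → E} (hg : Continuous g) :
    mean g = ∫ s in (0 : ℝ)..1, ∫ t in (0 : ℝ)..1, g (s, t) := by
  unfold mean
  have h1 : IntegrableOn g (Icc (0 : ℝ) 1 ×ˢ Icc (0 : ℝ) 1) ((volume : Measure ℝ).prod volume) := by
    rw [← Icc_eq]
    exact integrableOn_Icc hg
  rw [Icc_eq, volume_prod_eq, setIntegral_prod _ h1]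
  rw [intervalIntegral.integral_of_le zero_le_one, integral_Icc_eq_integral_Ioc]
  refine setIntegral_congr_fun measurableSet_Ioc fun s _ => ?_
  rw [intervalIntegral.integral_of_le zero_le_one, integral_Icc_eq_integral_Ioc]

theorem mean_swap (g : P2 → E) : mean (fun p => g p.swap) = mean g := by
  unfold mean
  rw [Icc_eq, volume_prod_eq]
  exact setIntegral_prod_swap _ _ _

theorem mean_eq' {g : P2 → E} (hg : Continuous g) :
    mean g = ∫ t in (0 : ℝ)..1, ∫ s in (0 : ℝ)..1, g (s, t) := by
  rw [← mean_swap, mean_eq (g := fun p : P2 => g p.swap) (hg.comp continuous_swap)]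
  rfl

theorem mean_add {g h : P2 → E} (hg : Continuous g) (hh : Continuous h) :
    mean (fun p => g p + h p) = mean g + mean h :=
  integral_add (integrableOn_Icc hg) (integrableOn_Icc hh)

theorem mean_sub {g h : P2 → E} (hg : Continuous g) (hh : Continuous h) :
    mean (fun p => g p - h p) = mean g - mean h :=
  integral_sub (integrableOn_Icc hg) (integrableOn_Icc hh)

theorem mean_neg (g : P2 → E) : mean (fun p => - g p) = - mean g :=
  integral_neg _

theorem mean_smul {𝕜 : Type*} [NontriviallyNormedField 𝕜] [NormedSpace 𝕜 E] [SMulCommClass ℝ 𝕜 E]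
    (c : 𝕜) (g : P2 → E) :
    mean (fun p => c • g p) = c • mean g :=
  integral_smul _ _

theorem mean_mul (c : ℝ) (g : P2 → ℝ) : mean (fun p => c * g p) = c * mean g :=
  mean_smul c g

theorem mean_const [CompleteSpace E] (c : E) : mean (fun _ : P2 => c) = c := by
  rw [mean_eq continuous_const]
  simp

theorem continuous_fderiv_apply {g : P2 → E} (hg : ContDiff ℝ 1 g) (v : P2) :
    Continuous fun p => fderiv ℝ g p v :=
  (hg.continuous_fderiv one_ne_zero).clm_apply continuous_const

theorem continuous_ds {g : P2 → E} (hg : ContDiff ℝ 1 g) : Continuous (ds g) :=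
  continuous_fderiv_apply hg _

theorem continuous_dt {g : P2 → E} (hg : ContDiff ℝ 1 g) : Continuous (dt g) :=
  continuous_fderiv_apply hg _

theorem hasDerivAt_s {g : P2 → E} (hg : Differentiable ℝ g) (s t : ℝ) :
    HasDerivAt (fun x => g (x, t)) (ds g (s, t)) s := by
  have h1 : HasDerivAt (fun x : ℝ => ((x, t) : P2)) (1, 0) s :=
    (hasDerivAt_id s).prodMk (hasDerivAt_const s t)
  exact (hg (s, t)).hasFDerivAt.comp_hasDerivAt s h1

theorem hasDerivAt_t {g : P2 → E} (hg : Differentiable ℝ g) (s t : ℝ) :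
    HasDerivAt (fun x => g (s, x)) (dt g (s, t)) t := by
  have h1 : HasDerivAt (fun x : ℝ => ((s, x) : P2)) (0, 1) t :=
    (hasDerivAt_const t s).prodMk (hasDerivAt_id t)
  exact (hg (s, t)).hasFDerivAt.comp_hasDerivAt t h1

theorem integral_ds [CompleteSpace E] {g : P2 → E} (hg : ContDiff ℝ 1 g) (a b t : ℝ) :
    ∫ s in a..b, ds g (s, t) = g (b, t) - g (a, t) := by
  refine intervalIntegral.integral_eq_sub_of_hasDerivAt
    (fun s _ => hasDerivAt_s (hg.differentiable one_ne_zero) s t) ?_
  exact ((continuous_ds hg).comp (by fun_prop)).intervalIntegrable _ _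

theorem integral_dt [CompleteSpace E] {g : P2 → E} (hg : ContDiff ℝ 1 g) (a b s : ℝ) :
    ∫ t in a..b, dt g (s, t) = g (s, b) - g (s, a) := by
  refine intervalIntegral.integral_eq_sub_of_hasDerivAt
    (fun t _ => hasDerivAt_t (hg.differentiable one_ne_zero) s t) ?_
  exact ((continuous_dt hg).comp (by fun_prop)).intervalIntegrable _ _

theorem Per.one_left {F : Type*} {g : P2 → F} [NormedAddCommGroup F] (hp : Per g) (s t : ℝ) :
    g (s + 1, t) = g (s, t) := by
  have := hp 1 0 (s, t)
  simpa using this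

theorem Per.one_right {F : Type*} {g : P2 → F} [NormedAddCommGroup F] (hp : Per g) (s t : ℝ) :
    g (s, t + 1) = g (s, t) := by
  have := hp 0 1 (s, t)
  simpa using this

theorem mean_ds [CompleteSpace E] {g : P2 → E} (hg : ContDiff ℝ 1 g) (hp : Per g) :
    mean (ds g) = 0 := by
  rw [mean_eq' (continuous_ds hg)]
  have h : ∀ t, ∫ s in (0 : ℝ)..1, ds g (s, t) = 0 := by
    intro t
    rw [integral_ds hg]
    have := Per.one_left hp 0 t
    rw [zero_add] at this
    rw [this, sub_self]
  simp [h]

theorem mean_dt [CompleteSpace E] {g : P2 → E} (hg : ContDiff ℝ 1 g) (hp : Per g) :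
    mean (dt g) = 0 := by
  rw [mean_eq (continuous_dt hg)]
  have h : ∀ s, ∫ t in (0 : ℝ)..1, dt g (s, t) = 0 := by
    intro s
    rw [integral_dt hg]
    have := Per.one_right hp s 0
    rw [zero_add] at this
    rw [this, sub_self]
  simp [h]

end

end Vale.Agent.P247.H350
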