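import Mathlib

/-!
# Semi-Fredholm estimates: uniform bounds and uniform complements

Hilbert space lemmas for the Fredholm reduction (`RED_statement`).
-/

open Set Filter Topology

namespace Vale.Agent.P247.H350

variable {X Y : Type*} [NormedAddCommGroup X] [InnerProductSpace ℂ X] [CompleteSpace X]
  [NormedAddCommGroup Y] [InnerProductSpace ℂ Y] [CompleteSpace Y]

/-- A compact operator is small on the orthogonal complement of a finite-dimensional space. -/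
theorem compact_small (j : X →L[ℂ] Y) (hj : IsCompactOperator j) {ε : ℝ} (hε : 0 < ε) :
    ∃ F : Submodule ℂ X, FiniteDimensional ℂ F ∧ ∀ ψ ∈ Fᗮ, ‖j ψ‖ ≤ ε * ‖ψ‖ := by
  have hTB : TotallyBounded (j '' Metric.closedBall (0 : X) 1) :=
    (hj.isCompact_closure_image_closedBall 1).totallyBounded.subset subset_closure
  obtain ⟨t, ht, hcov⟩ := Metric.totallyBounded_iff.1 hTB ε hε
  refine ⟨Submodule.span ℂ ((fun y => ContinuousLinearMap.adjoint j y) '' t),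
    FiniteDimensional.span_of_finite ℂ (ht.image _), ?_⟩
  have key : ∀ ψ ∈ (Submodule.span ℂ ((fun y => ContinuousLinearMap.adjoint j y) '' t))ᗮ,
      ‖ψ‖ ≤ 1 → ‖j ψ‖ ≤ ε := by
    intro ψ hψ h1
    have hm : j ψ ∈ j '' Metric.closedBall (0 : X) 1 := ⟨ψ, by simpa using h1, rfl⟩
    obtain ⟨y, hy, hyb⟩ := mem_iUnion₂.1 (hcov hm)
    have h0 : inner ℂ y (j ψ) = 0 := by
      rw [← ContinuousLinearMap.adjoint_inner_left]
      exact (Submodule.mem_orthogonal _ _).1 hψ _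
        (Submodule.subset_span ⟨y, hy, rfl⟩)
    have h2 : ‖j ψ‖ ^ 2 = RCLike.re (inner ℂ (j ψ - y) (j ψ)) := by
      rw [inner_sub_left, h0, sub_zero, inner_self_eq_norm_sq]
    have h3 : ‖j ψ‖ ^ 2 ≤ ε * ‖j ψ‖ := by
      rw [h2]
      calc RCLike.re (inner ℂ (j ψ - y) (j ψ)) ≤ ‖inner ℂ (j ψ - y) (j ψ)‖ := RCLike.re_le_norm _
        _ ≤ ‖j ψ - y‖ * ‖j ψ‖ := norm_inner_le_norm _ _
        _ ≤ ε * ‖j ψ‖ := by
          gcongr
          rw [← dist_eq_norm]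
          exact (Metric.mem_ball.1 hyb).le
    by_contra hcon
    push Not at hcon
    nlinarith [norm_nonneg (j ψ)]
  intro ψ hψ
  rcases eq_or_ne ψ 0 with rfl | hne
  · simp
  have hpos : 0 < ‖ψ‖ := norm_pos_iff.2 hne
  have h1 := key ((‖ψ‖⁻¹ : ℂ) • ψ) (Submodule.smul_mem _ _ hψ) (by
    rw [norm_smul]
    simp [hpos.ne'])
  rw [map_smul, norm_smul] at h1
  have h2 : ‖((‖ψ‖ : ℂ)⁻¹)‖ = ‖ψ‖⁻¹ := by simp
  rw [h2] at h1
  calc ‖j ψ‖ = ‖ψ‖ * (‖ψ‖⁻¹ * ‖j ψ‖) := by field_simp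
    _ ≤ ‖ψ‖ * ε := by gcongr
    _ = ε * ‖ψ‖ := by ring

/-- Bound on the complement of a finite-dimensional space. -/
theorem semi_bound (D j : X →L[ℂ] Y) {C : ℝ} (hC : 0 < C) (hj : IsCompactOperator j)
    (h : ∀ ψ, ‖ψ‖ ≤ C * (‖D ψ‖ + ‖j ψ‖)) :
    ∃ F : Submodule ℂ X, FiniteDimensional ℂ F ∧ ∀ ψ ∈ Fᗮ, ‖ψ‖ ≤ 2 * C * ‖D ψ‖ := by
  obtain ⟨F, hF, hb⟩ := compact_small j hj (ε := 1 / (2 * C)) (by positivity)
  refine ⟨F, hF, fun ψ hψ => ?_⟩
  have h1 := h ψ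
  have h2 := hb ψ hψ
  have h3 : C * ‖j ψ‖ ≤ ‖ψ‖ / 2 := by
    calc C * ‖j ψ‖ ≤ C * (1 / (2 * C) * ‖ψ‖) := by gcongr
      _ = ‖ψ‖ / 2 := by field_simp
  nlinarith

/-- Uniform bound over a compact parameter set. -/
theorem unif_bound {T : Type*} [TopologicalSpace T] {K : Set T} (hK : IsCompact K)
    (D : T → X →L[ℂ] Y) (hD : ContinuousOn D K)
    (hest : ∀ t ∈ K, ∃ C > 0, ∃ j : X →L[ℂ] Y, IsCompactOperator j ∧
      ∀ ψ, ‖ψ‖ ≤ C * (‖D t ψ‖ + ‖j ψ‖)) :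
    ∃ F : Submodule ℂ X, FiniteDimensional ℂ F ∧ ∃ d > 0, ∀ t ∈ K, ∀ ψ ∈ Fᗮ,
      d * ‖ψ‖ ≤ ‖D t ψ‖ := by
  refine hK.induction_on (p := fun s => ∃ F : Submodule ℂ X, FiniteDimensional ℂ F ∧
    ∃ d > 0, ∀ t ∈ s, ∀ ψ ∈ Fᗮ, d * ‖ψ‖ ≤ ‖D t ψ‖) ?_ ?_ ?_ ?_
  · exact ⟨⊥, inferInstance, 1, one_pos, fun t ht => absurd ht (notMem_empty t)⟩
  · rintro s t hst ⟨F, hF, d, hd, h⟩
    exact ⟨F, hF, d, hd, fun x hx => h x (hst hx)⟩
  · rintro s t ⟨F, hF, d, hd, h⟩ ⟨F', hF', d', hd', h'⟩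
    refine ⟨F ⊔ F', inferInstance, min d d', lt_min hd hd', ?_⟩
    rintro x (hx | hx) ψ hψ
    · have := h x hx ψ (Submodule.orthogonal_le le_sup_left hψ)
      exact le_trans (by gcongr; exact min_le_left _ _) this
    · have := h' x hx ψ (Submodule.orthogonal_le le_sup_right hψ)
      exact le_trans (by gcongr; exact min_le_right _ _) this
  · intro x hx
    obtain ⟨C, hC, j, hj, hest'⟩ := hest x hx
    obtain ⟨F, hF, hb⟩ := semi_bound (D x) j hC hj hest'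
    have hc := hD x hx
    have hev : {y | ‖D y - D x‖ < 1 / (4 * C)} ∈ 𝓝[K] x := by
      have := (Metric.continuousWithinAt_iff'.1 hc) (1 / (4 * C)) (by positivity)
      simp only [dist_eq_norm] at this
      exact this
    refine ⟨_, hev, F, hF, 1 / (4 * C), by positivity, fun y hy ψ hψ => ?_⟩
    have h1 := hb ψ hψ
    have h2 : ‖(D y - D x) ψ‖ ≤ 1 / (4 * C) * ‖ψ‖ :=
      le_trans ((D y - D x).le_opNorm ψ) (by gcongr; exact le_of_lt hy)
    have h3 : ‖D x ψ‖ ≤ ‖D y ψ‖ + ‖(D y - D x) ψ‖ := by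
      have : D x ψ = D y ψ - (D y - D x) ψ := by
        rw [sub_apply]; abel
      rw [this]
      exact norm_sub_le _ _
    have h4 : 1 / (2 * C) * ‖ψ‖ ≤ ‖D x ψ‖ := by
      calc 1 / (2 * C) * ‖ψ‖ ≤ 1 / (2 * C) * (2 * C * ‖D x ψ‖) := by gcongr
        _ = ‖D x ψ‖ := by field_simp
    have h5 : 1 / (2 * C) * ‖ψ‖ = 1 / (4 * C) * ‖ψ‖ + 1 / (4 * C) * ‖ψ‖ := by
      field_simp
      ring
    linarith

/-- Small perturbations of an operator which is bounded below with finite-dimensional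
cokernel. -/
theorem perturb_top {E : Type*} [NormedAddCommGroup E] [InnerProductSpace ℂ E] [CompleteSpace E]
    (A B : E →L[ℂ] Y) {d δ : ℝ} (hδ : δ < d) (hδ0 : 0 ≤ δ) (hA : ∀ z, d * ‖z‖ ≤ ‖A z‖)
    (hB : ∀ z, d * ‖z‖ ≤ ‖B z‖)
    (hAB : ‖A - B‖ ≤ δ) (hN : FiniteDimensional ℂ (A.range)ᗮ) :
    B.range ⊔ (A.range)ᗮ = ⊤ := by
  have hd : 0 < d := lt_of_le_of_lt hδ0 hδ
  have hcl : ∀ T : E →L[ℂ] Y, (∀ z, d * ‖z‖ ≤ ‖T z‖) → IsClosed (T.range : Set Y) := by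
    intro T hT
    have : AntilipschitzWith ⟨d⁻¹, by positivity⟩ T := by
      refine AddMonoidHomClass.antilipschitz_of_bound T fun z => ?_
      have := hT z
      show ‖z‖ ≤ d⁻¹ * ‖T z‖
      rw [inv_mul_eq_div, le_div_iff₀ hd]
      linarith
    have h2 := this.isClosed_range T.uniformContinuous
    exact h2
  have hclB := hcl B hB
  have hclA := hcl A hA
  have hcl2 : IsClosed ((B.range ⊔ (A.range)ᗮ : Submodule ℂ Y) : Set Y) :=
    Submodule.isClosed_sup_finiteDimensional _ _ hclB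
  have : CompleteSpace (B.range ⊔ (A.range)ᗮ : Submodule ℂ Y) := hcl2.completeSpace_coe
  have : CompleteSpace A.range := hclA.completeSpace_coe
  rw [← Submodule.orthogonal_eq_bot_iff]
  rw [eq_bot_iff]
  intro y hy
  have hy1 : y ∈ (B.range)ᗮ := Submodule.orthogonal_le le_sup_left hy
  have hy2 : y ∈ ((A.range)ᗮ)ᗮ := Submodule.orthogonal_le le_sup_right hy
  rw [Submodule.orthogonal_orthogonal] at hy2
  obtain ⟨z, hz⟩ := hy2
  have hz' : A z = y := hz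
  have h1 : inner ℂ (B z) y = 0 := (Submodule.mem_orthogonal _ _).1 hy1 _ ⟨z, rfl⟩
  have h2 : ‖y‖ ^ 2 = RCLike.re (inner ℂ ((A - B) z) y) := by
    rw [sub_apply, inner_sub_left, h1, sub_zero, hz', inner_self_eq_norm_sq]
  have h3 : ‖y‖ ^ 2 ≤ δ * ‖z‖ * ‖y‖ := by
    rw [h2]
    calc RCLike.re (inner ℂ ((A - B) z) y) ≤ ‖inner ℂ ((A - B) z) y‖ := RCLike.re_le_norm _
      _ ≤ ‖(A - B) z‖ * ‖y‖ := norm_inner_le_norm _ _
      _ ≤ δ * ‖z‖ * ‖y‖ := by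
        gcongr
        exact le_trans ((A - B).le_opNorm z) (by gcongr)
  have h4 := hA z
  rw [hz'] at h4
  rw [Submodule.mem_bot]
  by_contra hne
  have hpos : 0 < ‖y‖ := norm_pos_iff.2 hne
  have h5 : ‖y‖ ≤ δ * ‖z‖ := by
    by_contra hcon
    push Not at hcon
    nlinarith
  have h6 : 0 < ‖z‖ := by
    by_contra hcon
    have : ‖z‖ = 0 := le_antisymm (not_lt.1 hcon) (norm_nonneg z)
    rw [this] at h5
    simp at h5
    exact hne h5
  nlinarith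

/-- If `R + N = Y`, `N` finite-dimensional, then `Rᗮ` is finite-dimensional. -/
theorem finite_orth (R N : Submodule ℂ Y) (hR : IsClosed (R : Set Y)) [FiniteDimensional ℂ N]
    (h : R ⊔ N = ⊤) : FiniteDimensional ℂ Rᗮ := by
  have : CompleteSpace R := hR.completeSpace_coe
  have hle : Rᗮ ≤ N.map (Rᗮ.starProjection : Y →L[ℂ] Y).toLinearMap := by
    intro y hy
    have hy' : y ∈ R ⊔ N := by rw [h]; trivial
    obtain ⟨b, hb, n, hn, rfl⟩ := Submodule.mem_sup.1 hy'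
    refine ⟨n, hn, ?_⟩
    have h1 : Rᗮ.starProjection (b + n) = b + n := Submodule.starProjection_eq_self_iff.2 hy
    have h2 : Rᗮ.starProjection b = 0 := by
      rw [Submodule.starProjection_apply_eq_zero_iff]
      exact Submodule.le_orthogonal_orthogonal R hb
    rw [map_add, h2, zero_add] at h1
    exact h1
  have : FiniteDimensional ℂ (N.map (Rᗮ.starProjection : Y →L[ℂ] Y).toLinearMap) := inferInstance
  exact Submodule.finiteDimensional_of_le hle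

end Vale.Agent.P247.H350
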