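import Vale.Agent.P247.H350.Red2

/-!
# Periodic families over the plane: lower bound and transport of kernels
-/

open Set Filter Topology

namespace Vale.Agent.P247.H350

/-- A function of the plane with periods `(1,0)`, `(0,1)` factors through fractional parts. -/
theorem per_fract_two {α : Type*} (f : ℝ × ℝ → α) (h1 : ∀ ξ, f (ξ + (1, 0)) = f ξ)
    (h2 : ∀ ξ, f (ξ + (0, 1)) = f ξ) (ξ : ℝ × ℝ) :
    f (Int.fract ξ.1, Int.fract ξ.2) = f ξ := by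
  have p1 : Function.Periodic f ((1, 0) : ℝ × ℝ) := h1
  have p2 : Function.Periodic f ((0, 1) : ℝ × ℝ) := h2
  have h3 := p1.sub_zsmul_eq (x := ξ - ⌊ξ.2⌋ • ((0, 1) : ℝ × ℝ)) ⌊ξ.1⌋
  have h4 := p2.sub_zsmul_eq (x := ξ) ⌊ξ.2⌋
  rw [h4] at h3
  rw [← h3]
  congr 1
  ext
  · simp
  · simp

/-- The unit square. -/
def sq : Set (ℝ × ℝ) := Icc 0 1 ×ˢ Icc 0 1

theorem isCompact_sq : IsCompact sq := isCompact_Icc.prod isCompact_Icc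

theorem fract_mem_sq (ξ : ℝ × ℝ) : (Int.fract ξ.1, Int.fract ξ.2) ∈ sq :=
  ⟨⟨Int.fract_nonneg _, (Int.fract_lt_one _).le⟩, ⟨Int.fract_nonneg _, (Int.fract_lt_one _).le⟩⟩

variable {X Y : Type*} [NormedAddCommGroup X] [InnerProductSpace ℂ X] [CompleteSpace X]
  [NormedAddCommGroup Y] [InnerProductSpace ℂ Y] [CompleteSpace Y]

omit [CompleteSpace Y] in
/-- Compactness: without nontrivial zeros there is a lower bound. -/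
theorem lower_bound (D : ℝ × ℝ → X →L[ℂ] Y) (hD : Continuous D)
    (hest : ∀ ξ, ∃ C > 0, ∃ j : X →L[ℂ] Y, IsCompactOperator j ∧
      ∀ ψ, ‖ψ‖ ≤ C * (‖D ξ ψ‖ + ‖j ψ‖))
    (K : ℝ × ℝ → X → Y) (hK : Continuous (fun p : (ℝ × ℝ) × X => K p.1 p.2))
    (hKh : ∀ ξ (a : ℂ) ψ, K ξ (a • ψ) = a • K ξ ψ)
    (hKc : ∀ R : ℝ, ∃ S : Set Y, IsCompact S ∧ ∀ ξ ψ, ‖ψ‖ ≤ R → K ξ ψ ∈ S)
    (hno : ∀ ξ, ∀ ψ, D ξ ψ + K ξ ψ = 0 → ψ = 0) {Q : Set (ℝ × ℝ)} (hQ : IsCompact Q) :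
    ∃ d > 0, ∀ ξ ∈ Q, ∀ ψ, d * ‖ψ‖ ≤ ‖D ξ ψ + K ξ ψ‖ := by
  by_contra hcon
  push Not at hcon
  have h1 : ∀ n : ℕ, ∃ ξ ∈ Q, ∃ ψ : X, ‖ψ‖ = 1 ∧ ‖D ξ ψ + K ξ ψ‖ < 1 / ((n : ℝ) + 1) := by
    intro n
    obtain ⟨ξ, hξ, ψ, hψ⟩ := hcon (1 / ((n : ℝ) + 1)) (by positivity)
    have hne : ψ ≠ 0 := by
      rintro rfl
      simp only [norm_zero, mul_zero] at hψ
      exact absurd hψ (not_lt.2 (norm_nonneg _))
    have hpos : 0 < ‖ψ‖ := norm_pos_iff.2 hne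
    refine ⟨ξ, hξ, ((‖ψ‖ : ℂ)⁻¹) • ψ, ?_, ?_⟩
    · rw [norm_smul]
      simp [hpos.ne']
    · rw [hKh, map_smul, ← smul_add, norm_smul]
      have h2 : ‖((‖ψ‖ : ℂ)⁻¹)‖ = ‖ψ‖⁻¹ := by simp
      rw [h2, inv_mul_lt_iff₀ hpos]
      linarith
  choose ξ hξ ψ hψ hlt using h1
  obtain ⟨S, hS, hKS⟩ := hKc 1
  obtain ⟨⟨ξ₀, y⟩, -, φ, hφ, hlim⟩ := (hQ.prod hS).tendsto_subseq
    (x := fun n => (ξ n, K (ξ n) (ψ n))) (fun n => ⟨hξ n, hKS _ _ (hψ n).le⟩)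
  obtain ⟨C, hC, j, hj, hest'⟩ := hest ξ₀
  have hjc := hj.isCompact_closure_image_closedBall 1
  obtain ⟨z, -, φ', hφ', hlim'⟩ := hjc.tendsto_subseq (x := fun n => j (ψ (φ n)))
    (fun n => subset_closure ⟨ψ (φ n), by simp [hψ], rfl⟩)
  have hmono : StrictMono (φ ∘ φ') := hφ.comp hφ'
  set θ := φ ∘ φ' with hθ
  have hξlim : Tendsto (fun n => ξ (θ n)) atTop (𝓝 ξ₀) :=
    ((continuous_fst.tendsto _).comp hlim).comp hφ'.tendsto_atTop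
  have hKlim : Tendsto (fun n => K (ξ (θ n)) (ψ (θ n))) atTop (𝓝 y) :=
    ((continuous_snd.tendsto _).comp hlim).comp hφ'.tendsto_atTop
  have hjlim : Tendsto (fun n => j (ψ (θ n))) atTop (𝓝 z) := hlim'
  have hsum : Tendsto (fun n => D (ξ (θ n)) (ψ (θ n)) + K (ξ (θ n)) (ψ (θ n))) atTop (𝓝 0) := by
    rw [tendsto_zero_iff_norm_tendsto_zero]
    refine squeeze_zero (fun n => norm_nonneg _) (fun n => (hlt (θ n)).le) ?_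
    exact tendsto_one_div_add_atTop_nhds_zero_nat.comp hmono.tendsto_atTop
  have hdiff : Tendsto (fun n => (D ξ₀ - D (ξ (θ n))) (ψ (θ n))) atTop (𝓝 0) := by
    rw [tendsto_zero_iff_norm_tendsto_zero]
    have h5 : Tendsto (fun n => ‖D ξ₀ - D (ξ (θ n))‖) atTop (𝓝 0) := by
      have := (tendsto_const_nhds (x := D ξ₀)).sub ((hD.tendsto ξ₀).comp hξlim)
      rw [sub_self] at this
      simpa using this.norm
    refine squeeze_zero (fun n => norm_nonneg _) (fun n => ?_) h5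
    have := (D ξ₀ - D (ξ (θ n))).le_opNorm (ψ (θ n))
    rwa [hψ, mul_one] at this
  have hDlim : Tendsto (fun n => D ξ₀ (ψ (θ n))) atTop (𝓝 (0 + (0 - y))) := by
    refine (hdiff.add (hsum.sub hKlim)).congr fun n => ?_
    simp only [sub_apply]
    abel
  -- closed embedding
  have hanti : AntilipschitzWith ⟨2 * C, by positivity⟩ ((D ξ₀).prod j) := by
    refine AddMonoidHomClass.antilipschitz_of_bound _ fun w => ?_
    have h6 := hest' w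
    have h7 : ‖D ξ₀ w‖ ≤ ‖(D ξ₀).prod j w‖ := norm_fst_le ((D ξ₀).prod j w)
    have h8 : ‖j w‖ ≤ ‖(D ξ₀).prod j w‖ := norm_snd_le ((D ξ₀).prod j w)
    show ‖w‖ ≤ 2 * C * ‖(D ξ₀).prod j w‖
    nlinarith
  have hce := hanti.isClosedEmbedding ((D ξ₀).prod j).uniformContinuous
  have hlim2 : Tendsto (fun n => (D ξ₀).prod j (ψ (θ n))) atTop (𝓝 (0 + (0 - y), z)) :=
    hDlim.prodMk_nhds hjlim
  have hmem : (0 + (0 - y), z) ∈ range ((D ξ₀).prod j) :=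
    hce.isClosed_range.mem_of_tendsto hlim2 (Eventually.of_forall fun n => ⟨_, rfl⟩)
  obtain ⟨w, hw⟩ := hmem
  rw [← hw] at hlim2
  have hψlim : Tendsto (fun n => ψ (θ n)) atTop (𝓝 w) :=
    (hce.isEmbedding.tendsto_nhds_iff (f := fun n => ψ (θ n)) (y := w)).2 hlim2
  have hw1 : ‖w‖ = 1 := by
    have := hψlim.norm
    simp only [hψ] at this
    exact (tendsto_nhds_unique this tendsto_const_nhds)
  have hKlim2 : Tendsto (fun n => K (ξ (θ n)) (ψ (θ n))) atTop (𝓝 (K ξ₀ w)) :=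
    (hK.tendsto (ξ₀, w)).comp (hξlim.prodMk_nhds hψlim)
  have hDlim2 : Tendsto (fun n => D ξ₀ (ψ (θ n))) atTop (𝓝 (D ξ₀ w)) :=
    ((D ξ₀).continuous.tendsto w).comp hψlim
  have e1 := tendsto_nhds_unique hKlim hKlim2
  have e2 := tendsto_nhds_unique hDlim hDlim2
  have h0 := hno ξ₀ w (by rw [← e2, ← e1]; abel)
  rw [h0] at hw1
  simp at hw1

omit [CompleteSpace X] in
/-- Transport of a continuous periodic family of complemented subspaces along `[0,1]`. -/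
theorem transport (P : ℝ → (ℝ × ℝ) → (X →L[ℂ] X))
    (hP : ContinuousOn (fun p : ℝ × (ℝ × ℝ) => P p.1 p.2) (Icc 0 1 ×ˢ univ))
    (hper1 : ∀ s ∈ Icc (0 : ℝ) 1, ∀ ξ, P s (ξ + (1, 0)) = P s ξ)
    (hper2 : ∀ s ∈ Icc (0 : ℝ) 1, ∀ ξ, P s (ξ + (0, 1)) = P s ξ)
    (V : ℝ → ℝ × ℝ → Set X)
    (hmem : ∀ s ∈ Icc (0 : ℝ) 1, ∀ ξ ψ, P s ξ ψ ∈ V s ξ)
    (hid : ∀ s ∈ Icc (0 : ℝ) 1, ∀ ξ, ∀ ψ ∈ V s ξ, P s ξ ψ = ψ) :
    ∃ Tr : ℝ × ℝ → (X →L[ℂ] X), Continuous Tr ∧ (∀ ξ, Tr (ξ + (1, 0)) = Tr ξ) ∧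
      (∀ ξ, Tr (ξ + (0, 1)) = Tr ξ) ∧
      ∀ ξ, ∀ ψ ∈ V 1 ξ, Tr ξ ψ ∈ V 0 ξ ∧ (Tr ξ ψ = 0 → ψ = 0) := by
  set Good : ℝ → Prop := fun s => ∃ Tr : ℝ × ℝ → (X →L[ℂ] X), Continuous Tr ∧
      (∀ ξ, Tr (ξ + (1, 0)) = Tr ξ) ∧ (∀ ξ, Tr (ξ + (0, 1)) = Tr ξ) ∧
      ∀ ξ, ∀ ψ ∈ V 1 ξ, Tr ξ ψ ∈ V s ξ ∧ (Tr ξ ψ = 0 → ψ = 0) with hGood
  have hPs : ∀ s ∈ Icc (0 : ℝ) 1, Continuous (P s) := by
    intro s hs
    rw [← continuousOn_univ]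
    have h1 : ContinuousOn (fun ξ : ℝ × ℝ => ((s, ξ) : ℝ × (ℝ × ℝ))) univ := by fun_prop
    exact hP.comp h1 (fun ξ _ => ⟨hs, mem_univ _⟩)
  have step : ∀ s ∈ Icc (0 : ℝ) 1, ∀ s' ∈ Icc (0 : ℝ) 1, (∀ ξ, ‖P s ξ - P s' ξ‖ < 1) →
      Good s → Good s' := by
    rintro s hs s' hs' hlt ⟨Tr, hc, hp1, hp2, hV⟩
    refine ⟨fun ξ => (P s' ξ).comp (Tr ξ), (hPs s' hs').clm_comp hc, fun ξ => ?_, fun ξ => ?_,
      fun ξ ψ hψ => ⟨hmem s' hs' ξ _, fun h0 => ?_⟩⟩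
    · simp only [hper1 s' hs', hp1]
    · simp only [hper2 s' hs', hp2]
    · obtain ⟨h1, h2⟩ := hV ξ ψ hψ
      apply h2
      by_contra hne
      have hpos : 0 < ‖Tr ξ ψ‖ := norm_pos_iff.2 hne
      have h3 : (P s ξ - P s' ξ) (Tr ξ ψ) = Tr ξ ψ := by
        rw [sub_apply, hid s hs ξ _ h1]
        have h4 : P s' ξ (Tr ξ ψ) = 0 := h0
        rw [h4, sub_zero]
      have h5 := (P s ξ - P s' ξ).le_opNorm (Tr ξ ψ)
      rw [h3] at h5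
      nlinarith [hlt ξ]
  have hunif := (isCompact_Icc.prod isCompact_sq).uniformContinuousOn_of_continuous
    (hP.mono (prod_mono (subset_refl (Icc (0 : ℝ) 1)) (subset_univ sq)))
  rw [Metric.uniformContinuousOn_iff] at hunif
  obtain ⟨δ, hδ, hδ'⟩ := hunif 1 one_pos
  have hclose : ∀ s ∈ Icc (0 : ℝ) 1, ∀ s' ∈ Icc (0 : ℝ) 1, dist s s' < δ →
      ∀ ξ, ‖P s ξ - P s' ξ‖ < 1 := by
    intro s hs s' hs' hd ξ
    have h1 := per_fract_two (P s) (hper1 s hs) (hper2 s hs) ξ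
    have h2 := per_fract_two (P s') (hper1 s' hs') (hper2 s' hs') ξ
    rw [← h1, ← h2, ← dist_eq_norm]
    refine hδ' (s, (Int.fract ξ.1, Int.fract ξ.2)) ⟨hs, fract_mem_sq ξ⟩
      (s', (Int.fract ξ.1, Int.fract ξ.2)) ⟨hs', fract_mem_sq ξ⟩ ?_
    rw [Prod.dist_eq]
    simpa using hd
  have hG1 : Good 1 :=
    ⟨fun _ => ContinuousLinearMap.id ℂ X, continuous_const, fun _ => rfl, fun _ => rfl,
      fun ξ ψ hψ => ⟨hψ, fun h => h⟩⟩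
  have := isPreconnected_Icc.induction₂' (s := Icc (0 : ℝ) 1) (fun s s' => Good s → Good s') ?_ ?_
    (right_mem_Icc.2 zero_le_one) (left_mem_Icc.2 zero_le_one) hG1
  · exact this
  · intro s hs
    have hev : ∀ᶠ s' in 𝓝[Icc 0 1] s, dist s' s < δ :=
      mem_nhdsWithin_of_mem_nhds (Metric.ball_mem_nhds s hδ)
    filter_upwards [hev, self_mem_nhdsWithin] with s' hd hs'
    exact ⟨step s hs s' hs' (hclose s hs s' hs' (by rwa [dist_comm])),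
      step s' hs' s hs (hclose s' hs' s hs hd)⟩
  · intro x _ y _ z _ h1 h2 h
    exact h2 (h1 h)

end Vale.Agent.P247.H350
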