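import Vale.Agent.P247.H350.Red3

/-!
# Behaviour near the puncture: rank one perturbations
-/

open Set Filter Topology Asymptotics

namespace Vale.Agent.P247.H350

variable {X Y : Type*} [NormedAddCommGroup X] [InnerProductSpace ℂ X] [CompleteSpace X]
  [NormedAddCommGroup Y] [InnerProductSpace ℂ Y] [CompleteSpace Y]

theorem invertible_of_bijective (A : X →L[ℂ] Y) (h : Function.Bijective A) : A.IsInvertible := by
  refine ⟨ContinuousLinearEquiv.ofBijective A (LinearMap.ker_eq_bot.2 h.1)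
    (LinearMap.range_eq_top.2 h.2), ?_⟩
  ext x
  rfl

omit [CompleteSpace Y] in
theorem inverse_continuousOn {T : Type*} [TopologicalSpace T] {S : Set T} (A : T → X →L[ℂ] Y)
    (hA : ContinuousOn A S) (h : ∀ t ∈ S, (A t).IsInvertible) :
    ContinuousOn (fun t => (A t).inverse) S := by
  intro t ht
  have h1 : ContinuousAt ContinuousLinearMap.inverse (A t) :=
    ((h t ht).contDiffAt_map_inverse (n := 0)).continuousAt
  exact ContinuousAt.comp_continuousWithinAt (f := A) h1 (hA t ht)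

omit [CompleteSpace X] in
theorem rankone_bijective (A : X →L[ℂ] Y) (ψ₀ : X) (φ₀ : Y) (hψ : ψ₀ ≠ 0) (hφ : φ₀ ≠ 0)
    (hker : ∀ ψ, A ψ = 0 ↔ ∃ a : ℂ, ψ = a • ψ₀)
    (hcok : ∀ y : Y, (∀ ψ, inner ℂ y (A ψ) = 0) ↔ ∃ a : ℂ, y = a • φ₀)
    (hcl : IsClosed (A.range : Set Y)) :
    Function.Bijective (A + (innerSL ℂ ψ₀).smulRight φ₀) := by
  have hφφ : inner ℂ φ₀ φ₀ ≠ (0 : ℂ) := inner_self_ne_zero.2 hφ
  have hψψ : inner ℂ ψ₀ ψ₀ ≠ (0 : ℂ) := inner_self_ne_zero.2 hψ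
  have happ : ∀ ψ, (A + (innerSL ℂ ψ₀).smulRight φ₀) ψ = A ψ + inner ℂ ψ₀ ψ • φ₀ := fun ψ => rfl
  constructor
  · rw [injective_iff_map_eq_zero]
    intro ψ h
    rw [happ] at h
    have h1 : inner ℂ φ₀ (A ψ) = 0 := (hcok φ₀).2 ⟨1, (one_smul _ _).symm⟩ ψ
    have h2 : inner ℂ φ₀ (A ψ + inner ℂ ψ₀ ψ • φ₀) = 0 := by rw [h, inner_zero_right]
    rw [inner_add_right, h1, zero_add, inner_smul_right] at h2
    have h3 : inner ℂ ψ₀ ψ = 0 := by
      rcases mul_eq_zero.1 h2 with h | h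
      · exact h
      · exact absurd h hφφ
    rw [h3, zero_smul, add_zero] at h
    obtain ⟨a, rfl⟩ := (hker ψ).1 h
    rw [inner_smul_right] at h3
    rcases mul_eq_zero.1 h3 with h | h
    · rw [h, zero_smul]
    · exact absurd h hψψ
  · intro y
    have : CompleteSpace A.range := hcl.completeSpace_coe
    have hy : y ∈ A.range ⊔ (A.range)ᗮ := by
      rw [Submodule.sup_orthogonal_of_hasOrthogonalProjection]; trivial
    obtain ⟨_, ⟨x, rfl⟩, u, hu, rfl⟩ := Submodule.mem_sup.1 hy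
    obtain ⟨a, rfl⟩ := (hcok u).1 (fun ψ => by
      rw [← inner_conj_symm, (Submodule.mem_orthogonal _ _).1 hu (A ψ) ⟨ψ, rfl⟩, map_zero])
    refine ⟨x + ((a - inner ℂ ψ₀ x) / inner ℂ ψ₀ ψ₀) • ψ₀, ?_⟩
    rw [happ, map_add, (hker _).2 ⟨_, rfl⟩, inner_add_right, inner_smul_right,
      div_mul_cancel₀ _ hψψ]
    simp

omit [CompleteSpace X] [CompleteSpace Y] in
theorem mu_asymp (A : ℝ × ℝ → X →L[ℂ] Y) (c : ℝ × ℝ) (ψ₀ : X) (φ₀ : Y) (hψ : ψ₀ ≠ 0)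
    (hφ : φ₀ ≠ 0) (κ : ℂ) (hker : A c ψ₀ = 0) (hcok : ∀ ψ, inner ℂ φ₀ (A c ψ) = 0)
    (hinv : ∀ᶠ h : ℝ × ℝ in 𝓝 0, (A (c + h) + (innerSL ℂ ψ₀).smulRight φ₀).IsInvertible)
    (hcont : ContinuousAt (fun ξ => (A ξ + (innerSL ℂ ψ₀).smulRight φ₀).inverse) c)
    (hlin : (fun h : ℝ × ℝ => inner ℂ φ₀ (A (c + h) ψ₀) -
      κ * ((h.1 : ℂ) + (h.2 : ℂ) * Complex.I)) =o[𝓝 0] fun h => h)
    (hO : (fun h : ℝ × ℝ => A (c + h) - A c) =O[𝓝 0] fun h => h) :
    (fun h : ℝ × ℝ => 1 - inner ℂ ψ₀ ((A (c + h) + (innerSL ℂ ψ₀).smulRight φ₀).inverse φ₀) -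
      (κ / (inner ℂ ψ₀ ψ₀ * inner ℂ φ₀ φ₀)) * ((h.1 : ℂ) + (h.2 : ℂ) * Complex.I))
      =o[𝓝 0] fun h => h := by
  have hφφ : inner ℂ φ₀ φ₀ ≠ (0 : ℂ) := inner_self_ne_zero.2 hφ
  have hψψ : inner ℂ ψ₀ ψ₀ ≠ (0 : ℂ) := inner_self_ne_zero.2 hψ
  set M : ℝ × ℝ → X →L[ℂ] Y := fun ξ => A ξ + (innerSL ℂ ψ₀).smulRight φ₀ with hM
  have happ : ∀ ξ ψ, M ξ ψ = A ξ ψ + inner ℂ ψ₀ ψ • φ₀ := fun ξ ψ => rfl
  set p : X := (inner ℂ ψ₀ ψ₀)⁻¹ • ψ₀ with hp
  -- the correction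
  set δ : ℝ × ℝ → X := fun h => (M (c + h)).inverse φ₀ - p with hδ
  have hδ1 : ∀ᶠ h : ℝ × ℝ in 𝓝 0, δ h = (M (c + h)).inverse ((A c - A (c + h)) p) := by
    filter_upwards [hinv] with h hh
    have e1 : M (c + h) p = φ₀ - (A c - A (c + h)) p := by
      rw [happ, sub_apply, hp, inner_smul_right, inv_mul_cancel₀ hψψ, one_smul, map_smul,
        map_smul, hker]
      simp [add_comm]
    have e2 : p = (M (c + h)).inverse (φ₀ - (A c - A (c + h)) p) := by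
      rw [← e1]
      exact (hh.inverse_apply_self p).symm
    calc δ h = (M (c + h)).inverse φ₀ - (M (c + h)).inverse (φ₀ - (A c - A (c + h)) p) := by
          rw [← e2]
      _ = _ := by rw [← map_sub]; congr 1; abel
  have hident : ∀ᶠ h : ℝ × ℝ in 𝓝 0,
      1 - inner ℂ ψ₀ ((M (c + h)).inverse φ₀) -
        (κ / (inner ℂ ψ₀ ψ₀ * inner ℂ φ₀ φ₀)) * ((h.1 : ℂ) + (h.2 : ℂ) * Complex.I) =
      (inner ℂ ψ₀ ψ₀ * inner ℂ φ₀ φ₀)⁻¹ * (inner ℂ φ₀ (A (c + h) ψ₀) -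
        κ * ((h.1 : ℂ) + (h.2 : ℂ) * Complex.I)) +
      (inner ℂ φ₀ φ₀)⁻¹ * inner ℂ φ₀ ((A (c + h) - A c) (δ h)) := by
    filter_upwards [hinv] with h hh
    have e1 : M (c + h) ((M (c + h)).inverse φ₀) = φ₀ := hh.self_apply_inverse φ₀
    rw [happ] at e1
    have e2 : inner ℂ φ₀ (A (c + h) ((M (c + h)).inverse φ₀)) =
        (1 - inner ℂ ψ₀ ((M (c + h)).inverse φ₀)) * inner ℂ φ₀ φ₀ := by
      have := congrArg (fun y => inner ℂ φ₀ y) e1
      simp only [inner_add_right, inner_smul_right] at this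
      linear_combination this
    have e3 : (M (c + h)).inverse φ₀ = p + δ h := (add_sub_cancel _ _).symm
    have e4 : inner ℂ φ₀ (A (c + h) ((M (c + h)).inverse φ₀)) =
        (inner ℂ ψ₀ ψ₀)⁻¹ * inner ℂ φ₀ (A (c + h) ψ₀) +
          inner ℂ φ₀ ((A (c + h) - A c) (δ h)) := by
      rw [e3, map_add, inner_add_right, hp, map_smul, inner_smul_right, sub_apply,
        inner_sub_right, hcok, sub_zero]
    rw [e2] at e4
    field_simp
    field_simp at e4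
    linear_combination e4
  have hbdd : (fun h : ℝ × ℝ => (M (c + h)).inverse) =O[𝓝 0] (fun _ => (1 : ℝ)) := by
    have h1 : Tendsto (fun h : ℝ × ℝ => c + h) (𝓝 0) (𝓝 c) := by
      have : Continuous (fun h : ℝ × ℝ => c + h) := by fun_prop
      simpa using this.tendsto 0
    exact (hcont.tendsto.comp h1).isBigO_one ℝ
  have hδO : δ =O[𝓝 0] fun h : ℝ × ℝ => ‖h‖ := by
    have h1 : (fun h : ℝ × ℝ => (M (c + h)).inverse ((A c - A (c + h)) p)) =O[𝓝 0]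
        fun h : ℝ × ℝ => (1 : ℝ) * ‖h‖ := by
      have h2 : (fun h : ℝ × ℝ => (M (c + h)).inverse ((A c - A (c + h)) p)) =O[𝓝 0]
          fun h => ‖(M (c + h)).inverse‖ * ‖A (c + h) - A c‖ := by
        refine IsBigO.of_bound ‖p‖ (Eventually.of_forall fun h => ?_)
        rw [Real.norm_of_nonneg (by positivity)]
        calc ‖(M (c + h)).inverse ((A c - A (c + h)) p)‖
            ≤ ‖(M (c + h)).inverse‖ * ‖(A c - A (c + h)) p‖ :=
              ContinuousLinearMap.le_opNorm _ _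
          _ ≤ ‖(M (c + h)).inverse‖ * (‖A c - A (c + h)‖ * ‖p‖) := by
              gcongr
              exact ContinuousLinearMap.le_opNorm _ _
          _ = ‖p‖ * (‖(M (c + h)).inverse‖ * ‖A (c + h) - A c‖) := by
              rw [norm_sub_rev]; ring
      exact h2.trans (hbdd.norm_left.mul (hO.norm_left.norm_right))
    simp only [one_mul] at h1
    exact h1.congr' (hδ1.mono fun h hh => hh.symm) EventuallyEq.rfl
  have hsecond : (fun h : ℝ × ℝ => inner ℂ φ₀ ((A (c + h) - A c) (δ h))) =o[𝓝 0]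
      fun h => h := by
    have h1 : (fun h : ℝ × ℝ => inner ℂ φ₀ ((A (c + h) - A c) (δ h))) =O[𝓝 0]
        fun h => ‖A (c + h) - A c‖ * ‖δ h‖ := by
      refine IsBigO.of_bound ‖φ₀‖ (Eventually.of_forall fun h => ?_)
      rw [Real.norm_of_nonneg (by positivity)]
      calc ‖inner ℂ φ₀ ((A (c + h) - A c) (δ h))‖ ≤ ‖φ₀‖ * ‖(A (c + h) - A c) (δ h)‖ :=
            norm_inner_le_norm _ _
        _ ≤ ‖φ₀‖ * (‖A (c + h) - A c‖ * ‖δ h‖) := by
            gcongr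
            exact ContinuousLinearMap.le_opNorm _ _
    have h2 : (fun h : ℝ × ℝ => ‖A (c + h) - A c‖ * ‖δ h‖) =O[𝓝 0]
        fun h : ℝ × ℝ => ‖h‖ * ‖h‖ := (hO.norm_left.norm_right).mul hδO.norm_left
    have h3 : (fun h : ℝ × ℝ => ‖h‖ * ‖h‖) =o[𝓝 0] fun h : ℝ × ℝ => h := by
      have := isLittleO_norm_pow_id (E' := ℝ × ℝ) one_lt_two
      simpa [pow_two] using this
    exact (h1.trans h2).trans_isLittleO h3
  refine IsLittleO.congr' ?_ (hident.mono fun h hh => hh.symm) EventuallyEq.rfl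
  exact (hlin.const_mul_left _).add (hsecond.const_mul_left _)

end Vale.Agent.P247.H350
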