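import Vale.Agent.P247.H350.Red4
import Vale.Agent.P247.H931.Sta1

/-!
# The Fredholm reduction
-/

open Set Filter Topology Asymptotics

namespace Vale.Agent.P247.H350

open Vale.Agent.P247.H931

/-- Reduction to finitely many dimensions. -/
theorem red_core {X Y : Type*} [NormedAddCommGroup X] [InnerProductSpace ℂ X] [CompleteSpace X]
    [NormedAddCommGroup Y] [InnerProductSpace ℂ Y] [CompleteSpace Y]
    (D : ℝ → ℝ × ℝ → (X →L[ℂ] Y))
    (hD : ContinuousOn (fun p : ℝ × (ℝ × ℝ) => D p.1 p.2) (Icc 0 1 ×ˢ univ))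
    (hp1 : ∀ s ∈ Icc (0 : ℝ) 1, ∀ ξ, D s (ξ + (1, 0)) = D s ξ)
    (hp2 : ∀ s ∈ Icc (0 : ℝ) 1, ∀ ξ, D s (ξ + (0, 1)) = D s ξ)
    (hest : ∀ s ∈ Icc (0 : ℝ) 1, ∀ ξ, ∃ C > 0, ∃ j : X →L[ℂ] Y, IsCompactOperator j ∧
      ∀ ψ, ‖ψ‖ ≤ C * (‖D s ξ ψ‖ + ‖j ψ‖))
    (c : ℝ × ℝ) (hbij : ∀ ξ ∉ Lat c, Function.Bijective (D 1 ξ)) (φ₀ : Y)
    (K : ℝ × ℝ → X → Y) (hK : Continuous (fun p : (ℝ × ℝ) × X => K p.1 p.2))
    (hK1 : ∀ ξ ψ, K (ξ + (1, 0)) ψ = K ξ ψ) (hK2 : ∀ ξ ψ, K (ξ + (0, 1)) ψ = K ξ ψ)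
    (hKh : ∀ ξ (a : ℂ) ψ, K ξ (a • ψ) = a • K ξ ψ)
    (hKc : ∀ R : ℝ, ∃ S : Set Y, IsCompact S ∧ ∀ ξ ψ, ‖ψ‖ ≤ R → K ξ ψ ∈ S)
    (hno' : ∀ ξ, ∀ ψ, D 0 ξ ψ + K ξ ψ = 0 → ψ = 0) :
    IsClosed ((D 1 c).range : Set Y) ∧
    ∃ W : Submodule ℂ Y, FiniteDimensional ℂ W ∧ φ₀ ∈ W ∧ ∃ g : ℝ × ℝ → X → W,
      Continuous (fun p : (ℝ × ℝ) × X => g p.1 p.2) ∧
      (∀ ξ ψ, g (ξ + (1, 0)) ψ = g ξ ψ) ∧ (∀ ξ ψ, g (ξ + (0, 1)) ψ = g ξ ψ) ∧
      (∀ ξ (a : ℂ) ψ, g ξ (a • ψ) = a • g ξ ψ) ∧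
      (∀ ξ ψ, D 1 ξ ψ ∈ W → ψ ≠ 0 → g ξ ψ ≠ 0) := by
  have hDc : ∀ s ∈ Icc (0 : ℝ) 1, Continuous (D s) := by
    intro s hs
    rw [← continuousOn_univ]
    have h1 : ContinuousOn (fun ξ : ℝ × ℝ => ((s, ξ) : ℝ × (ℝ × ℝ))) univ := by fun_prop
    exact hD.comp h1 (fun ξ _ => ⟨hs, mem_univ _⟩)
  have h01 : (0 : ℝ) ∈ Icc (0 : ℝ) 1 := left_mem_Icc.2 zero_le_one
  have h11 : (1 : ℝ) ∈ Icc (0 : ℝ) 1 := right_mem_Icc.2 zero_le_one
  have hfr : ∀ s ∈ Icc (0 : ℝ) 1, ∀ ξ : ℝ × ℝ, D s (Int.fract ξ.1, Int.fract ξ.2) = D s ξ :=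
    fun s hs ξ => per_fract_two (D s) (hp1 s hs) (hp2 s hs) ξ
  have hKfr : ∀ (ξ : ℝ × ℝ) ψ, K (Int.fract ξ.1, Int.fract ξ.2) ψ = K ξ ψ :=
    fun ξ ψ => per_fract_two (fun ξ => K ξ ψ) (fun ξ => hK1 ξ ψ) (fun ξ => hK2 ξ ψ) ξ
  -- (R1)
  have hKs : IsCompact ((Icc (0 : ℝ) 1) ×ˢ sq) := isCompact_Icc.prod isCompact_sq
  have hDK : ContinuousOn (fun p : ℝ × (ℝ × ℝ) => D p.1 p.2) ((Icc (0 : ℝ) 1) ×ˢ sq) :=
    hD.mono (prod_mono (subset_refl _) (subset_univ _))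
  obtain ⟨F, hF, d, hd, hb⟩ := unif_bound hKs (fun p : ℝ × (ℝ × ℝ) => D p.1 p.2) hDK
    (fun t ht => hest t.1 ht.1 t.2)
  have hb' : ∀ t ∈ (Icc (0 : ℝ) 1) ×ˢ (univ : Set (ℝ × ℝ)), ∀ ψ ∈ Fᗮ,
      d * ‖ψ‖ ≤ ‖D t.1 t.2 ψ‖ := by
    rintro ⟨s, ξ⟩ ⟨hs, -⟩ ψ hψ
    have := hb (s, (Int.fract ξ.1, Int.fract ξ.2)) ⟨hs, fract_mem_sq ξ⟩ ψ hψ
    rwa [hfr s hs ξ] at this
  -- base point
  have hbase : c + (1 / 2, 0) ∉ Lat c := by
    rintro ⟨m, n, h⟩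
    have h1 := congrArg Prod.fst (add_left_cancel h)
    simp only at h1
    have h2 : (2 : ℝ) * m = 1 := by rw [← h1]; norm_num
    have h3 : (2 : ℤ) * m = 1 := by exact_mod_cast h2
    omega
  have hfin0 : FiniteDimensional ℂ
      ((((D 1 (c + (1 / 2, 0))).comp Fᗮ.subtypeL).range)ᗮ : Submodule ℂ Y) := by
    have hsurj := (hbij _ hbase).2
    have hcl := closed_range_of_bound ((D 1 (c + (1 / 2, 0))).comp Fᗮ.subtypeL) hd
      (fun z => hb' (1, c + (1 / 2, 0)) ⟨h11, mem_univ _⟩ z z.2)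
    refine finite_orth _ (F.map (D 1 (c + (1 / 2, 0))).toLinearMap) hcl ?_
    rw [eq_top_iff]
    rintro y -
    obtain ⟨x, rfl⟩ := hsurj y
    have hx : x ∈ F ⊔ Fᗮ := by
      rw [Submodule.sup_orthogonal_of_hasOrthogonalProjection]; trivial
    obtain ⟨f, hf, z, hz, rfl⟩ := Submodule.mem_sup.1 hx
    rw [map_add, add_comm (D 1 _ f)]
    exact Submodule.add_mem_sup ⟨⟨z, hz⟩, rfl⟩ ⟨f, hf, rfl⟩
  have hfin := cofin_all (isPreconnected_Icc.prod isPreconnected_univ)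
    (fun p : ℝ × (ℝ × ℝ) => D p.1 p.2) hD F hd hb'
    (t0 := (1, c + (1 / 2, 0))) ⟨h11, mem_univ _⟩ hfin0
  obtain ⟨W₁, hW₁, hW₁top⟩ := exists_common hKs (fun p : ℝ × (ℝ × ℝ) => D p.1 p.2) hDK F hd hb
    (fun t ht => hfin t ⟨ht.1, mem_univ _⟩)
  -- (R3)
  obtain ⟨e, he, hlow⟩ := lower_bound (D 0) (hDc 0 h01) (hest 0 h01) K hK hKh hKc hno'
    isCompact_sq
  have hlow' : ∀ ξ ψ, e * ‖ψ‖ ≤ ‖D 0 ξ ψ + K ξ ψ‖ := by
    intro ξ ψ
    have := hlow _ (fract_mem_sq ξ) ψ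
    rwa [hfr 0 h01, hKfr] at this
  -- (R4)
  obtain ⟨S, hS, hKS⟩ := hKc 1
  obtain ⟨t, ht, hcov⟩ := Metric.totallyBounded_iff.1 hS.totallyBounded (e / 2) (by positivity)
  have hspan : FiniteDimensional ℂ (Submodule.span ℂ t) := FiniteDimensional.span_of_finite ℂ ht
  set W : Submodule ℂ Y := W₁ ⊔ (Submodule.span ℂ {φ₀} ⊔ Submodule.span ℂ t) with hW
  have hWfin : FiniteDimensional ℂ W := by rw [hW]; infer_instance
  have hφW : φ₀ ∈ W :=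
    (le_sup_left.trans (le_sup_right : _ ≤ W)) (Submodule.mem_span_singleton_self φ₀)
  have htW : ∀ y ∈ t, y ∈ W := fun y hy =>
    (le_sup_right.trans (le_sup_right : _ ≤ W)) (Submodule.subset_span hy)
  have hWtop : ∀ s ∈ Icc (0 : ℝ) 1, ∀ ξ, (D s ξ).range ⊔ W = ⊤ := by
    intro s hs ξ
    have h1 := hW₁top (s, (Int.fract ξ.1, Int.fract ξ.2)) ⟨hs, fract_mem_sq ξ⟩
    simp only [hfr s hs ξ] at h1
    rw [eq_top_iff, ← h1]
    exact sup_le_sup_left le_sup_left _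
  have hKW : ∀ ξ ψ, ‖Wᗮ.starProjection (K ξ ψ)‖ ≤ e / 2 * ‖ψ‖ := by
    have h1 : ∀ ξ ψ, ‖ψ‖ ≤ 1 → ‖Wᗮ.starProjection (K ξ ψ)‖ ≤ e / 2 := by
      intro ξ ψ hψ
      obtain ⟨y, hy, hyb⟩ := mem_iUnion₂.1 (hcov (hKS ξ ψ hψ))
      have h2 : Wᗮ.starProjection y = 0 := by
        rw [Submodule.starProjection_apply_eq_zero_iff]
        exact Submodule.le_orthogonal_orthogonal W (htW y hy)
      have h3 : Wᗮ.starProjection (K ξ ψ) = Wᗮ.starProjection (K ξ ψ - y) := by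
        rw [map_sub, h2, sub_zero]
      rw [h3]
      refine (Submodule.norm_starProjection_apply_le _ _).trans ?_
      rw [← dist_eq_norm]
      exact (Metric.mem_ball.1 hyb).le
    intro ξ ψ
    rcases eq_or_ne ψ 0 with rfl | hne
    · have : K ξ 0 = 0 := by simpa using hKh ξ 0 0
      simp [this]
    have hpos : 0 < ‖ψ‖ := norm_pos_iff.2 hne
    have h2 := h1 ξ (((‖ψ‖ : ℂ)⁻¹) • ψ) (by rw [norm_smul]; simp [hpos.ne'])
    rw [hKh, map_smul, norm_smul] at h2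
    have h3 : ‖((‖ψ‖ : ℂ)⁻¹)‖ = ‖ψ‖⁻¹ := by simp
    rw [h3, inv_mul_le_iff₀ hpos] at h2
    linarith
  -- (R5)
  set B : ℝ → ℝ × ℝ → (X →L[ℂ] Wᗮ) := fun s ξ => (Wᗮ.orthogonalProjectionOnto).comp (D s ξ)
    with hB
  have hBapp : ∀ s ξ ψ, B s ξ ψ = 0 ↔ D s ξ ψ ∈ W := by
    intro s ξ ψ
    show Wᗮ.orthogonalProjectionOnto (D s ξ ψ) = 0 ↔ _
    rw [Submodule.orthogonalProjectionOnto_eq_zero_iff, Submodule.orthogonal_orthogonal]
  have hBsurj : ∀ s ∈ Icc (0 : ℝ) 1, ∀ ξ, Function.Surjective (B s ξ) := by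
    intro s hs ξ z
    have hz : (z : Y) ∈ (D s ξ).range ⊔ W := by rw [hWtop s hs ξ]; trivial
    obtain ⟨_, ⟨x, rfl⟩, w, hw, hsum⟩ := Submodule.mem_sup.1 hz
    refine ⟨x, ?_⟩
    have h1 : Wᗮ.orthogonalProjectionOnto (D s ξ x) = Wᗮ.orthogonalProjectionOnto ((z : Y) - w) := by
      congr 1
      rw [← hsum]
      show D s ξ x = (D s ξ x + w) - w
      abel
    have h2 : Wᗮ.orthogonalProjectionOnto w = 0 := by
      rw [Submodule.orthogonalProjectionOnto_eq_zero_iff]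
      exact Submodule.le_orthogonal_orthogonal W hw
    show Wᗮ.orthogonalProjectionOnto (D s ξ x) = z
    rw [h1, map_sub, h2, sub_zero, Submodule.orthogonalProjectionOnto_mem_subspace_eq_self]
  have hBcont : ContinuousOn (fun p : ℝ × (ℝ × ℝ) => B p.1 p.2) ((Icc (0 : ℝ) 1) ×ˢ univ) :=
    continuousOn_const.clm_comp hD
  have hPcont := kerProj_continuousOn (fun p : ℝ × (ℝ × ℝ) => B p.1 p.2) hBcont
    (fun p hp => hBsurj p.1 hp.1 p.2)
  -- (R6)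
  obtain ⟨Tr, hTrc, hTr1, hTr2, hTrV⟩ := transport (fun s ξ => kerProj (B s ξ)) hPcont
    (fun s hs ξ => by simp only [hB, hp1 s hs]) (fun s hs ξ => by simp only [hB, hp2 s hs])
    (fun s ξ => {ψ | D s ξ ψ ∈ W})
    (fun s hs ξ ψ => (hBapp s ξ _).1 (kerProj_mem _ (hBsurj s hs ξ) ψ))
    (fun s hs ξ ψ hψ => kerProj_of_mem _ ((hBapp s ξ ψ).2 hψ))
  set g : ℝ × ℝ → X → W := fun ξ ψ =>
    W.orthogonalProjectionOnto (D 0 ξ (Tr ξ ψ) + K ξ (Tr ξ ψ)) with hg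
  have hgne : ∀ ξ ψ, D 1 ξ ψ ∈ W → ψ ≠ 0 → g ξ ψ ≠ 0 := by
    intro ξ ψ hψ hne h0
    obtain ⟨h1, h2⟩ := hTrV ξ ψ hψ
    have h1' : D 0 ξ (Tr ξ ψ) ∈ W := h1
    set φ := Tr ξ ψ with hφ
    have hφne : φ ≠ 0 := fun h => hne (h2 h)
    have h3 : Wᗮ.starProjection (D 0 ξ φ) = 0 := by
      rw [Submodule.starProjection_apply_eq_zero_iff]
      exact Submodule.le_orthogonal_orthogonal W h1'
    have h4 := Submodule.starProjection_add_starProjection_orthogonal (K := W) (D 0 ξ φ + K ξ φ)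
    have h5 : W.starProjection (D 0 ξ φ + K ξ φ) = 0 := by
      rw [Submodule.starProjection_apply]
      have h0' : W.orthogonalProjectionOnto (D 0 ξ φ + K ξ φ) = 0 := h0
      rw [h0']
      rfl
    rw [h5, zero_add, map_add, h3, zero_add] at h4
    have h6 := hKW ξ φ
    rw [h4] at h6
    have h7 := hlow' ξ φ
    have h8 : 0 < ‖φ‖ := norm_pos_iff.2 hφne
    nlinarith
  have hgh : ∀ ξ (a : ℂ) ψ, g ξ (a • ψ) = a • g ξ ψ := by
    intro ξ a ψ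
    simp only [hg, map_smul, hKh, ← smul_add]
  have hgc : Continuous (fun p : (ℝ × ℝ) × X => g p.1 p.2) := by
    have h1 : Continuous (fun p : (ℝ × ℝ) × X => Tr p.1 p.2) :=
      (hTrc.comp continuous_fst).clm_apply continuous_snd
    have h2 : Continuous (fun p : (ℝ × ℝ) × X => D 0 p.1 (Tr p.1 p.2)) :=
      ((hDc 0 h01).comp continuous_fst).clm_apply h1
    have h3 : Continuous (fun p : (ℝ × ℝ) × X => K p.1 (Tr p.1 p.2)) :=
      hK.comp (continuous_fst.prodMk h1)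
    exact W.orthogonalProjectionOnto.continuous.comp (h2.add h3)
  have hg1 : ∀ ξ ψ, g (ξ + (1, 0)) ψ = g ξ ψ := by
    intro ξ ψ
    simp only [hg, hp1 0 h01, hTr1, hK1]
  have hg2 : ∀ ξ ψ, g (ξ + (0, 1)) ψ = g ξ ψ := by
    intro ξ ψ
    simp only [hg, hp2 0 h01, hTr2, hK2]
  have hclc : IsClosed ((D 1 c).range : Set Y) := by
    have hcl := closed_range_of_bound ((D 1 c).comp Fᗮ.subtypeL) hd
      (fun z => hb' (1, c) ⟨h11, mem_univ _⟩ z z.2)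
    have h1 : (D 1 c).range = ((D 1 c).comp Fᗮ.subtypeL).range ⊔ F.map (D 1 c).toLinearMap := by
      apply le_antisymm
      · rintro _ ⟨x, rfl⟩
        have hx : x ∈ F ⊔ Fᗮ := by
          rw [Submodule.sup_orthogonal_of_hasOrthogonalProjection]; trivial
        obtain ⟨f, hf, z, hz, rfl⟩ := Submodule.mem_sup.1 hx
        rw [map_add]
        refine (add_comm (D 1 c f) (D 1 c z)) ▸ ?_
        exact Submodule.add_mem_sup ⟨⟨z, hz⟩, rfl⟩ ⟨f, hf, rfl⟩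
      · refine sup_le ?_ ?_
        · rintro _ ⟨z, rfl⟩
          exact ⟨z, rfl⟩
        · rintro _ ⟨z, -, rfl⟩
          exact ⟨z, rfl⟩
    rw [h1]
    exact Submodule.isClosed_sup_finiteDimensional _ _ hcl
  exact ⟨hclc, W, hWfin, hφW, g, hgc, hg1, hg2, hgh, hgne⟩

/-- The finite dimensional core implies the Fredholm version. -/
theorem red : RED_statement := by
  intro hTOP X Y _ _ _ _ _ _ D hD hp1 hp2 hest c hbij ψ₀ φ₀ κ hκ hker hcok hlin hO K hK hK1 hK2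
    hKh hKc
  by_contra hno
  have hno' : ∀ ξ, ∀ ψ, D 0 ξ ψ + K ξ ψ = 0 → ψ = 0 := by
    intro ξ ψ h
    by_contra hne
    exact hno ⟨ξ, ψ, hne, h⟩
  -- elementary facts
  have hlit : ¬ ((fun h : ℝ × ℝ => κ * ((h.1 : ℂ) + (h.2 : ℂ) * Complex.I)) =o[𝓝 0]
      fun h => h) := by
    intro h
    have h1 : Tendsto (fun t : ℝ => ((t, 0) : ℝ × ℝ)) (𝓝[≠] 0) (𝓝 0) := by
      have : Continuous (fun t : ℝ => ((t, 0) : ℝ × ℝ)) := by fun_prop
      exact (this.tendsto 0).mono_left nhdsWithin_le_nhds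
    have h2 := h.comp_tendsto h1
    have h3 := h2.bound (half_pos (norm_pos_iff.2 hκ))
    obtain ⟨t, ht, htne⟩ := (h3.and self_mem_nhdsWithin).exists
    have htne' : t ≠ 0 := htne
    simp only [Function.comp_apply, Complex.ofReal_zero, zero_mul, add_zero, norm_mul,
      Complex.norm_real] at ht
    have h4 : ‖((t, 0) : ℝ × ℝ)‖ = ‖t‖ := by
      rw [Prod.norm_def]
      simp
    rw [h4] at ht
    have h5 : 0 < ‖t‖ := norm_pos_iff.2 htne'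
    have h6 : 0 < ‖κ‖ := norm_pos_iff.2 hκ
    nlinarith
  have hψ₀ : ψ₀ ≠ 0 := by
    rintro rfl
    apply hlit
    simp only [map_zero, inner_zero_right, zero_sub] at hlin
    simpa using hlin.neg_left
  have hφ₀ : φ₀ ≠ 0 := by
    rintro rfl
    apply hlit
    simp only [inner_zero_left, zero_sub] at hlin
    simpa using hlin.neg_left
  have hDc : ∀ s ∈ Icc (0 : ℝ) 1, Continuous (D s) := by
    intro s hs
    rw [← continuousOn_univ]
    have h1 : ContinuousOn (fun ξ : ℝ × ℝ => ((s, ξ) : ℝ × (ℝ × ℝ))) univ := by fun_prop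
    exact hD.comp h1 (fun ξ _ => ⟨hs, mem_univ _⟩)
  have h11 : (1 : ℝ) ∈ Icc (0 : ℝ) 1 := right_mem_Icc.2 zero_le_one
  obtain ⟨hclc, W, hWfin, hφW, g, hgc, hg1, hg2, hgh, hgne⟩ := red_core D hD hp1 hp2 hest c hbij
    φ₀ K hK hK1 hK2 hKh hKc hno'
  -- (R7) away from the lattice
  have hinvD : ∀ ξ ∈ (Lat c)ᶜ, (D 1 ξ).IsInvertible := fun ξ hξ =>
    invertible_of_bijective _ (hbij ξ hξ)
  have hinvDc : ContinuousOn (fun ξ => (D 1 ξ).inverse) (Lat c)ᶜ :=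
    inverse_continuousOn (D 1) (hDc 1 h11).continuousOn hinvD
  -- near the puncture
  set M : ℝ × ℝ → X →L[ℂ] Y := fun ξ => D 1 ξ + (innerSL ℂ ψ₀).smulRight φ₀ with hM
  have hMapp : ∀ ξ ψ, M ξ ψ = D 1 ξ ψ + inner ℂ ψ₀ ψ • φ₀ := fun ξ ψ => rfl
  have hMcont : Continuous M := (hDc 1 h11).add continuous_const
  have hMc : (M c).IsInvertible :=
    invertible_of_bijective _ (rankone_bijective (D 1 c) ψ₀ φ₀ hψ₀ hφ₀ hker hcok hclc)
  have hopen : {ξ | (M ξ).IsInvertible} ∈ 𝓝 c := by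
    obtain ⟨E, hE⟩ := hMc
    have h1 : range ((↑) : (X ≃L[ℂ] Y) → X →L[ℂ] Y) ∈ 𝓝 (M c) := by
      rw [← hE]
      exact ContinuousLinearEquiv.nhds E
    exact hMcont.continuousAt.preimage_mem_nhds h1
  obtain ⟨r, hr, hball⟩ := Metric.nhds_basis_closedBall.mem_iff.1 hopen
  have hinvMc : ContinuousOn (fun ξ => (M ξ).inverse) (Metric.closedBall c r) :=
    inverse_continuousOn M hMcont.continuousOn (fun ξ hξ => hball hξ)
  -- apply the finite dimensional theorem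
  refine hTOP W c (fun ξ w => g ξ ((D 1 ξ).inverse w)) ?_ ?_ ?_ r hr
    (fun ξ w => g ξ ((M ξ).inverse w)) ?_ ⟨φ₀, hφW⟩
    (fun ξ => (innerSL ℂ ψ₀).comp ((M ξ).inverse.comp W.subtypeL)) ?_
    (κ / (inner ℂ ψ₀ ψ₀ * inner ℂ φ₀ φ₀)) ?_ ?_ ?_
  · -- HFam away
    refine ⟨?_, ?_, ?_⟩
    · have h1 : ContinuousOn (fun p : (ℝ × ℝ) × W => (D 1 p.1).inverse (p.2 : Y))
          ((Lat c)ᶜ ×ˢ univ) :=
        (hinvDc.comp continuousOn_fst (fun p hp => hp.1)).clm_apply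
          (continuous_subtype_val.comp continuous_snd).continuousOn
      exact hgc.comp_continuousOn (continuousOn_fst.prodMk h1)
    · intro ξ hξ a w
      simp only [Submodule.coe_smul, map_smul, hgh]
    · intro ξ hξ w hw
      refine hgne ξ _ ?_ ?_
      · rw [(hinvD ξ hξ).self_apply_inverse]
        exact w.2
      · intro h
        apply hw
        have := (hinvD ξ hξ).self_apply_inverse (w : Y)
        rw [h, map_zero] at this
        exact Subtype.ext this.symm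
  · intro ξ w
    simp only [hg1, hp1 1 h11]
  · intro ξ w
    simp only [hg2, hp2 1 h11]
  · -- HFam near
    refine ⟨?_, ?_, ?_⟩
    · have h1 : ContinuousOn (fun p : (ℝ × ℝ) × W => (M p.1).inverse (p.2 : Y))
          ((Metric.closedBall c r) ×ˢ univ) :=
        (hinvMc.comp continuousOn_fst (fun p hp => hp.1)).clm_apply
          (continuous_subtype_val.comp continuous_snd).continuousOn
      exact hgc.comp_continuousOn (continuousOn_fst.prodMk h1)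
    · intro ξ hξ a w
      simp only [Submodule.coe_smul, map_smul, hgh]
    · intro ξ hξ w hw
      have hinv : (M ξ).IsInvertible := hball hξ
      have h1 := hinv.self_apply_inverse (w : Y)
      refine hgne ξ _ ?_ ?_
      · rw [hMapp] at h1
        have h2 : D 1 ξ ((M ξ).inverse (w : Y)) =
            (w : Y) - inner ℂ ψ₀ ((M ξ).inverse (w : Y)) • φ₀ := by
          rw [eq_sub_iff_add_eq]
          exact h1
        rw [h2]
        exact W.sub_mem w.2 (W.smul_mem _ hφW)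
      · intro h
        apply hw
        rw [h, map_zero] at h1
        exact Subtype.ext h1.symm
  · exact continuousOn_const.clm_comp (hinvMc.clm_comp continuousOn_const)
  · exact div_ne_zero hκ (mul_ne_zero (inner_self_ne_zero.2 hψ₀) (inner_self_ne_zero.2 hφ₀))
  · -- asymptotics
    have hev : ∀ᶠ h : ℝ × ℝ in 𝓝 0,
        (D 1 (c + h) + (innerSL ℂ ψ₀).smulRight φ₀).IsInvertible := by
      have h1 : Tendsto (fun h : ℝ × ℝ => c + h) (𝓝 0) (𝓝 c) := by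
        have : Continuous (fun h : ℝ × ℝ => c + h) := by fun_prop
        simpa using this.tendsto 0
      exact h1.eventually hopen
    have hca : ContinuousAt (fun ξ => (D 1 ξ + (innerSL ℂ ψ₀).smulRight φ₀).inverse) c :=
      hinvMc.continuousAt (Metric.closedBall_mem_nhds c hr)
    exact mu_asymp (D 1) c ψ₀ φ₀ hψ₀ hφ₀ κ ((hker ψ₀).2 ⟨1, (one_smul _ _).symm⟩)
      ((hcok φ₀).2 ⟨1, (one_smul _ _).symm⟩) hev hca hlin hO
  · -- compatibility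
    intro ξ hξ hξL w
    have hinv : (M ξ).IsInvertible := hball hξ
    have hinv' := hinvD ξ hξL
    have h1 := hinv.self_apply_inverse (w : Y)
    rw [hMapp] at h1
    show g ξ ((D 1 ξ).inverse ((w : Y) - inner ℂ ψ₀ ((M ξ).inverse (w : Y)) • φ₀)) =
      g ξ ((M ξ).inverse (w : Y))
    have h2 : D 1 ξ ((M ξ).inverse (w : Y)) =
        (w : Y) - inner ℂ ψ₀ ((M ξ).inverse (w : Y)) • φ₀ := by
      rw [eq_sub_iff_add_eq]
      exact h1
    rw [← h2, hinv'.inverse_apply_self]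

end Vale.Agent.P247.H350
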